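import Vale.Agent.P054.SolveCases

/-!
# Solving the step inequality

The step inequality, used at one choice of `r` and `s`, gives `n ≤ B T ^ expo d (log n) ^ A'`;
inverting this gives the lower bound on the number of distances.
-/

namespace Vale.Agent.P054

open Finset Real

/-- The step inequality forces `n ≤ B T ^ expo d (log n) ^ A'`. -/
theorem solve {d : ℕ} (hd : 2 ≤ d) {K : ℝ} (hK : 1 ≤ K) (A : ℕ) :
    ∃ (B : ℝ) (A' : ℕ), 1 ≤ B ∧ ∀ n t : ℕ, 1 ≤ t →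
      (∀ r s : ℕ, 1 ≤ r → 1 ≤ s → 2 * r * s ≤ n → K ≤ (s : ℝ) →
        K * log ((n : ℝ) + 2) * ((t : ℝ) + 2) * (r : ℝ) ^ (1 - (d : ℝ)⁻¹) ≤ (r : ℝ) * s →
        K * log ((n : ℝ) + 2) * (r : ℝ) ^ (1 - (d : ℝ)⁻¹) ≤ r →
        (n : ℝ) ≤ K * ∑ j ∈ Icc 2 d, ((s : ℝ) ^ j * log ((n : ℝ) + 2) / (r : ℝ) ^ ((d : ℝ)⁻¹)
            + (s : ℝ) ^ (j - 1))
          * (((t : ℝ) + 2) ^ expo (d - j) * log ((n : ℝ) + 2) ^ A)) →
      (n : ℝ) ≤ B * ((t : ℝ) + 2) ^ expo d * log ((n : ℝ) + 2) ^ A' := by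
  have hK0 : (0 : ℝ) < K := by linarith
  have hd1 : (2 : ℝ) ≤ d := by exact_mod_cast hd
  set c : ℝ := 4 * K with hc
  set C : ℝ := 10 * K * d with hC
  set A' : ℕ := (A + d * d + 2) * (d + 1) with hA'
  have hc1 : 1 ≤ c := by linarith
  have hC1 : 1 ≤ C := by rw [hC]; nlinarith
  have hA'd : 2 * d ≤ A' ∧ d + 1 ≤ A' := by rw [hA']; constructor <;> nlinarith
  set B : ℝ := (C * c ^ (d * d + 1)) ^ (d + 1) + c ^ (d + 1) + 4 * K ^ (2 * d) + 2 * c * K ^ d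
    with hB
  have p1 : 0 ≤ (C * c ^ (d * d + 1)) ^ (d + 1) := by positivity
  have p2 : 1 ≤ c ^ (d + 1) := one_le_pow₀ hc1
  have p3 : 0 ≤ 4 * K ^ (2 * d) := by positivity
  have p4 : 0 ≤ 2 * c * K ^ d := by positivity
  refine ⟨B, A', by rw [hB]; linarith, fun n t ht hstep => ?_⟩
  have hB0 : 0 ≤ B := by rw [hB]; linarith
  rcases Nat.eq_zero_or_pos n with rfl | hn0
  · rw [Nat.cast_zero, zero_add]
    exact mul_nonneg (mul_nonneg hB0 (rpow_nonneg (by positivity) _))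
      (pow_nonneg (log_nonneg (by norm_num)) _)
  set L := log ((n : ℝ) + 2) with hLdef
  set T := (t : ℝ) + 2 with hTdef
  have hL : 1 ≤ L := one_le_log_add_two hn0
  have hT : 1 ≤ T := by rw [hTdef]; linarith [(Nat.cast_nonneg t : (0 : ℝ) ≤ t)]
  have hE := one_le_expo (d := d) (by omega)
  have hTE : T ≤ T ^ expo d := self_le_rpow_of_one_le hT hE
  have fin : ∀ (b : ℝ) (a : ℕ) (u : ℝ), b ≤ B → a ≤ A' → 0 ≤ b → 0 ≤ u → u ≤ T ^ expo d →
      (n : ℝ) ≤ b * u * L ^ a → (n : ℝ) ≤ B * T ^ expo d * L ^ A' := by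
    intro b a u hb ha hb0 hu0 hu h
    refine h.trans (mul_le_mul (mul_le_mul hb hu hu0 hB0) (pow_le_pow_right₀ hL ha)
      (by positivity) (by positivity))
  by_cases hbig : c ^ (d + 1) ≤ (n : ℝ)
  swap
  · refine fin (c ^ (d + 1)) 0 1 (by rw [hB]; linarith) (Nat.zero_le _) (by linarith)
      zero_le_one (one_le_rpow hT (by linarith)) ?_
    simpa using (not_le.1 hbig).le
  set X₁ := ((n : ℝ) / (c * T * L)) ^ ((d : ℝ) / ((d : ℝ) - 1)) with hX₁
  set X₂ := (n : ℝ) ^ ((d : ℝ) / ((d : ℝ) + 1)) with hX₂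
  set x := min X₁ X₂ with hx
  set M := 2 * (K * L) ^ d with hM
  have hn : (0 : ℝ) < n := by exact_mod_cast hn0
  have hKL : 1 ≤ K * L := one_le_mul_of_one_le_of_one_le hK hL
  have hM2 : 2 ≤ M := by
    rw [hM]
    linarith [one_le_pow₀ hKL (n := d)]
  have hq : 0 < (n : ℝ) / (c * T * L) := by positivity
  by_cases hM1 : M ≤ X₂
  swap
  · refine fin (4 * K ^ (2 * d)) (2 * d) 1 (by rw [hB]; linarith) hA'd.1 p3 zero_le_one
      (one_le_rpow hT (by linarith)) ?_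
    have h := not_le.1 hM1
    have h2 : (n : ℝ) ≤ M ^ (2 : ℕ) * (1 : ℝ) ^ (1 : ℝ) := by
      refine le_of_rpow_le (a := (d : ℝ) / ((d : ℝ) + 1)) (b := 0) hn.le (by linarith) le_rfl
        (by positivity) ?_ (by positivity) ?_
      · rw [div_mul_eq_mul_div, le_div_iff₀ (by linarith)]
        push_cast
        linarith
      · rw [one_rpow, mul_one]
        exact h.le
    rw [one_rpow, mul_one, hM, mul_pow, ← pow_mul, mul_pow] at h2
    rw [mul_one, mul_comm 2 d]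
    linarith
  by_cases hM3 : M ≤ X₁
  swap
  · refine fin (2 * c * K ^ d) (d + 1) T (by rw [hB]; linarith) hA'd.2 p4 (by linarith) hTE ?_
    have h := not_le.1 hM3
    have h2 : (n : ℝ) / (c * T * L) ≤ M := by
      rcases le_or_gt ((n : ℝ) / (c * T * L)) 1 with h1 | h1
      · linarith
      · refine (self_le_rpow_of_one_le h1.le ?_).trans h.le
        rw [le_div_iff₀ (by linarith)]
        linarith
    rw [div_le_iff₀ (by positivity), hM, mul_pow] at h2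
    calc (n : ℝ) ≤ 2 * (K ^ d * L ^ d) * (c * T * L) := h2
      _ = 2 * c * K ^ d * T * L ^ (d + 1) := by ring
  have hxM : M ≤ x := le_min hM3 hM1
  have hx1 : x ≤ X₁ := min_le_left _ _
  have hx2 : x ≤ X₂ := min_le_right _ _
  have hx0 : 0 < x := by linarith
  obtain ⟨r, s, hrn, hs1, hsup, hsK, hc1', hc2, hrx, hxr, hrs⟩ :=
    exists_params hd hK hn0 hT hL hbig hxM hx1 hx2
  obtain ⟨j, hj, hjle⟩ := step_at hd hK hn0 hT hL hx0 hx2 hrn hsup hrx hxr hrs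
    (hstep r s hrn hs1 hsup hsK hc1' hc2)
  obtain ⟨hj2, hjd⟩ := mem_Icc.1 hj
  have hkd : d - j + 2 ≤ d := by omega
  have hjk : (j : ℝ) = (d : ℝ) - (d - j : ℕ) := by
    rw [Nat.cast_sub hjd]
    ring
  have hkey : x ^ ((j : ℝ) + (d : ℝ)⁻¹) * n ≤
      C * L ^ (A + 1) * n ^ (j : ℝ) * T ^ expo (d - j) := by
    rw [rpow_add hx0, rpow_natCast, rpow_natCast]
    have hxd0 : 0 < x ^ ((d : ℝ)⁻¹) := rpow_pos_of_pos hx0 _
    have h := mul_le_mul_of_nonneg_left hjle (show 0 ≤ x ^ j * x ^ ((d : ℝ)⁻¹) by positivity)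
    refine h.trans (le_of_eq ?_)
    rw [hC, div_pow]
    field_simp
  suffices h : (n : ℝ) ≤ (C * c ^ (d * d + 1) * L ^ (A + d * d + 2)) ^ (d + 1) * T ^ expo d by
    refine fin ((C * c ^ (d * d + 1)) ^ (d + 1)) A' (T ^ expo d) ?_ le_rfl p1 (by positivity) le_rfl
      (h.trans (le_of_eq ?_))
    · rw [hB]; linarith
    · rw [mul_pow, ← pow_mul, hA']; ring
  rcases min_cases X₁ X₂ with ⟨hmin, -⟩ | ⟨hmin, -⟩
  · exact case_first hd hkd hjk hn hT hL hC1 hc1 (hx.trans hmin) hkey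
  · exact case_second hd hkd hjk hn hT hL hC1 hc1 (hx.trans hmin) hkey

/-- Inverting the upper bound on `n`. -/
theorem lower_of_upper {d : ℕ} (hd : 1 ≤ d) {B : ℝ} (hB : 1 ≤ B) (A : ℕ) :
    ∃ c : ℝ, 0 < c ∧ ∀ n t : ℕ, 2 ≤ n → 1 ≤ t →
      (n : ℝ) ≤ B * ((t : ℝ) + 2) ^ expo d * log ((n : ℝ) + 2) ^ A →
      c * (n : ℝ) ^ ((2 * (d : ℝ) - 1) / (d : ℝ) ^ 2) / log n ^ A ≤ t := by
  refine ⟨1 / (3 * 2 ^ A * B), by positivity, fun n t hn ht h => ?_⟩
  set γ := (2 * (d : ℝ) - 1) / (d : ℝ) ^ 2 with hγ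
  have hd1 : (1 : ℝ) ≤ d := by exact_mod_cast hd
  have hn2 : (2 : ℝ) ≤ n := by exact_mod_cast hn
  have ht1 : (1 : ℝ) ≤ t := by exact_mod_cast ht
  have hγe : expo d * γ = 1 := by
    rw [expo, hγ, div_mul_div_comm, mul_comm (2 * (d : ℝ) - 1), div_self]
    exact mul_ne_zero (by positivity) (by linarith)
  have hγ0 : 0 ≤ γ := div_nonneg (by linarith) (by positivity)
  have hγ1 : γ ≤ 1 := by
    rw [hγ, div_le_one (by positivity)]
    nlinarith [sq_nonneg ((d : ℝ) - 1)]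
  have hl : 0 < log (n : ℝ) := log_pos (by linarith)
  set L := log ((n : ℝ) + 2)
  have hL : 1 ≤ L := one_le_log_add_two (by omega)
  have hL2 : L ≤ 2 * log (n : ℝ) := by
    rw [show (2 : ℝ) * log (n : ℝ) = ((2 : ℕ) : ℝ) * log n by norm_num, ← log_pow]
    exact log_le_log (by linarith) (by nlinarith)
  have h1 : (n : ℝ) ^ γ ≤ B * L ^ A * ((t : ℝ) + 2) := by
    have h2 := rpow_le_rpow (by linarith) h hγ0
    rw [mul_right_comm B, mul_rpow (by positivity) (rpow_nonneg (by linarith) _),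
      ← rpow_mul (by linarith : (0 : ℝ) ≤ t + 2), hγe, rpow_one] at h2
    exact h2.trans (mul_le_mul_of_nonneg_right
      (rpow_le_self_of_one_le (one_le_mul_of_one_le_of_one_le hB (one_le_pow₀ hL)) hγ1)
      (by linarith))
  rw [div_le_iff₀ (by positivity), one_div_mul_eq_div, div_le_iff₀ (by positivity)]
  calc (n : ℝ) ^ γ ≤ B * L ^ A * ((t : ℝ) + 2) := h1
    _ ≤ B * (2 * log (n : ℝ)) ^ A * (3 * t) :=
        mul_le_mul (mul_le_mul_of_nonneg_left (pow_le_pow_left₀ (by linarith) hL2 A) (by linarith))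
          (by linarith) (by linarith) (by positivity)
    _ = (t : ℝ) * log (n : ℝ) ^ A * (3 * 2 ^ A * B) := by rw [mul_pow]; ring

end Vale.Agent.P054
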