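import Vale.Agent.P054.Step
import Vale.Agent.P054.Solve

/-!
# Induction on the dimension
-/

namespace Vale.Agent.P054

open Finset

noncomputable section

lemma PointsBound.mono {k : ℕ} {B B' : ℝ} {A A' : ℕ} (h : PointsBound k B A) (hB0 : 0 ≤ B)
    (hB : B ≤ B') (hA : A ≤ A') : PointsBound k B' A' := by
  intro t Q hQ
  rcases Nat.eq_zero_or_pos (Finset.card Q) with h0 | h0
  · simp only [h0, Nat.cast_zero]
    have : 0 ≤ B' := hB0.trans hB
    have : 0 ≤ Real.log ((0 : ℝ) + 2) := Real.log_nonneg (by norm_num)
    positivity
  refine (h t Q hQ).trans ?_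
  have hl := one_le_log_add_two h0
  refine mul_le_mul (mul_le_mul_of_nonneg_right hB (by positivity))
    (pow_le_pow_right₀ hl hA) (pow_nonneg (by linarith) _) ?_
  have : 0 ≤ B' := hB0.trans hB
  positivity

/-- **The bound in every dimension.** -/
theorem exists_pointsBound (d : ℕ) : ∃ (B : ℝ) (A : ℕ), 1 ≤ B ∧ PointsBound d B A := by
  induction d using Nat.strong_induction_on with
  | _ d ih =>
    rcases lt_or_ge d 2 with hd | hd
    · refine ⟨1, 0, le_rfl, fun t Q hQ => ?_⟩
      simp only [pow_zero, mul_one, one_mul]
      interval_cases d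
      · refine (smallSets_zero t Q hQ).trans ?_
        simp [expo]
      · refine (smallSets_one t Q hQ).trans ?_
        have : expo 1 = 1 := by norm_num [expo]
        rw [this, Real.rpow_one]
        linarith
    · choose B A hB hPB using ih
      set Bm := 1 + ∑ k : Fin d, B k.1 k.2
      set Am := ∑ k : Fin d, A k.1 k.2
      have hnn : ∀ k : Fin d, 0 ≤ B k.1 k.2 := fun k => zero_le_one.trans (hB _ _)
      have hsmall : ∀ k ≤ d - 2, PointsBound k Bm Am := by
        intro k hk
        have hk' : k < d := by omega
        refine (hPB k hk').mono (hnn ⟨k, hk'⟩) ?_ ?_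
        · have := single_le_sum (f := fun k : Fin d => B k.1 k.2) (fun i _ => hnn i)
            (mem_univ ⟨k, hk'⟩)
          linarith
        · exact single_le_sum (f := fun k : Fin d => A k.1 k.2) (fun i _ => Nat.zero_le _)
            (mem_univ ⟨k, hk'⟩)
      have hBm : 1 ≤ Bm := le_add_of_nonneg_right (sum_nonneg fun k _ => hnn k)
      obtain ⟨K, hK, hstep⟩ := step hd hBm Am hsmall
      obtain ⟨B', A', hB', hsol⟩ := solve hd hK Am
      refine ⟨B', A', hB', fun t Q hQ => ?_⟩
      rcases Nat.eq_zero_or_pos t with rfl | ht
      · have h1 : (Finset.card Q) ≤ 1 := by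
          rw [card_le_one]
          intro x hx y hy
          by_contra hne
          have := card_pos.2 ⟨_, mem_dists hx hy hne⟩
          omega
        rcases Nat.eq_zero_or_pos (Finset.card Q) with h0 | h0
        · simp only [h0, Nat.cast_zero]
          have : 0 ≤ Real.log ((0 : ℝ) + 2) := Real.log_nonneg (by norm_num)
          positivity
        · have hQ1 : ((Finset.card Q) : ℝ) = 1 := by exact_mod_cast (show (Finset.card Q) = 1 by omega)
          have h2 : (1 : ℝ) ≤ B' * ((((0 : ℕ) : ℝ)) + 2) ^ expo d *
              Real.log (((Finset.card Q) : ℝ) + 2) ^ A' := by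
            refine one_le_mul_of_one_le_of_one_le (one_le_mul_of_one_le_of_one_le hB' ?_)
              (one_le_pow₀ (one_le_log_add_two h0))
            refine Real.one_le_rpow (by norm_num) ?_
            rw [expo]
            have : (2 : ℝ) ≤ d := by exact_mod_cast hd
            exact div_nonneg (sq_nonneg _) (by linarith)
          linarith
      · exact hsol (Finset.card Q) t ht (hstep Q t hQ)

end

end Vale.Agent.P054
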