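import Mathlib

/-!
# Shared definitions for the distinct distances bound
-/

namespace Vale.Agent.P054

/-- Euclidean space of dimension `d`. -/
abbrev Sp (d : ℕ) := EuclideanSpace ℝ (Fin d)

/-- The function `a ‖x‖² + ⟪b, x⟫ + c`; its zero set is a sphere or a hyperplane. -/
noncomputable def quad {d : ℕ} (g : ℝ × Sp d × ℝ) (x : Sp d) : ℝ :=
  g.1 * ‖x‖ ^ 2 + inner ℝ g.2.1 x + g.2.2

/-- The number of labels whose vector lies in the subspace `U`. -/
noncomputable def wt {ι V : Type} [AddCommGroup V] [Module ℝ V] (h : ι → V)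
    (U : Submodule ℝ V) : ℕ :=
  Set.ncard {i | h i ∈ U}

end Vale.Agent.P054
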