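import Mathlib
import Vale.Agent.P054.Defs

/-!
# Sign patterns of spheres and hyperplanes

`m` spheres or hyperplanes cut `ℝ^d` into `O_d((m + 1) ^ d)` sign classes.

Cover lemma: on a preconnected set `X`, every sign class that is not the only one contains a
point at which one of the functions takes the value `±δ`. Hence the classes are counted by those
met on the level sets `g i = ±δ`, and these are spheres or hyperplanes of one dimension less.
-/

namespace Vale.Agent.P054

open Filter Topology

/-- The sign patterns of `g` on the points of `P`. -/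
noncomputable def signPat {n m : ℕ} (g : Fin m → ℝ × Sp n × ℝ) (P : Finset (Sp n)) :
    Finset (Fin m → Bool) :=
  P.image (fun p i => decide (0 < quad (g i) p))

theorem continuous_quad {n : ℕ} (h : ℝ × Sp n × ℝ) : Continuous (quad h) := by
  unfold quad
  fun_prop

theorem signPat_card_le_cover {n m : ℕ} {X : Set (Sp n)} (hX : IsPreconnected X)
    (g : Fin m → ℝ × Sp n × ℝ) (P : Finset (Sp n)) (hPX : ∀ p ∈ P, p ∈ X)
    (hP : ∀ p ∈ P, ∀ i, quad (g i) p ≠ 0) (B : ℕ)
    (hB : ∀ (i : Fin m) (c : ℝ) (Q : Finset (Sp n)),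
      (∀ x ∈ Q, x ∈ X ∧ quad (g i) x = c) → (∀ x ∈ Q, ∀ j, quad (g j) x ≠ 0) →
      (∃ p ∈ X, quad (g i) p ≠ c) → (signPat g Q).card ≤ B) :
    (signPat g P).card ≤ 1 + 2 * m * B := by
  classical
  rcases le_or_gt (signPat g P).card 1 with h1 | h1
  · exact h1.trans (Nat.le_add_right _ _)
  obtain ⟨δ, hδ, hδ0⟩ : ∃ δ : ℝ, (∀ p ∈ P, ∀ i, δ < |quad (g i) p|) ∧ 0 < δ := by
    have e1 : ∀ᶠ δ in 𝓝[>] (0 : ℝ), ∀ p ∈ P, ∀ i, δ < |quad (g i) p| := by
      refine (eventually_all_finset P).2 fun p hp => eventually_all.2 fun i => ?_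
      exact (eventually_lt_nhds (abs_pos.2 (hP p hp i))).filter_mono nhdsWithin_le_nhds
    exact (e1.and self_mem_nhdsWithin).exists
  -- every pattern is realised on one of the level sets
  have key : ∀ p ∈ P, ∃ x ∈ X, (∀ j, quad (g j) x ≠ 0) ∧
      ((fun j => decide (0 < quad (g j) x)) = fun j => decide (0 < quad (g j) p)) ∧
      ∃ k : Fin m × Bool, quad (g k.1) x = if k.2 then δ else -δ := by
    intro p hp
    let s : Fin m → ℝ := fun i => if 0 < quad (g i) p then 1 else -1
    have hsp : ∀ i, δ < s i * quad (g i) p := by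
      intro i
      have h := hδ p hp i
      by_cases h0 : 0 < quad (g i) p
      · simpa [s, h0, abs_of_pos h0] using h
      · simpa [s, h0, abs_of_nonpos (not_lt.1 h0)] using h
    obtain ⟨p', hp', i₀, hi₀⟩ : ∃ p' ∈ P, ∃ i₀, s i₀ * quad (g i₀) p' < δ := by
      obtain ⟨τ, hτ, hne⟩ := Finset.exists_mem_ne h1 (fun j => decide (0 < quad (g j) p))
      obtain ⟨p', hp', rfl⟩ := Finset.mem_image.1 hτ
      obtain ⟨i₀, hi₀⟩ := Function.ne_iff.1 hne
      refine ⟨p', hp', i₀, ?_⟩
      by_cases h0 : 0 < quad (g i₀) p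
      · have h0' : ¬ 0 < quad (g i₀) p' := fun h => hi₀ (by simp [h, h0])
        simp only [s, if_pos h0, one_mul]
        linarith
      · have h0' : 0 < quad (g i₀) p' := by
          by_contra h
          exact hi₀ (by simp [h, h0])
        simp only [s, if_neg h0, neg_one_mul]
        linarith
    have hc : ∀ i, Continuous fun x => s i * quad (g i) x :=
      fun i => continuous_const.mul (continuous_quad (g i))
    let U : Set (Sp n) := ⋂ i, {x | δ < s i * quad (g i) x}
    let V : Set (Sp n) := ⋃ i, {x | s i * quad (g i) x < δ}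
    have hU : IsOpen U := isOpen_iInter_of_finite fun i => isOpen_lt continuous_const (hc i)
    have hV : IsOpen V := isOpen_iUnion fun i => isOpen_lt (hc i) continuous_const
    have hnot : ¬ X ⊆ U ∪ V := fun hsub => by
      obtain ⟨x, -, hxU, hxV⟩ := hX U V hU hV hsub
        ⟨p, hPX p hp, Set.mem_iInter.2 hsp⟩ ⟨p', hPX p' hp', Set.mem_iUnion.2 ⟨i₀, hi₀⟩⟩
      obtain ⟨i, hi⟩ := Set.mem_iUnion.1 hxV
      have hi' : s i * quad (g i) x < δ := hi
      have hxi : δ < s i * quad (g i) x := Set.mem_iInter.1 hxU i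
      linarith
    obtain ⟨x, hxX, hx⟩ := Set.not_subset.1 hnot
    simp only [Set.mem_union, not_or, U, V, Set.mem_iInter, Set.mem_iUnion, Set.mem_ofPred_eq,
      not_exists, not_lt, not_forall] at hx
    obtain ⟨⟨i, hi⟩, hge⟩ := hx
    refine ⟨x, hxX, fun j hj => ?_, funext fun j => ?_, ?_⟩
    · have := hge j
      rw [hj, mul_zero] at this
      linarith
    · have := hge j
      by_cases h0 : 0 < quad (g j) p
      · simp only [s, if_pos h0, one_mul] at this
        simp [h0, lt_of_lt_of_le hδ0 this]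
      · simp only [s, if_neg h0, neg_one_mul] at this
        simp [h0, show ¬ 0 < quad (g j) x by linarith]
    · have he : s i * quad (g i) x = δ := le_antisymm hi (hge i)
      by_cases h0 : 0 < quad (g i) p
      · exact ⟨(i, true), by simpa [s, h0] using he⟩
      · refine ⟨(i, false), ?_⟩
        simp only [s, if_neg h0, neg_one_mul] at he
        simp only [Bool.false_eq_true, if_false]
        linarith
  choose x hxX hxne hxpat k hk using key
  let R : Fin m × Bool → Finset (Sp n) := fun l =>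
    (P.attach.image fun p => x p.1 p.2).filter
      fun y => quad (g l.1) y = if l.2 then δ else -δ
  have hsub : signPat g P ⊆ Finset.univ.biUnion fun l => signPat g (R l) := by
    intro σ hσ
    obtain ⟨p, hp, rfl⟩ := Finset.mem_image.1 hσ
    refine Finset.mem_biUnion.2 ⟨k p hp, Finset.mem_univ _, Finset.mem_image.2
      ⟨x p hp, Finset.mem_filter.2 ⟨Finset.mem_image.2 ⟨⟨p, hp⟩, Finset.mem_attach _ _, rfl⟩,
        hk p hp⟩, hxpat p hp⟩⟩
  obtain ⟨p₀, hp₀⟩ : P.Nonempty := by
    rcases Finset.eq_empty_or_nonempty P with rfl | h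
    · simp [signPat] at h1
    · exact h
  have hR : ∀ l ∈ (Finset.univ : Finset (Fin m × Bool)), (signPat g (R l)).card ≤ B := by
    intro l _
    refine hB l.1 (if l.2 then δ else -δ) _ (fun y hy => ?_) (fun y hy => ?_)
      ⟨p₀, hPX p₀ hp₀, ?_⟩
    · obtain ⟨hy1, hy2⟩ := Finset.mem_filter.1 hy
      obtain ⟨⟨p, hp⟩, -, rfl⟩ := Finset.mem_image.1 hy1
      exact ⟨hxX p hp, hy2⟩
    · obtain ⟨⟨p, hp⟩, -, rfl⟩ := Finset.mem_image.1 (Finset.mem_filter.1 hy).1
      exact hxne p hp
    · intro h
      have := hδ p₀ hp₀ l.1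
      rw [h] at this
      split_ifs at this <;> simp [abs_of_pos hδ0] at this
  have h2 := (Finset.card_le_card hsub).trans (Finset.card_biUnion_le_card_mul _ _ _ hR)
  simp only [Finset.card_univ, Fintype.card_prod, Fintype.card_fin, Fintype.card_bool] at h2
  rw [mul_comm m 2] at h2
  omega

/-- Points of a hyperplane as points of the space of dimension one less. -/
theorem exists_hyperplane_pull {d : ℕ} (v : Sp (d + 1)) (hv : v ≠ 0) (c : ℝ) :
    ∃ (ψ : Sp (d + 1) → Sp d) (pull : ℝ × Sp (d + 1) × ℝ → ℝ × Sp d × ℝ),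
      ∀ h, (pull h).1 = h.1 ∧
        ∀ x, inner ℝ v x + c = 0 → quad (pull h) (ψ x) = quad h x := by
  classical
  have : Fact (Module.finrank ℝ (Sp (d + 1)) = d + 1) := ⟨finrank_euclideanSpace_fin⟩
  let e := (OrthonormalBasis.fromOrthogonalSpanSingleton (𝕜 := ℝ) d hv).repr
  let L : Sp d →ₗᵢ[ℝ] Sp (d + 1) :=
    (Submodule.span ℝ {v})ᗮ.subtypeₗᵢ.comp e.symm.toLinearIsometry
  let x₀ : Sp (d + 1) := (-c / ‖v‖ ^ 2) • v
  refine ⟨fun x => if hx : x - x₀ ∈ (Submodule.span ℝ {v})ᗮ then e ⟨x - x₀, hx⟩ else 0,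
    fun h => (h.1, LinearMap.adjoint L.toLinearMap ((2 * h.1) • x₀ + h.2.1), quad h x₀),
    fun h => ⟨rfl, fun x hx => ?_⟩⟩
  have hv2 : ‖v‖ ^ 2 ≠ 0 := by positivity
  have hmem : x - x₀ ∈ (Submodule.span ℝ {v})ᗮ := by
    rw [Submodule.mem_orthogonal_singleton_iff_inner_right, inner_sub_right, inner_smul_right,
      real_inner_self_eq_norm_sq, div_mul_cancel₀ _ hv2]
    linarith
  simp only [dif_pos hmem]
  have hLw : L (e ⟨x - x₀, hmem⟩) = x - x₀ := by simp [L]
  set w := e ⟨x - x₀, hmem⟩
  have hn : ‖w‖ = ‖x - x₀‖ := by rw [← hLw, L.norm_map]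
  unfold quad
  rw [LinearMap.adjoint_inner_left, LinearIsometry.coe_toLinearMap, hLw, hn]
  have hx' : x = x₀ + (x - x₀) := by abel
  generalize hy : x - x₀ = y at hx'
  rw [hx', norm_add_sq_real, inner_add_right, inner_add_left, real_inner_smul_left]
  ring

theorem signPat_pull {d m : ℕ} {v : Sp (d + 1)} {c : ℝ} {ψ : Sp (d + 1) → Sp d}
    {pull : ℝ × Sp (d + 1) × ℝ → ℝ × Sp d × ℝ}
    (hpull : ∀ h, (pull h).1 = h.1 ∧
      ∀ x, inner ℝ v x + c = 0 → quad (pull h) (ψ x) = quad h x)
    (g : Fin m → ℝ × Sp (d + 1) × ℝ) (Q : Finset (Sp (d + 1)))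
    (hQ : ∀ x ∈ Q, inner ℝ v x + c = 0) :
    signPat (fun i => pull (g i)) (Q.image ψ) = signPat g Q := by
  classical
  unfold signPat
  rw [Finset.image_image]
  refine Finset.image_congr fun x hx => funext fun i => ?_
  simp only [Function.comp_apply, (hpull (g i)).2 x (hQ x hx)]

/-- Sign patterns on a sphere in dimension `k + 1`. -/
theorem exists_sphere_bound (k : ℕ) : ∃ C : ℕ, ∀ (m : ℕ) (g : Fin m → ℝ × Sp (k + 1) × ℝ)
    (q : ℝ × Sp (k + 1) × ℝ) (P : Finset (Sp (k + 1))), q.1 = 1 →
    (∀ p ∈ P, quad q p = 0) → (∀ p ∈ P, ∀ i, quad (g i) p ≠ 0) →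
    (signPat g P).card ≤ C * (m + 1) ^ k := by
  induction k with
  | zero =>
    refine ⟨2, fun m g q P hq hz _ => ?_⟩
    refine (Finset.card_image_le).trans ?_
    rcases Finset.eq_empty_or_nonempty P with rfl | ⟨a, ha⟩
    · simp
    classical
    refine (Finset.card_le_card (t := {a, EuclideanSpace.single 0 (-q.2.1 0 - a 0)})
      fun y hy => ?_).trans (Finset.card_le_two.trans (by simp))
    have h1 := hz a ha
    have h2 := hz y hy
    have hsum : ∀ f : Fin (0 + 1) → ℝ, ∑ i, f i = f 0 := fun f => Fin.sum_univ_one f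
    simp only [quad, hq, EuclideanSpace.norm_sq_eq, hsum, Real.norm_eq_abs,
      sq_abs, PiLp.inner_apply, RCLike.inner_apply, conj_trivial] at h1 h2
    have h3 : (y 0 - a 0) * (y 0 + a 0 + q.2.1 0) = 0 := by linear_combination h2 - h1
    rw [Finset.mem_insert, Finset.mem_singleton]
    rcases mul_eq_zero.1 h3 with h | h
    · left
      ext i
      fin_cases i
      simpa [sub_eq_zero] using h
    · right
      ext i
      fin_cases i
      simp
      linarith
  | succ k ih =>
    obtain ⟨C, hC⟩ := ih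
    refine ⟨2 * C + 1, fun m g q P hq hz hP => ?_⟩
    have hX : IsPreconnected {x : Sp (k + 1 + 1) | quad q x = 0} := by
      have hrank : 1 < Module.rank ℝ (Sp (k + 1 + 1)) := by
        rw [← Module.finrank_eq_rank, finrank_euclideanSpace_fin]
        exact_mod_cast (by omega : 1 < k + 1 + 1)
      have heq : ∀ x, quad q x =
          ‖x - (-(1 / 2 : ℝ)) • q.2.1‖ ^ 2 - (‖q.2.1‖ ^ 2 / 4 - q.2.2) := by
        intro x
        unfold quad
        rw [norm_sub_sq_real, inner_smul_right, norm_smul, real_inner_comm x q.2.1]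
        simp only [hq, norm_neg, norm_div, norm_one, RCLike.norm_two]
        ring
      rcases lt_or_ge (‖q.2.1‖ ^ 2 / 4 - q.2.2) 0 with hr | hr
      · have he : {x : Sp (k + 1 + 1) | quad q x = 0} = ∅ := by
          refine Set.eq_empty_of_forall_notMem fun x hx => ?_
          have hx0 : quad q x = 0 := hx
          have := heq x
          rw [hx0] at this
          nlinarith [sq_nonneg ‖x - (-(1 / 2 : ℝ)) • q.2.1‖]
        rw [he]
        exact isPreconnected_empty
      · have he : {x : Sp (k + 1 + 1) | quad q x = 0} = Metric.sphere ((-(1 / 2 : ℝ)) • q.2.1)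
            (Real.sqrt (‖q.2.1‖ ^ 2 / 4 - q.2.2)) := by
          ext x
          show quad q x = 0 ↔ _
          rw [heq, mem_sphere_iff_norm, sub_eq_zero]
          exact ⟨fun h => by rw [← h, Real.sqrt_sq (norm_nonneg _)],
            fun h => by rw [h, Real.sq_sqrt hr]⟩
        rw [he]
        exact isPreconnected_sphere hrank _ _
    refine le_trans (signPat_card_le_cover hX g P hz hP (C * (m + 1) ^ k) ?_) ?_
    · rintro i c Q hQ hQne ⟨p, hp, hpc⟩
      let v : Sp (k + 1 + 1) := (g i).2.1 - (g i).1 • q.2.1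
      let c' : ℝ := (g i).2.2 - c - (g i).1 * q.2.2
      have hid : ∀ x, quad q x = 0 → inner ℝ v x + c' = quad (g i) x - c := by
        intro x hx
        simp only [quad, hq] at hx
        simp only [v, c', quad, inner_sub_left, real_inner_smul_left]
        linear_combination (-(g i).1) * hx
      have hQv : ∀ x ∈ Q, inner ℝ v x + c' = 0 := fun x hx => by
        rw [hid x (hQ x hx).1, (hQ x hx).2, sub_self]
      by_cases hv : v = 0
      · rcases Finset.eq_empty_or_nonempty Q with rfl | ⟨x, hx⟩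
        · simp [signPat]
        · refine absurd ?_ hpc
          have h1 := hid p hp
          have h2 := hQv x hx
          simp only [hv, inner_zero_left] at h1 h2
          linarith
      · obtain ⟨ψ, pull, hpull⟩ := exists_hyperplane_pull v hv c'
        rw [← signPat_pull hpull g Q hQv]
        refine hC m _ (pull q) _ ((hpull q).1.trans hq) ?_ ?_ <;> rw [Finset.forall_mem_image]
        · exact fun x hx => ((hpull q).2 x (hQv x hx)).trans (hQ x hx).1
        · exact fun x hx j => by rw [(hpull (g j)).2 x (hQv x hx)]; exact hQne x hx j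
    · have : 1 ≤ (m + 1) ^ (k + 1) := Nat.one_le_pow _ _ (by omega)
      rw [pow_succ] at this ⊢
      nlinarith

/-- `m` spheres or hyperplanes cut space into `O_d((m + 1) ^ d)` sign classes. -/
theorem exists_cells_bound (d : ℕ) : ∃ C : ℕ, ∀ (m : ℕ) (g : Fin m → ℝ × Sp d × ℝ)
    (P : Finset (Sp d)), (∀ p ∈ P, ∀ i, quad (g i) p ≠ 0) →
    (P.image (fun p i => decide (0 < quad (g i) p))).card ≤ C * (m + 1) ^ d := by
  induction d with
  | zero =>
    refine ⟨1, fun m g P _ => Finset.card_image_le.trans ?_⟩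
    rw [pow_zero, mul_one, Finset.card_le_one]
    exact fun a _ b _ => Subsingleton.elim a b
  | succ k ih =>
    obtain ⟨A, hA⟩ := ih
    obtain ⟨B, hB⟩ := exists_sphere_bound k
    refine ⟨2 * (A + B) + 1, fun m g P hP => ?_⟩
    show (signPat g P).card ≤ _
    refine le_trans (signPat_card_le_cover isPreconnected_univ g P
      (fun _ _ => Set.mem_univ _) hP ((A + B) * (m + 1) ^ k) ?_) ?_
    · rintro i c Q hQ hQne ⟨p, -, hpc⟩
      by_cases ha : (g i).1 = 0
      · have hid : ∀ x, inner ℝ (g i).2.1 x + ((g i).2.2 - c) = quad (g i) x - c := by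
          intro x
          simp only [quad, ha]
          ring
        have hQv : ∀ x ∈ Q, inner ℝ (g i).2.1 x + ((g i).2.2 - c) = 0 := fun x hx => by
          rw [hid, (hQ x hx).2, sub_self]
        by_cases hv : (g i).2.1 = 0
        · rcases Finset.eq_empty_or_nonempty Q with rfl | ⟨x, hx⟩
          · simp [signPat]
          · refine absurd ?_ hpc
            have h1 := hid p
            have h2 := hQv x hx
            simp only [hv, inner_zero_left] at h1 h2
            linarith
        · obtain ⟨ψ, pull, hpull⟩ := exists_hyperplane_pull _ hv ((g i).2.2 - c)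
          rw [← signPat_pull hpull g Q hQv]
          refine le_trans (hA m _ _ ?_) (Nat.mul_le_mul_right _ (Nat.le_add_right A B))
          rw [Finset.forall_mem_image]
          exact fun x hx j => by rw [(hpull (g j)).2 x (hQv x hx)]; exact hQne x hx j
      · refine le_trans (hB m g (1, (g i).1⁻¹ • (g i).2.1, ((g i).2.2 - c) / (g i).1) Q rfl
          (fun x hx => ?_) hQne) (Nat.mul_le_mul_right _ (Nat.le_add_left B A))
        have h := (hQ x hx).2
        simp only [quad, real_inner_smul_left] at h ⊢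
        field_simp
        linarith
    · have : 1 ≤ (m + 1) ^ (k + 1) := Nat.one_le_pow _ _ (by omega)
      rw [pow_succ] at this ⊢
      nlinarith

end Vale.Agent.P054
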