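import Mathlib

/-!
P054: counting integer solutions of one linear equation in a box.
-/

namespace Vale.Agent.P054

open Finset

/-- Integer vectors with all coordinates in `[-T, T]`. -/
noncomputable def box (d T : ℕ) : Finset (Fin d → ℤ) := Fintype.piFinset fun _ => Finset.Icc (-(T : ℤ)) T

theorem card_box (d T : ℕ) : (box d T).card = (2 * T + 1) ^ d := by
  rw [box, Fintype.card_piFinset, prod_const, card_univ, Fintype.card_fin, Int.card_Icc]
  congr 1
  omega

theorem mem_box {d T : ℕ} {u : Fin d → ℤ} : u ∈ box d T ↔ ∀ j, (u j).natAbs ≤ T := by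
  simp only [box, Fintype.mem_piFinset, Finset.mem_Icc]
  exact forall_congr' fun j => by omega

/-- The sup norm of an integer vector. -/
def nrm {d : ℕ} (u : Fin d → ℤ) : ℕ := univ.sup fun j => (u j).natAbs

/-- The gcd of the coordinates. -/
def content {d : ℕ} (u : Fin d → ℤ) : ℕ := (univ.gcd u).natAbs

theorem residue_count (m T : ℕ) (hm : 0 < m) (hmT : m ≤ T) (r : ZMod m) :
    m * ((Finset.Icc (-(T : ℤ)) T).filter fun x : ℤ => (x : ZMod m) = r).card ≤ 3 * T := by
  have h : ((Finset.Icc (-(T : ℤ)) T).filter fun x : ℤ => (x : ZMod m) = r).card ≤ 2 * T / m + 1 := by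
    rw [← card_range (2 * T / m + 1)]
    refine card_le_card_of_injOn (fun x => (x + T).toNat / m) ?_ ?_
    · intro x hx
      simp only [mem_coe, mem_filter, Finset.mem_Icc] at hx
      simp only [mem_coe, mem_range]
      have h1 : (x + T).toNat ≤ 2 * T := by omega
      have := Nat.div_le_div_right (c := m) h1
      omega
    · intro x hx y hy hxy
      simp only [mem_coe, mem_filter, Finset.mem_Icc] at hx hy
      have h1 : ((x + T : ℤ) : ZMod m) = ((y + T : ℤ) : ZMod m) := by
        push_cast; rw [hx.2, hy.2]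
      rw [← Int.toNat_of_nonneg (show 0 ≤ x + T by omega),
        ← Int.toNat_of_nonneg (show 0 ≤ y + T by omega), Int.cast_natCast, Int.cast_natCast,
        ZMod.natCast_eq_natCast_iff'] at h1
      have hq : (x + T).toNat / m = (y + T).toNat / m := hxy
      have h2 := Nat.div_add_mod (x + T).toNat m
      rw [hq, h1, Nat.div_add_mod (y + T).toNat m] at h2
      omega
  calc _ ≤ m * (2 * T / m + 1) := Nat.mul_le_mul_left m h
    _ ≤ 3 * T := by rw [Nat.mul_add, Nat.mul_one]; linarith [Nat.mul_div_le (2 * T) m]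

theorem kernel_count {d : ℕ} (u : Fin d → ℤ) (i : Fin d) (hui : u i ≠ 0) :
    haveI : NeZero (u i).natAbs := ⟨Int.natAbs_ne_zero.2 hui⟩
    (univ.filter fun r : {j : Fin d // j ≠ i} → ZMod (u i).natAbs =>
        ∑ j, (u j.1 : ZMod (u i).natAbs) * r j = 0).card * ((u i).natAbs / content u) ≤
      (u i).natAbs ^ (d - 1) := by
  have : NeZero (u i).natAbs := ⟨Int.natAbs_ne_zero.2 hui⟩
  classical
  let φ : ({j : Fin d // j ≠ i} → ZMod (u i).natAbs) →+ ZMod (u i).natAbs :=
    { toFun := fun r => ∑ j, (u j.1 : ZMod (u i).natAbs) * r j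
      map_zero' := by simp
      map_add' := fun a b => by simp [mul_add, sum_add_distrib] }
  have hg0 : content u ≠ 0 := by
    simp only [content, ne_eq, Int.natAbs_eq_zero, Finset.gcd_eq_zero_iff]
    exact fun h => hui (h i (mem_univ i))
  have hgm : content u ∣ (u i).natAbs := Int.natAbs_dvd_natAbs.2 (Finset.gcd_dvd (mem_univ i))
  obtain ⟨c, hc⟩ : ∃ c : Fin d → ℤ, univ.gcd u = ∑ j, u j * c j := Finset.gcd_eq_sum_mul univ u
  have hmem : (content u : ZMod (u i).natAbs) ∈ φ.range := by
    have h1 : ((univ.gcd u : ℤ) : ZMod (u i).natAbs) ∈ φ.range := by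
      refine ⟨fun j => (c j.1 : ZMod (u i).natAbs), ?_⟩
      show ∑ j : {j : Fin d // j ≠ i}, (u j.1 : ZMod (u i).natAbs) * (c j.1 : ZMod (u i).natAbs) = _
      have h0 : (u i : ZMod (u i).natAbs) = 0 :=
        (ZMod.intCast_zmod_eq_zero_iff_dvd _ _).2 (Int.natAbs_dvd.2 dvd_rfl)
      rw [hc]
      push_cast
      rw [← Finset.sum_subtype (univ.erase i) (p := fun j => j ≠ i) (by simp)
        (fun j => (u j : ZMod (u i).natAbs) * (c j : ZMod (u i).natAbs)),
        Finset.sum_erase univ (by simp [h0])]
    rcases Int.natAbs_eq (univ.gcd u) with h | h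
    · rw [h] at h1; simpa [content] using h1
    · rw [h] at h1
      have := φ.range.neg_mem h1
      simpa [content] using this
  have himg : (u i).natAbs / content u ≤ Nat.card φ.range := by
    rw [← Nat.card_fin ((u i).natAbs / content u)]
    refine Nat.card_le_card_of_injective
      (fun k => (⟨(k : ℕ) • (content u : ZMod (u i).natAbs), φ.range.nsmul_mem hmem _⟩ : φ.range)) ?_
    intro a b hab
    simp only [Subtype.mk.injEq, nsmul_eq_mul, ← Nat.cast_mul, ZMod.natCast_eq_natCast_iff'] at hab
    have hlt : ∀ k : Fin ((u i).natAbs / content u), (k : ℕ) * content u < (u i).natAbs := fun k =>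
      calc (k : ℕ) * content u < (u i).natAbs / content u * content u :=
            Nat.mul_lt_mul_of_pos_right k.2 (Nat.pos_of_ne_zero hg0)
        _ = (u i).natAbs := Nat.div_mul_cancel hgm
    rw [Nat.mod_eq_of_lt (hlt a), Nat.mod_eq_of_lt (hlt b)] at hab
    exact Fin.ext (Nat.eq_of_mul_eq_mul_right (Nat.pos_of_ne_zero hg0) hab)
  have hcard : Nat.card φ.ker * Nat.card φ.range = (u i).natAbs ^ (d - 1) := by
    rw [← AddSubgroup.index_ker φ, AddSubgroup.card_mul_index, Nat.card_eq_fintype_card,
      Fintype.card_fun, ZMod.card, Fintype.card_subtype_compl, Fintype.card_subtype_eq,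
      Fintype.card_fin]
  have hker : (univ.filter fun r : {j : Fin d // j ≠ i} → ZMod (u i).natAbs =>
      ∑ j, (u j.1 : ZMod (u i).natAbs) * r j = 0).card = Nat.card φ.ker := by
    rw [← Fintype.card_subtype, ← Nat.card_eq_fintype_card]
    rfl
  rw [hker, ← hcard]
  exact Nat.mul_le_mul_left _ himg

theorem solutions_count {d : ℕ} (u : Fin d → ℤ) (T : ℕ) (i : Fin d) (hui : u i ≠ 0)
    (hiT : (u i).natAbs ≤ T) :
    ((box d T).filter fun v => ∑ j, u j * v j = 0).card * ((u i).natAbs / content u) ≤
      (3 * T) ^ (d - 1) := by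
  classical
  have : NeZero (u i).natAbs := ⟨Int.natAbs_ne_zero.2 hui⟩
  set m := (u i).natAbs with hm
  set S := (box d T).filter fun v => ∑ j, u j * v j = 0
  set K := univ.filter fun r : {j : Fin d // j ≠ i} → ZMod m => ∑ j, (u j.1 : ZMod m) * r j = 0
  have hmap : ∀ v ∈ S, (fun j : {j : Fin d // j ≠ i} => (v j.1 : ZMod m)) ∈ K := by
    intro v hv
    simp only [S, mem_filter] at hv
    simp only [K, mem_filter, mem_univ, true_and]
    have h := congrArg (fun z : ℤ => (z : ZMod m)) hv.2
    push_cast at h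
    have h0 : (u i : ZMod m) = 0 :=
      (ZMod.intCast_zmod_eq_zero_iff_dvd _ _).2 (Int.natAbs_dvd.2 dvd_rfl)
    rw [← Finset.sum_erase univ (a := i) (by simp [h0])] at h
    rw [← h]
    exact (Finset.sum_subtype (univ.erase i) (p := fun j => j ≠ i) (by simp)
      (fun j => (u j : ZMod m) * (v j : ZMod m))).symm
  have hfib : ∀ r ∈ K, m ^ (d - 1) *
      (S.filter fun v => (fun j : {j : Fin d // j ≠ i} => (v j.1 : ZMod m)) = r).card ≤
        (3 * T) ^ (d - 1) := by
    intro r _
    have hle : (S.filter fun v => (fun j : {j : Fin d // j ≠ i} => (v j.1 : ZMod m)) = r).card ≤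
        (Fintype.piFinset fun j : {j : Fin d // j ≠ i} =>
          (Finset.Icc (-(T : ℤ)) T).filter fun x : ℤ => (x : ZMod m) = r j).card := by
      refine card_le_card_of_injOn (fun v j => v j.1) ?_ ?_
      · intro v hv
        simp only [mem_coe, mem_filter, S, box, Fintype.mem_piFinset] at hv
        simp only [mem_coe, Fintype.mem_piFinset, mem_filter]
        exact fun j => ⟨hv.1.1 j.1, congrFun hv.2 j⟩
      · intro v hv w hw hvw
        simp only [mem_coe, mem_filter, S] at hv hw
        have heq : ∀ j, j ≠ i → v j = w j := fun j hj => congrFun hvw ⟨j, hj⟩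
        have h1 := hv.1.2
        have h2 := hw.1.2
        rw [← Finset.add_sum_erase univ _ (mem_univ i)] at h1 h2
        have h3 : ∑ j ∈ univ.erase i, u j * v j = ∑ j ∈ univ.erase i, u j * w j :=
          sum_congr rfl fun j hj => by rw [heq j (ne_of_mem_erase hj)]
        have h4 : u i * v i = u i * w i := by linarith
        funext j
        by_cases hj : j = i
        · subst hj; exact mul_left_cancel₀ hui h4
        · exact heq j hj
    refine le_trans (Nat.mul_le_mul_left _ hle) ?_
    rw [Fintype.card_piFinset]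
    have hJ : Fintype.card {j : Fin d // j ≠ i} = d - 1 := by
      rw [Fintype.card_subtype_compl, Fintype.card_subtype_eq, Fintype.card_fin]
    calc m ^ (d - 1) * ∏ j : {j : Fin d // j ≠ i},
          ((Finset.Icc (-(T : ℤ)) T).filter fun x : ℤ => (x : ZMod m) = r j).card
        = ∏ j : {j : Fin d // j ≠ i},
          m * ((Finset.Icc (-(T : ℤ)) T).filter fun x : ℤ => (x : ZMod m) = r j).card := by
          rw [prod_mul_distrib, prod_const, card_univ, hJ]
      _ ≤ ∏ _j : {j : Fin d // j ≠ i}, 3 * T :=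
          prod_le_prod' fun j _ => residue_count m T (Nat.pos_of_neZero m) hiT (r j)
      _ = (3 * T) ^ (d - 1) := by rw [prod_const, card_univ, hJ]
  have hsum : m ^ (d - 1) * S.card ≤ K.card * (3 * T) ^ (d - 1) := by
    rw [card_eq_sum_card_fiberwise hmap, mul_sum]
    exact (sum_le_card_nsmul _ _ _ hfib).trans (le_of_eq (smul_eq_mul ..))
  have hK : K.card * (m / content u) ≤ m ^ (d - 1) := by
    convert kernel_count u i hui using 3
  refine le_of_mul_le_mul_left ?_ (pow_pos (Nat.pos_of_neZero m) (d - 1))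
  calc m ^ (d - 1) * (S.card * (m / content u)) = m ^ (d - 1) * S.card * (m / content u) := by ring
    _ ≤ K.card * (3 * T) ^ (d - 1) * (m / content u) := Nat.mul_le_mul_right _ hsum
    _ = K.card * (m / content u) * (3 * T) ^ (d - 1) := by ring
    _ ≤ m ^ (d - 1) * (3 * T) ^ (d - 1) := Nat.mul_le_mul_right _ hK

end Vale.Agent.P054
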