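import Mathlib

/-!
# Groups of points that few ranges split

If every `m` ranges cut a point set into at most `C₀ (m+1)^d` sign classes, then half of the
points form `r` groups of equal size such that every range separates few pairs inside the groups.
-/

namespace Vale.Agent.P054.Partition

open Finset Real

noncomputable section

variable {α ι : Type} [Fintype ι]

/-- The weighted amount of ranges separating two points. -/
def sep (side : ι → α → Bool) (w : ι → ℝ) (p q : α) : ℝ :=
  ∑ i, if side i p ≠ side i q then w i else 0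

lemma sep_triangle (side : ι → α → Bool) {w : ι → ℝ} (hw : ∀ i, 0 ≤ w i) (p q z : α) :
    sep side w p q ≤ sep side w p z + sep side w q z := by
  unfold sep
  rw [← sum_add_distrib]
  refine sum_le_sum fun i _ => ?_
  have := hw i
  split_ifs <;> simp_all

lemma sep_le (side : ι → α → Bool) {w : ι → ℝ} (hw : ∀ i, 0 ≤ w i) (p q : α) :
    sep side w p q ≤ ∑ i, w i :=
  sum_le_sum fun i _ => by split_ifs <;> simp [hw i]

/-- The scale of separation for `r` groups. -/
def scale (C₀ d r : ℕ) : ℝ := 9 * (C₀ + 1) * log (r + 2) / (r : ℝ) ^ ((d : ℝ)⁻¹)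

lemma scale_nonneg (C₀ d r : ℕ) : 0 ≤ scale C₀ d r := by
  unfold scale
  have : 0 ≤ log ((r : ℝ) + 2) := log_nonneg (by linarith [(Nat.cast_nonneg r : (0 : ℝ) ≤ r)])
  positivity

open Classical in
/-- Not more than `r` points are pairwise separated by more than the scale. -/
lemma packing (P : Finset α) (side : ι → α → Bool) {d C₀ r : ℕ} (hd : 1 ≤ d) (hr : 1 ≤ r)
    (hpat : ∀ (m : ℕ) (f : Fin m → ι), (Finset.card (P.image fun p j => side (f j) p)) ≤ C₀ * (m + 1) ^ d)
    {w : ι → ℝ} (hw : ∀ i, 0 ≤ w i) (hW : 0 < ∑ i, w i) {Z : Finset α} (hZ : Z ⊆ P)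
    (hsep : ∀ p ∈ Z, ∀ q ∈ Z, p ≠ q → scale C₀ d r * (∑ i, w i) < sep side w p q) :
    (Finset.card Z) ≤ r := by
  by_contra hcon
  push Not at hcon
  obtain ⟨Z', hZ', hcard⟩ := Finset.exists_subset_card_eq (show r + 1 ≤ (Finset.card Z) by omega)
  set W := ∑ i, w i with hWdef
  set δ := scale C₀ d r with hδ
  set y : ℝ := (r : ℝ) ^ ((d : ℝ)⁻¹) with hy
  have hr0 : (0 : ℝ) < r := by exact_mod_cast hr
  have hy0 : 0 < y := rpow_pos_of_pos hr0 _
  have hlog : 1 ≤ log ((r : ℝ) + 2) := by
    rw [le_log_iff_exp_le (by linarith)]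
    have := Real.exp_one_lt_d9
    have : (1 : ℝ) ≤ r := by exact_mod_cast hr
    linarith
  have hC : (0 : ℝ) < (C₀ : ℝ) + 1 := by positivity
  obtain ⟨p, hp, q, hq, hpq⟩ := one_lt_card.1 (show 1 < (Finset.card Z') by omega)
  have hδ1 : δ < 1 := by
    have h1 := hsep p (hZ' hp) q (hZ' hq) hpq
    have h2 := sep_le side hw p q
    nlinarith
  have hy9 : 9 * ((C₀ : ℝ) + 1) < y := by
    rw [hδ, scale, ← hy, div_lt_one hy0] at hδ1
    nlinarith
  -- the number of sampled ranges
  set m := ⌊y / (C₀ + 1)⌋₊ - 1 with hm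
  have hfl : 9 ≤ ⌊y / (C₀ + 1)⌋₊ := by
    refine Nat.le_floor ?_
    rw [le_div_iff₀ hC]
    push_cast
    linarith
  have hm1 : (m : ℝ) + 1 = ⌊y / (C₀ + 1)⌋₊ := by
    have h : m + 1 = ⌊y / (C₀ + 1)⌋₊ := by omega
    exact_mod_cast h
  have hfloor : ((⌊y / (C₀ + 1)⌋₊ : ℕ) : ℝ) ≤ y / (C₀ + 1) := Nat.floor_le (by positivity)
  have hfloor' := Nat.lt_floor_add_one (y / ((C₀ : ℝ) + 1))
  have hfl9 : (9 : ℝ) ≤ ((⌊y / (C₀ + 1)⌋₊ : ℕ) : ℝ) := by exact_mod_cast hfl
  have hpow : C₀ * (m + 1) ^ d ≤ r := by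
    have h1 : ((m : ℝ) + 1) ^ d ≤ (r : ℝ) / (C₀ + 1) := by
      have h2 : ((m : ℝ) + 1) ^ d ≤ (y / (C₀ + 1)) ^ d := by
        refine pow_le_pow_left₀ (by positivity) (by linarith) _
      have h3 : y ^ d = r := by
        rw [hy, ← rpow_natCast, ← rpow_mul hr0.le,
          inv_mul_cancel₀ (by exact_mod_cast (show d ≠ 0 by omega)), rpow_one]
      have h4 : ((C₀ : ℝ) + 1) ≤ ((C₀ : ℝ) + 1) ^ d :=
        le_self_pow₀ (by linarith [(Nat.cast_nonneg C₀ : (0 : ℝ) ≤ C₀)]) (by omega)
      rw [div_pow, h3] at h2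
      exact h2.trans (by gcongr)
    have h5 : (C₀ : ℝ) * ((m : ℝ) + 1) ^ d ≤ r := by
      rw [le_div_iff₀ hC] at h1
      have : 0 ≤ ((m : ℝ) + 1) ^ d := by positivity
      nlinarith
    exact_mod_cast h5
  have hdecay : ((r : ℝ) + 1) ^ 2 * (1 - δ) ^ m < 1 := by
    have hδm : 3 * log ((r : ℝ) + 2) ≤ δ * m := by
      have h1 : y / (C₀ + 1) / 3 ≤ (m : ℝ) := by linarith
      have h2 := mul_le_mul_of_nonneg_left h1 (scale_nonneg C₀ d r)
      rw [← hδ] at h2
      have h3 : δ * (y / (C₀ + 1) / 3) = 3 * log ((r : ℝ) + 2) := by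
        rw [hδ, scale, ← hy]; field_simp; ring
      linarith
    have h4 : (1 - δ) ^ m ≤ exp (-(δ * m)) := by
      rw [show -(δ * m) = (m : ℝ) * (-δ) by ring, exp_nat_mul]
      refine pow_le_pow_left₀ (by linarith) ?_ _
      linarith [add_one_le_exp (-δ)]
    have h5 : exp (-(δ * m)) ≤ (((r : ℝ) + 2) ^ 3)⁻¹ := by
      rw [← exp_log (show (0 : ℝ) < ((r : ℝ) + 2) ^ 3 by positivity), ← exp_neg, log_pow]
      refine exp_le_exp.2 ?_
      push_cast
      linarith
    have h6 : ((r : ℝ) + 1) ^ 2 * (((r : ℝ) + 2) ^ 3)⁻¹ < 1 := by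
      rw [← div_eq_mul_inv, div_lt_one (by positivity)]
      nlinarith
    have : ((r : ℝ) + 1) ^ 2 * (1 - δ) ^ m ≤ ((r : ℝ) + 1) ^ 2 * (((r : ℝ) + 2) ^ 3)⁻¹ :=
      mul_le_mul_of_nonneg_left (h4.trans h5) (by positivity)
    linarith
  -- every choice of `m` ranges leaves two of the points in one class
  have hcollide : ∀ f : Fin m → ι,
      1 ≤ (Finset.card (Z'.offDiag.filter fun x => ∀ j, side (f j) x.1 = side (f j) x.2)) := by
    intro f
    have hlt : (Finset.card (Z'.image fun p j => side (f j) p)) < (Finset.card Z') := by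
      have := card_le_card (image_subset_image (f := fun p j => side (f j) p) (hZ'.trans hZ))
      have := hpat m f
      omega
    obtain ⟨a, ha, b, hb, hab, hfab⟩ := exists_ne_map_eq_of_card_lt_of_maps_to hlt
      (fun a ha => mem_image_of_mem _ ha)
    exact card_pos.2 ⟨(a, b), mem_filter.2 ⟨mem_offDiag.2 ⟨ha, hb, hab⟩,
      fun j => congrFun hfab j⟩⟩
  have key : (∑ f : Fin m → ι, (∏ j, w (f j)) *
      ((Finset.card (Z'.offDiag.filter fun x => ∀ j, side (f j) x.1 = side (f j) x.2)) : ℝ)) =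
      ∑ x ∈ Z'.offDiag, (W - sep side w x.1 x.2) ^ m := by
    have h1 : ∀ x : α × α, (W - sep side w x.1 x.2) ^ m =
        ∑ f : Fin m → ι, ∏ j, (if side (f j) x.1 = side (f j) x.2 then w (f j) else 0) := by
      intro x
      have h2 : W - sep side w x.1 x.2 =
          ∑ i, if side i x.1 = side i x.2 then w i else 0 := by
        rw [hWdef, sep, ← sum_sub_distrib]
        exact sum_congr rfl fun i _ => by split_ifs <;> simp_all
      rw [h2, Fintype.sum_pow]
    simp_rw [h1]
    rw [sum_comm]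
    refine sum_congr rfl fun f _ => ?_
    rw [natCast_card_filter, mul_sum]
    refine sum_congr rfl fun x _ => ?_
    split_ifs with h
    · rw [mul_one]
      exact prod_congr rfl fun j _ => by rw [if_pos (h j)]
    · rw [mul_zero]
      push Not at h
      obtain ⟨j, hj⟩ := h
      exact (prod_eq_zero (mem_univ j) (if_neg hj)).symm
  have hlow : W ^ m ≤ ∑ x ∈ Z'.offDiag, (W - sep side w x.1 x.2) ^ m := by
    rw [← key, hWdef, Fintype.sum_pow]
    refine sum_le_sum fun f _ => le_mul_of_one_le_right (prod_nonneg fun j _ => hw _) ?_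
    exact_mod_cast hcollide f
  have hup : ∑ x ∈ Z'.offDiag, (W - sep side w x.1 x.2) ^ m ≤
      ((r : ℝ) + 1) ^ 2 * ((1 - δ) ^ m * W ^ m) := by
    have h1 : ∀ x ∈ Z'.offDiag, (W - sep side w x.1 x.2) ^ m ≤ (1 - δ) ^ m * W ^ m := by
      intro x hx
      obtain ⟨hx1, hx2, hx3⟩ := mem_offDiag.1 hx
      rw [← mul_pow]
      refine pow_le_pow_left₀ (by linarith [sep_le side hw x.1 x.2]) ?_ _
      have := hsep _ (hZ' hx1) _ (hZ' hx2) hx3
      linarith
    refine (sum_le_card_nsmul _ _ _ h1).trans ?_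
    rw [nsmul_eq_mul]
    refine mul_le_mul_of_nonneg_right ?_ (mul_nonneg (pow_nonneg (by linarith) _) (by positivity))
    have h2 : ((Finset.card Z'.offDiag) : ℝ) ≤ ((Finset.card Z') : ℝ) * (Finset.card Z') := by
      rw [offDiag_card]
      exact_mod_cast Nat.sub_le _ _
    rw [hcard] at h2
    push_cast at h2
    linarith
  have : 0 < W ^ m := pow_pos hW m
  nlinarith

open Classical in
/-- A group of `s` points whose pairs are, on the weighted average, separated little. -/
lemma exists_group (P : Finset α) (side : ι → α → Bool) {d C₀ r s : ℕ} (hd : 1 ≤ d) (hr : 1 ≤ r)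
    (hpat : ∀ (m : ℕ) (f : Fin m → ι), (Finset.card (P.image fun p j => side (f j) p)) ≤ C₀ * (m + 1) ^ d)
    {w : ι → ℝ} (hw : ∀ i, 0 ≤ w i) (hW : 0 < ∑ i, w i) {R : Finset α} (hR : R ⊆ P)
    (hs : r * s ≤ (Finset.card R)) :
    ∃ G ⊆ R, (Finset.card G) = s ∧
      ∀ p ∈ G, ∀ q ∈ G, sep side w p q ≤ 2 * scale C₀ d r * ∑ i, w i := by
  rcases Nat.eq_zero_or_pos s with rfl | hspos
  · exact ⟨∅, empty_subset _, rfl, by simp⟩
  set δ := scale C₀ d r * ∑ i, w i with hδ
  let Sep : Finset α → Prop := fun Z => ∀ p ∈ Z, ∀ q ∈ Z, p ≠ q → δ < sep side w p q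
  set S := R.powerset.filter Sep with hS
  obtain ⟨Z, hZ, hmax⟩ := exists_max_image S Finset.card
    ⟨∅, mem_filter.2 ⟨empty_mem_powerset _, by simp [Sep]⟩⟩
  obtain ⟨hZR, hZs⟩ := mem_filter.1 hZ
  rw [mem_powerset] at hZR
  have hcardZ : (Finset.card Z) ≤ r := packing P side hd hr hpat hw hW (hZR.trans hR) hZs
  have hcover : ∀ p ∈ R, ∃ z ∈ Z, sep side w p z ≤ δ := by
    intro p hp
    have hself : sep side w p p ≤ δ := by
      have : 0 ≤ δ := mul_nonneg (scale_nonneg _ _ _) hW.le
      simpa [sep] using this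
    by_contra hcon
    push Not at hcon
    have hpZ : p ∉ Z := fun h => by linarith [hcon p h]
    have hsym : ∀ a b, sep side w a b = sep side w b a := fun a b => by simp [sep, ne_comm]
    have hin : insert p Z ∈ S := by
      refine mem_filter.2 ⟨mem_powerset.2 (insert_subset hp hZR), ?_⟩
      intro a ha b hb hab
      rcases mem_insert.1 ha with rfl | ha' <;> rcases mem_insert.1 hb with rfl | hb'
      · exact absurd rfl hab
      · exact hcon b hb'
      · rw [hsym]; exact hcon a ha'
      · exact hZs a ha' b hb' hab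
    have := hmax _ hin
    rw [card_insert_of_notMem hpZ] at this
    omega
  choose! cen hcen hcen' using hcover
  have hne : Z.Nonempty := by
    have hRne : R.Nonempty := card_pos.1 (lt_of_lt_of_le (Nat.mul_pos hr hspos) hs)
    exact ⟨_, hcen _ hRne.choose_spec⟩
  obtain ⟨z, -, hz⟩ := exists_le_card_fiber_of_mul_le_card_of_maps_to hcen hne
    (le_trans (Nat.mul_le_mul_right s hcardZ) hs)
  obtain ⟨G, hG, hGcard⟩ := exists_subset_card_eq hz
  refine ⟨G, hG.trans (filter_subset _ _), hGcard, fun p hp q hq => ?_⟩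
  obtain ⟨hpR, hpz⟩ := mem_filter.1 (hG hp)
  obtain ⟨hqR, hqz⟩ := mem_filter.1 (hG hq)
  have h1 := hcen' p hpR
  have h2 := hcen' q hqR
  rw [hpz] at h1
  rw [hqz] at h2
  have := sep_triangle side hw p q z
  rw [mul_assoc]
  linarith

open Classical in
/-- The number of ordered pairs of `G` separated by the range `i`. -/
def cut (side : ι → α → Bool) (i : ι) (G : Finset α) : ℕ :=
  (Finset.card ((G ×ˢ G).filter fun x => side i x.1 ≠ side i x.2))

open Classical in
/-- **Groups with few separated pairs.** -/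
theorem exists_groups (P : Finset α) (side : ι → α → Bool) {d C₀ r s : ℕ} (hd : 1 ≤ d)
    (hr : 1 ≤ r) (hs : 1 ≤ s)
    (hpat : ∀ (m : ℕ) (f : Fin m → ι), (Finset.card (P.image fun p j => side (f j) p)) ≤ C₀ * (m + 1) ^ d)
    (hsize : 2 * r * s ≤ (Finset.card P)) :
    ∃ G : ℕ → Finset α, (∀ k < r, G k ⊆ P ∧ (Finset.card (G k)) = s) ∧
      (∀ k < r, ∀ l < r, k ≠ l → Disjoint (G k) (G l)) ∧
      ∀ i, ∑ k ∈ range r, (cut side i (G k) : ℝ) ≤
        2 * (s : ℝ) ^ 2 * (log (Fintype.card ι) + 2 * scale C₀ d r * r) := by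
  set δ := scale C₀ d r with hδ
  have hδ0 : 0 ≤ δ := scale_nonneg _ _ _
  have key : ∀ K ≤ r, ∃ (G : ℕ → Finset α) (w : ι → ℝ),
      (∀ k < K, G k ⊆ P ∧ (Finset.card (G k)) = s) ∧
      (∀ k < K, ∀ l < K, k ≠ l → Disjoint (G k) (G l)) ∧
      (∀ i, (2 : ℝ) ^ ((∑ k ∈ range K, (cut side i (G k) : ℝ)) / (s : ℝ) ^ 2) ≤ w i) ∧
      ∑ i, w i ≤ (Fintype.card ι : ℝ) * exp (2 * δ * K) := by
    intro K hK
    induction K with
    | zero =>
      exact ⟨fun _ => ∅, fun _ => 1, by simp, by simp, by simp, by simp⟩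
    | succ K ih =>
      obtain ⟨G, w, hG, hdis, hw2, hW⟩ := ih (by omega)
      have hw : ∀ i, 0 ≤ w i := fun i => le_trans (rpow_nonneg zero_le_two _) (hw2 i)
      set used := (range K).biUnion G with hused
      have hR : r * s ≤ (Finset.card (P \ used)) := by
        have h1 : (Finset.card used) ≤ K * s := by
          refine card_biUnion_le.trans ?_
          rw [sum_congr rfl fun k hk => (hG k (mem_range.1 hk)).2]
          simp
        have h2 := le_card_sdiff used P
        have : K * s ≤ r * s := Nat.mul_le_mul_right _ (by omega)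
        have : 2 * r * s = r * s + r * s := by ring
        omega
      rcases isEmpty_or_nonempty ι with hι | hι
      · obtain ⟨H, hH, hHc⟩ := exists_subset_card_eq
          (show s ≤ (Finset.card (P \ used)) from le_trans (Nat.le_mul_of_pos_left s hr) hR)
        refine ⟨fun k => if k < K then G k else H, w, ?_, ?_, fun i => isEmptyElim i, by simp⟩
        · intro k hk
          by_cases h : k < K
          · simpa [h] using hG k h
          · simp only [h, if_false]; exact ⟨hH.trans sdiff_subset, hHc⟩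
        · intro k hk l hl hkl
          by_cases h : k < K <;> by_cases h' : l < K
          · simpa [h, h'] using hdis k h l h' hkl
          · simp only [h, h', if_true, if_false]
            exact disjoint_sdiff.mono (subset_biUnion_of_mem G (mem_range.2 h)) hH
          · simp only [h, h', if_true, if_false]
            exact (disjoint_sdiff.mono (subset_biUnion_of_mem G (mem_range.2 h')) hH).symm
          · omega
      have hWpos : 0 < ∑ i, w i :=
        sum_pos (fun i _ => lt_of_lt_of_le (rpow_pos_of_pos two_pos _) (hw2 i)) univ_nonempty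
      obtain ⟨H, hH, hHc, hHsep⟩ :=
        exists_group P side hd hr hpat hw hWpos (sdiff_subset) hR
      set f : ι → ℝ := fun i => (cut side i H : ℝ) / (s : ℝ) ^ 2 with hf
      have hs0 : (0 : ℝ) < (s : ℝ) ^ 2 := by positivity
      have hf0 : ∀ i, 0 ≤ f i := fun i => by positivity
      have hf1 : ∀ i, f i ≤ 1 := fun i => by
        rw [hf, div_le_one hs0]
        have : cut side i H ≤ s * s := by
          refine (card_filter_le _ _).trans ?_
          rw [card_product, hHc]
        calc (cut side i H : ℝ) ≤ ((s * s : ℕ) : ℝ) := by exact_mod_cast this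
          _ = (s : ℝ) ^ 2 := by push_cast; ring
      refine ⟨fun k => if k < K then G k else H, fun i => w i * (1 + f i), ?_, ?_, ?_, ?_⟩
      · intro k hk
        by_cases h : k < K
        · simpa [h] using hG k h
        · simp only [h, if_false]; exact ⟨hH.trans sdiff_subset, hHc⟩
      · intro k hk l hl hkl
        by_cases h : k < K <;> by_cases h' : l < K
        · simpa [h, h'] using hdis k h l h' hkl
        · simp only [h, h', if_true, if_false]
          exact disjoint_sdiff.mono (subset_biUnion_of_mem G (mem_range.2 h)) hH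
        · simp only [h, h', if_true, if_false]
          exact (disjoint_sdiff.mono (subset_biUnion_of_mem G (mem_range.2 h')) hH).symm
        · omega
      · intro i
        rw [sum_range_succ, add_div, rpow_add two_pos]
        have e1 : ∑ k ∈ range K, (cut side i (if k < K then G k else H) : ℝ) =
            ∑ k ∈ range K, (cut side i (G k) : ℝ) :=
          sum_congr rfl fun k hk => by rw [if_pos (mem_range.1 hk)]
        simp only [e1, lt_irrefl, if_false]
        refine mul_le_mul (hw2 i) ?_ (rpow_nonneg zero_le_two _) (hw i)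
        have := rpow_one_add_le_one_add_mul_self (s := (1 : ℝ)) (by norm_num) (hf0 i) (hf1 i)
        rw [one_add_one_eq_two, mul_one] at this
        exact this
      · have h1 : ∑ i, w i * f i ≤ 2 * δ * ∑ i, w i := by
          have h2 : ∑ i, w i * (cut side i H : ℝ) = ∑ x ∈ H ×ˢ H, sep side w x.1 x.2 := by
            unfold sep cut
            rw [sum_comm]
            refine sum_congr rfl fun i _ => ?_
            rw [natCast_card_filter, mul_sum]
            exact sum_congr rfl fun x _ => by split_ifs <;> simp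
          have h3 : ∑ x ∈ H ×ˢ H, sep side w x.1 x.2 ≤
              (s : ℝ) ^ 2 * (2 * δ * ∑ i, w i) := by
            refine (sum_le_card_nsmul _ _ (2 * δ * ∑ i, w i) fun x hx => ?_).trans ?_
            · exact hHsep _ (mem_product.1 hx).1 _ (mem_product.1 hx).2
            · rw [card_product, hHc, nsmul_eq_mul]; push_cast; ring_nf; rfl
          simp_rw [hf, mul_div_assoc', ← sum_div]
          rw [div_le_iff₀ hs0, h2]
          linarith
        simp_rw [mul_add, mul_one, sum_add_distrib]
        have h4 : (Fintype.card ι : ℝ) * exp (2 * δ * K) * (1 + 2 * δ) ≤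
            (Fintype.card ι : ℝ) * exp (2 * δ * ((K + 1 : ℕ) : ℝ)) := by
          push_cast
          rw [mul_assoc, show 2 * δ * ((K : ℝ) + 1) = 2 * δ * K + 2 * δ by ring, exp_add]
          gcongr
          linarith [add_one_le_exp (2 * δ)]
        have h5 := mul_le_mul_of_nonneg_right hW (show 0 ≤ 1 + 2 * δ by linarith)
        linarith
  obtain ⟨G, w, hG, hdis, hw2, hW⟩ := key r le_rfl
  refine ⟨G, hG, hdis, fun i => ?_⟩
  have hwi : w i ≤ ∑ j, w j :=
    single_le_sum (fun j _ => le_trans (rpow_nonneg zero_le_two _) (hw2 j)) (mem_univ i)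
  have hle := ((hw2 i).trans hwi).trans hW
  have hpos : 0 < (2 : ℝ) ^ ((∑ k ∈ range r, (cut side i (G k) : ℝ)) / (s : ℝ) ^ 2) :=
    rpow_pos_of_pos two_pos _
  have hcard : (0 : ℝ) < Fintype.card ι := by
    exact_mod_cast Fintype.card_pos_iff.2 ⟨i⟩
  have hl := log_le_log hpos hle
  rw [log_rpow two_pos, log_mul hcard.ne' (exp_pos _).ne', log_exp] at hl
  have h2 := Real.log_two_gt_d9
  have hX : 0 ≤ (∑ k ∈ range r, (cut side i (G k) : ℝ)) / (s : ℝ) ^ 2 := by positivity
  have hhalf : (∑ k ∈ range r, (cut side i (G k) : ℝ)) / (s : ℝ) ^ 2 ≤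
      2 * (log (Fintype.card ι) + 2 * δ * r) := by
    set X := (∑ k ∈ range r, (cut side i (G k) : ℝ)) / (s : ℝ) ^ 2
    nlinarith [mul_nonneg hX (show (0 : ℝ) ≤ log 2 - 1 / 2 by linarith)]
  have hs0 : (0 : ℝ) < (s : ℝ) ^ 2 := by positivity
  rw [div_le_iff₀ hs0] at hhalf
  linarith

end

end Vale.Agent.P054.Partition
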