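import Vale.Agent.P054.Defs

/-!
# Rich nondegenerate flats

From a bound on rich planes (Szemerédi–Trotter for weighted points), rich flats of higher
dimension none of whose hyperplanes is rich are counted by projecting from their points.
-/

namespace Vale.Agent.P054

open Finset Submodule

noncomputable section

/-- The weighted rich-plane bound with constant `C`. -/
def PlanesBound (C : ℝ) : Prop :=
  ∀ (V : Type) [AddCommGroup V] [Module ℝ V] [FiniteDimensional ℝ V] (ι : Type) [Fintype ι]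
    (h : ι → V), (∀ i, h i ≠ 0) → ∀ M a : ℝ, 1 ≤ M → C * M ≤ a →
    (∀ v : V, (wt h (ℝ ∙ v) : ℝ) ≤ M) →
    ∀ L : Finset (Submodule ℝ V), (∀ U ∈ L, Module.finrank ℝ U = 2 ∧ a ≤ (wt h U : ℝ)) →
      (L.card : ℝ) ≤
        C * ((Fintype.card ι : ℝ) ^ 2 * M / a ^ 3 + (Fintype.card ι : ℝ) / a)

/-- The bound for flats of dimension `j`. -/
def FlatsBound (j : ℕ) (η K D : ℝ) : Prop :=
  ∀ (V : Type) [AddCommGroup V] [Module ℝ V] [FiniteDimensional ℝ V] (ι : Type) [Fintype ι]
    (h : ι → V), (∀ i, h i ≠ 0) → ∀ M a : ℝ, 1 ≤ M → K * M ≤ a →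
    (∀ v : V, (wt h (ℝ ∙ v) : ℝ) ≤ M) →
    ∀ L : Finset (Submodule ℝ V), (∀ U ∈ L, Module.finrank ℝ U = j ∧ a ≤ (wt h U : ℝ) ∧
        ∀ U' ≤ U, Module.finrank ℝ U' + 1 = j → (wt h U' : ℝ) ≤ η * a) →
      (L.card : ℝ) ≤ D * (((Fintype.card ι : ℝ) / a) ^ j * M / a +
        ((Fintype.card ι : ℝ) / a) ^ (j - 1))

variable {ι V : Type} [AddCommGroup V] [Module ℝ V]

lemma wt_mono [Finite ι] (h : ι → V) {U U' : Submodule ℝ V} (hU : U ≤ U') :
    wt h U ≤ wt h U' :=
  Set.ncard_le_ncard (fun _ hi => hU hi)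

open Classical in
lemma wt_eq_card [Fintype ι] (h : ι → V) (U : Submodule ℝ V) :
    wt h U = (Finset.card (univ.filter fun i => h i ∈ U)) := by
  rw [wt, ← Set.ncard_coe_finset]; congr 1; ext i; simp

/-- A subspace of prescribed dimension between two subspaces. -/
lemma exists_between [FiniteDimensional ℝ V] {A U : Submodule ℝ V} (hA : A ≤ U) {k : ℕ}
    (h1 : Module.finrank ℝ A ≤ k) (h2 : k ≤ Module.finrank ℝ U) :
    ∃ U' : Submodule ℝ V, A ≤ U' ∧ U' ≤ U ∧ Module.finrank ℝ U' = k := by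
  induction k, h1 using Nat.le_induction with
  | base => exact ⟨A, le_rfl, hA, rfl⟩
  | succ k _ ih =>
    obtain ⟨U', hA', hU', hk⟩ := ih (by omega)
    have hne : U' < U := lt_of_le_of_ne hU' (fun h => by subst h; omega)
    obtain ⟨x, hxU, hx⟩ := SetLike.exists_of_lt hne
    exact ⟨U' ⊔ ℝ ∙ x, hA'.trans le_sup_left, sup_le hU' ((span_singleton_le_iff_mem _ _).2 hxU),
      by rw [finrank_sup_span_singleton hx, hk]⟩

lemma finrank_pair [FiniteDimensional ℝ V] {u v : V} (hu : u ≠ 0) (hv : v ∉ ℝ ∙ u) :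
    Module.finrank ℝ ((ℝ ∙ u) ⊔ (ℝ ∙ v) : Submodule ℝ V) = 2 := by
  rw [finrank_sup_span_singleton hv, finrank_span_singleton hu]

lemma sum_two_pow_le (I : ℕ) : ∑ i ∈ range (I + 1), (2 : ℝ) ^ i ≤ 2 * 2 ^ I := by
  induction I with
  | zero => norm_num
  | succ I ih => rw [sum_range_succ, pow_succ (2 : ℝ) I]; linarith

lemma sum_inv_two_pow_le (I : ℕ) :
    ∑ i ∈ range (I + 1), ((2 : ℝ) ^ i)⁻¹ ≤ 2 - ((2 : ℝ) ^ I)⁻¹ := by
  induction I with
  | zero => norm_num
  | succ I ih =>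
    rw [sum_range_succ, pow_succ (2 : ℝ) I, mul_inv]
    linarith

open Classical in
/-- Heavy lines carry little square weight. -/
lemma sum_sq_heavy [FiniteDimensional ℝ V] [Fintype ι] {C : ℝ} (hC : PlanesBound C) (hC0 : 0 ≤ C)
    (h : ι → V) (h0 : ∀ i, h i ≠ 0) {M : ℝ} (hM : 1 ≤ M) (hcap : ∀ v, (wt h (ℝ ∙ v) : ℝ) ≤ M)
    {κ E : ℝ} (hκ : C ≤ κ) (hκ1 : 1 ≤ κ) (hE : 0 ≤ E) (L : Finset (Submodule ℝ V))
    (hL : ∀ U ∈ L, Module.finrank ℝ U = 2 ∧ κ * M ≤ (wt h U : ℝ) ∧ (wt h U : ℝ) ≤ E) :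
    ∑ U ∈ L, (wt h U : ℝ) ^ 2 ≤
      8 * C * ((Fintype.card ι : ℝ) ^ 2 / κ + (Fintype.card ι : ℝ) * E) := by
  rcases L.eq_empty_or_nonempty with rfl | hne
  · rw [sum_empty]; positivity
  set N : ℝ := (Fintype.card ι : ℝ)
  have hκM : 0 < κ * M := by positivity
  set lev : Submodule ℝ V → ℕ := fun U => Nat.log 2 ⌊(wt h U : ℝ) / (κ * M)⌋₊ with hlev
  obtain ⟨U₁, hU₁, hmax⟩ := exists_max_image L lev hne
  set I := lev U₁
  have hlo : ∀ U ∈ L, κ * M * 2 ^ lev U ≤ (wt h U : ℝ) ∧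
      (wt h U : ℝ) ≤ 2 * (κ * M * 2 ^ lev U) := by
    intro U hU
    set v := ⌊(wt h U : ℝ) / (κ * M)⌋₊ with hv
    have hv1 : 1 ≤ v := Nat.le_floor (by rw [le_div_iff₀ hκM]; simpa using (hL U hU).2.1)
    have h1 : (2 : ℝ) ^ lev U ≤ (v : ℝ) := by
      exact_mod_cast Nat.pow_log_le_self 2 (by omega : v ≠ 0)
    have h2 : (v : ℝ) + 1 ≤ 2 * 2 ^ lev U := by
      have h3 := Nat.lt_pow_succ_log_self (b := 2) (by norm_num) v
      rw [pow_succ] at h3
      have h4 : v + 1 ≤ 2 * 2 ^ lev U := by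
        simp only [hlev, ← hv]; omega
      exact_mod_cast h4
    have h3 : (v : ℝ) ≤ (wt h U : ℝ) / (κ * M) := Nat.floor_le (by positivity)
    have h4 := Nat.lt_floor_add_one ((wt h U : ℝ) / (κ * M))
    rw [← hv] at h4
    rw [le_div_iff₀ hκM] at h3
    rw [div_lt_iff₀ hκM] at h4
    constructor <;> nlinarith
  have hI : κ * M * 2 ^ I ≤ E := ((hlo U₁ hU₁).1).trans (hL U₁ hU₁).2.2
  rw [← sum_fiberwise_of_maps_to (g := lev) (t := range (I + 1))
    (fun U hU => mem_range.2 (Nat.lt_succ_of_le (hmax U hU)))]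
  have hterm : ∀ i ∈ range (I + 1), ∑ U ∈ L.filter (fun U => lev U = i), (wt h U : ℝ) ^ 2 ≤
      4 * C * (N ^ 2 / κ * ((2 : ℝ) ^ i)⁻¹ + N * (κ * M) * 2 ^ i) := by
    intro i _
    set b := κ * M * 2 ^ i with hb
    have hb0 : 0 < b := by positivity
    have hbound : ∀ U ∈ L.filter (fun U => lev U = i), (wt h U : ℝ) ^ 2 ≤ 4 * b ^ 2 := by
      intro U hU
      obtain ⟨hUL, rfl⟩ := mem_filter.1 hU
      have := (hlo U hUL).2
      rw [← hb] at this
      have h0' : (0 : ℝ) ≤ wt h U := Nat.cast_nonneg _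
      nlinarith
    refine (sum_le_card_nsmul _ _ _ hbound).trans ?_
    rw [nsmul_eq_mul]
    have hcount : ((Finset.card (L.filter fun U => lev U = i)) : ℝ) ≤ C * (N ^ 2 * M / b ^ 3 + N / b) := by
      refine hC V ι h h0 M b hM ?_ hcap _ fun U hU => ?_
      · rw [hb]
        have h2 : (1 : ℝ) ≤ 2 ^ i := one_le_pow₀ (by norm_num)
        have h3 : C * M ≤ κ * M := by gcongr
        nlinarith
      · obtain ⟨hUL, hUi⟩ := mem_filter.1 hU
        refine ⟨(hL U hUL).1, ?_⟩
        have := (hlo U hUL).1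
        rw [hUi] at this
        exact this
    refine (mul_le_mul_of_nonneg_right hcount (by positivity)).trans (le_of_eq ?_)
    rw [hb]
    field_simp
  refine (sum_le_sum hterm).trans ?_
  rw [← mul_sum, sum_add_distrib, ← mul_sum, ← mul_sum]
  have h1 : N ^ 2 / κ * ∑ i ∈ range (I + 1), ((2 : ℝ) ^ i)⁻¹ ≤ N ^ 2 / κ * 2 := by
    refine mul_le_mul_of_nonneg_left ?_ (by positivity)
    have := sum_inv_two_pow_le I
    have : 0 ≤ ((2 : ℝ) ^ I)⁻¹ := by positivity
    linarith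
  have h2 : N * (κ * M) * ∑ i ∈ range (I + 1), (2 : ℝ) ^ i ≤ N * (2 * E) := by
    rw [mul_assoc N]
    refine mul_le_mul_of_nonneg_left ?_ (by positivity)
    have := mul_le_mul_of_nonneg_left (sum_two_pow_le I) hκM.le
    linarith
  have h3 : N ^ 2 / κ * ∑ i ∈ range (I + 1), ((2 : ℝ) ^ i)⁻¹ +
      N * (κ * M) * ∑ i ∈ range (I + 1), (2 : ℝ) ^ i ≤ 2 * (N ^ 2 / κ + N * E) := by linarith
  have := mul_le_mul_of_nonneg_left h3 (show (0 : ℝ) ≤ 4 * C by positivity)
  linarith

open Classical in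
/-- At least half of a rich nondegenerate flat consists of points lying on no heavy line with a
quarter of it. -/
lemma many_good [FiniteDimensional ℝ V] [Fintype ι] {C : ℝ} (hC : PlanesBound C) (hC0 : 0 < C)
    (h : ι → V) (h0 : ∀ i, h i ≠ 0) {M : ℝ} (hM : 1 ≤ M) (hcap : ∀ v, (wt h (ℝ ∙ v) : ℝ) ≤ M)
    {κ η a : ℝ} (hκ : 128 * C ≤ κ) (hκ1 : 1 ≤ κ) (hη : 128 * C * η ≤ 1) (hη0 : 0 ≤ η)
    (ha : 0 ≤ a) {j : ℕ} (hj : 2 ≤ j) (U : Submodule ℝ V) (hU : Module.finrank ℝ U = j + 1)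
    (hUa : a ≤ (wt h U : ℝ))
    (hsub : ∀ U' ≤ U, Module.finrank ℝ U' + 1 = j + 1 → (wt h U' : ℝ) ≤ η * a) :
    (wt h U : ℝ) / 2 ≤ (Finset.card ((univ.filter fun i => h i ∈ U).filter fun i =>
      ((Finset.card ((univ.filter fun k => h k ∈ U).filter fun k => h k ∉ ℝ ∙ h i ∧
        κ * M < (wt h ((ℝ ∙ h i) ⊔ (ℝ ∙ h k)) : ℝ))) : ℝ) ≤ (wt h U : ℝ) / 4)) := by
  set S := univ.filter fun i => h i ∈ U with hS
  set W : ℝ := (wt h U : ℝ) with hW
  have hWS : W = ((Finset.card S) : ℝ) := by rw [hW, wt_eq_card]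
  set X : ι → ℕ := fun i => (Finset.card (S.filter fun k => h k ∉ ℝ ∙ h i ∧
      κ * M < (wt h ((ℝ ∙ h i) ⊔ (ℝ ∙ h k)) : ℝ))) with hX
  -- heavy lines inside `U`, as seen by the labels of `U`
  let hsubf : {i // h i ∈ U} → V := fun i => h i.1
  have hwt : ∀ A : Submodule ℝ V, A ≤ U → wt hsubf A = wt h A := by
    intro A hA
    unfold wt
    refine Set.ncard_congr (fun i _ => i.1) (fun i hi => hi) (fun i k _ _ hik => Subtype.ext hik)
      (fun i hi => ⟨⟨i, hA hi⟩, hi, rfl⟩)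
  set Ls : Finset (Submodule ℝ V) :=
    ((S ×ˢ S).filter fun x => h x.2 ∉ ℝ ∙ h x.1 ∧
      κ * M < (wt h ((ℝ ∙ h x.1) ⊔ (ℝ ∙ h x.2)) : ℝ)).image
      fun x => (ℝ ∙ h x.1) ⊔ (ℝ ∙ h x.2) with hLs
  have hLU : ∀ A ∈ Ls, A ≤ U ∧ Module.finrank ℝ A = 2 ∧ κ * M < (wt h A : ℝ) := by
    intro A hA
    obtain ⟨x, hx, rfl⟩ := mem_image.1 hA
    obtain ⟨hxS, hx1, hx2⟩ := mem_filter.1 hx
    obtain ⟨hx3, hx4⟩ := mem_product.1 hxS
    refine ⟨sup_le ((span_singleton_le_iff_mem _ _).2 (mem_filter.1 hx3).2)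
      ((span_singleton_le_iff_mem _ _).2 (mem_filter.1 hx4).2), finrank_pair (h0 _) hx1, hx2⟩
  have hsq : ∑ A ∈ Ls, (wt h A : ℝ) ^ 2 ≤ W ^ 2 / 8 := by
    have hcap' : ∀ v, (wt hsubf (ℝ ∙ v) : ℝ) ≤ M := fun v => by
      refine le_trans (Nat.cast_le.2 ?_) (hcap v)
      exact Set.ncard_le_ncard_of_injOn (fun i : {i // h i ∈ U} => i.1) (fun i hi => hi)
        (fun i _ k _ hik => Subtype.ext hik) (Set.toFinite _)
    have := sum_sq_heavy hC hC0.le hsubf (fun i => h0 _) hM hcap' (κ := κ) (E := η * W)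
      (by linarith) hκ1 (by positivity) Ls ?_
    · rw [sum_congr rfl (fun A hA => by rw [hwt A (hLU A hA).1])] at this
      refine this.trans ?_
      have hcardι : (Fintype.card {i // h i ∈ U} : ℝ) = W := by
        rw [hWS]; exact_mod_cast Fintype.card_subtype _
      rw [hcardι]
      have hκpos : 0 < κ := by linarith
      have e1 : C * (W ^ 2 / κ) ≤ W ^ 2 / 128 := by
        rw [mul_div_assoc', div_le_div_iff₀ hκpos (by norm_num)]
        nlinarith [mul_le_mul_of_nonneg_right hκ (sq_nonneg W)]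
      have e2 : C * (W * (η * W)) ≤ W ^ 2 / 128 := by
        nlinarith [mul_le_mul_of_nonneg_right hη (sq_nonneg W)]
      linarith
    · intro A hA
      obtain ⟨h1, h2, h3⟩ := hLU A hA
      rw [hwt A h1]
      obtain ⟨U', hAU', hU'U, hU'⟩ := exists_between h1 (k := j) (by omega) (by omega)
      have h4 : (wt h A : ℝ) ≤ η * a :=
        le_trans (by exact_mod_cast wt_mono h hAU') (hsub U' hU'U (by omega))
      exact ⟨h2, h3.le, h4.trans (mul_le_mul_of_nonneg_left hUa hη0)⟩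
  have hpairs : ((∑ i ∈ S, X i : ℕ) : ℝ) ≤ ∑ A ∈ Ls, (wt h A : ℝ) ^ 2 := by
    have h1 : ∑ i ∈ S, X i = (Finset.card ((S ×ˢ S).filter fun x => h x.2 ∉ ℝ ∙ h x.1 ∧
        κ * M < (wt h ((ℝ ∙ h x.1) ⊔ (ℝ ∙ h x.2)) : ℝ))) := by
      rw [card_filter, sum_product]
      exact sum_congr rfl fun i _ => by simp only [hX]; rw [card_filter]
    have h2 : ∀ A ∈ Ls, (wt h A : ℝ) ^ 2 =
        ((Finset.card ((S.filter fun i => h i ∈ A) ×ˢ (S.filter fun i => h i ∈ A))) : ℝ) := by
      intro A hA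
      have : wt h A = (Finset.card (S.filter fun i => h i ∈ A)) := by
        rw [wt_eq_card]
        congr 1
        ext i
        simp only [hS, mem_filter, mem_univ, true_and]
        exact ⟨fun hh => ⟨(hLU A hA).1 hh, hh⟩, fun hh => hh.2⟩
      rw [card_product, this]; push_cast; ring
    rw [sum_congr rfl h2, h1]
    norm_cast
    refine le_trans (card_le_card ?_) card_biUnion_le
    intro x hx
    have hx' := mem_filter.1 hx
    obtain ⟨h3, h4⟩ := mem_product.1 hx'.1
    refine mem_biUnion.2 ⟨_, mem_image.2 ⟨x, hx, rfl⟩, mem_product.2 ⟨?_, ?_⟩⟩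
    · exact mem_filter.2 ⟨h3, mem_sup_left (mem_span_singleton_self _)⟩
    · exact mem_filter.2 ⟨h4, mem_sup_right (mem_span_singleton_self _)⟩
  have hbad : ((Finset.card (S.filter fun i => ¬ (X i : ℝ) ≤ W / 4)) : ℝ) * (W / 4) ≤ W ^ 2 / 8 := by
    refine le_trans ?_ (hpairs.trans hsq)
    push_cast
    rw [← nsmul_eq_mul]
    exact (card_nsmul_le_sum _ _ _ fun i hi => (not_le.1 (mem_filter.1 hi).2).le).trans
      (sum_le_sum_of_subset_of_nonneg (filter_subset _ _) fun i _ _ => Nat.cast_nonneg _)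
  have hsplit := card_filter_add_card_filter_not (s := S) (fun i => (X i : ℝ) ≤ W / 4)
  have hsplit' : ((Finset.card (S.filter fun i => (X i : ℝ) ≤ W / 4)) : ℝ) +
      ((Finset.card (S.filter fun i => ¬ (X i : ℝ) ≤ W / 4)) : ℝ) = W := by
    have := congrArg (fun n : ℕ => (n : ℝ)) hsplit
    push_cast at this
    linarith [hWS]
  rcases (show (0 : ℝ) ≤ W from Nat.cast_nonneg _).lt_or_eq with hW0 | hW0
  · nlinarith
  · rw [← hW0]; simp

open Classical in
/-- One step: projecting from a point of the flat. -/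
theorem flatsBound_succ {C : ℝ} (hC : PlanesBound C) (hC0 : 0 < C) {j : ℕ} (hj : 2 ≤ j)
    {η K D : ℝ} (hη : 0 < η) (hK : 1 ≤ K) (hD : 0 ≤ D) (hB : FlatsBound j η K D) :
    FlatsBound (j + 1) (min (η / 2) (1 / (128 * C))) (8 * max 1 (128 * C) * K)
      (D * 2 ^ (j + 3) * max 1 (128 * C)) := by
  intro V _ _ _ ι _ h h0 M a hM hKa hcap L hL
  set κ := max 1 (128 * C) with hκdef
  set η' := min (η / 2) (1 / (128 * C)) with hη'
  have hκ1 : 1 ≤ κ := le_max_left _ _
  have hκ : 128 * C ≤ κ := le_max_right _ _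
  have hη'0 : 0 < η' := lt_min (by positivity) (by positivity)
  have hη'C : 128 * C * η' ≤ 1 := by
    calc 128 * C * η' ≤ 128 * C * (1 / (128 * C)) :=
          mul_le_mul_of_nonneg_left (min_le_right _ _) (by positivity)
      _ = 1 := by field_simp
  have hM0 : 0 < M := by linarith
  have hκK : 1 ≤ κ * K := one_le_mul_of_one_le_of_one_le hκ1 hK
  have ha8 : 8 * M ≤ a := le_trans (by nlinarith) hKa
  have ha : 0 < a := by linarith
  set N : ℝ := (Fintype.card ι : ℝ)
  -- goodness of a label for a flat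
  let good : Submodule ℝ V → ι → Prop := fun U i => h i ∈ U ∧
      ((Finset.card ((univ.filter fun k => h k ∈ U).filter fun k => h k ∉ ℝ ∙ h i ∧
        κ * M < (wt h ((ℝ ∙ h i) ⊔ (ℝ ∙ h k)) : ℝ))) : ℝ) ≤ (wt h U : ℝ) / 4
  have hgood : ∀ U ∈ L, a / 2 ≤ ((Finset.card (univ.filter (good U))) : ℝ) := by
    intro U hU
    obtain ⟨h1, h2, h3⟩ := hL U hU
    have := many_good hC hC0 h h0 hM hcap hκ hκ1 hη'C hη'0.le ha.le hj U h1 h2 h3
    rw [filter_filter] at this
    linarith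
  set B : ℝ := D * ((N / (a / 2)) ^ j * (κ * M) / (a / 2) + (N / (a / 2)) ^ (j - 1)) with hB'
  have hproj : ∀ i, ((Finset.card (L.filter fun U => good U i)) : ℝ) ≤ B := by
    intro i
    set p : Submodule ℝ V := ℝ ∙ h i with hp
    let ι' := {k : ι // h k ∉ p ∧ (wt h (p ⊔ ℝ ∙ h k) : ℝ) ≤ κ * M}
    let h' : ι' → (V ⧸ p) := fun k => p.mkQ (h k.1)
    have hinj : Set.InjOn (fun U : Submodule ℝ V => U.map p.mkQ) (L.filter fun U => good U i) := by
      intro U hU U' hU' heq
      simp only [coe_filter, Set.mem_setOf_eq] at hU hU'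
      have e : ∀ A : Submodule ℝ V, h i ∈ A → (A.map p.mkQ).comap p.mkQ = A := fun A hA => by
        rw [comap_map_eq, ker_mkQ, sup_eq_left]
        exact (span_singleton_le_iff_mem _ _).2 hA
      simp only at heq
      rw [← e U hU.2.1, heq, e U' hU'.2.1]
    rw [← card_image_of_injOn hinj]
    have hcard : (Fintype.card ι' : ℝ) ≤ N := by
      exact Nat.cast_le.2 (Fintype.card_le_of_injective Subtype.val Subtype.val_injective)
    refine (hB (V ⧸ p) ι' h' (fun k hk => k.2.1 ((Quotient.mk_eq_zero p).1 hk))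
      (κ * M) (a / 2) (one_le_mul_of_one_le_of_one_le hκ1 hM) ?_ ?_ _ ?_).trans ?_
    · linarith [mul_nonneg (mul_nonneg (zero_le_one.trans hκ1) (zero_le_one.trans hK)) hM0.le]
    · intro v
      by_cases hne : ∃ k : ι', h' k ∈ ℝ ∙ v
      · obtain ⟨k, hk⟩ := hne
        have hk0 : h' k ≠ 0 := fun hh => k.2.1 ((Quotient.mk_eq_zero p).1 hh)
        have hspan : ℝ ∙ v ≤ ℝ ∙ h' k := by
          obtain ⟨c, hc⟩ := mem_span_singleton.1 hk
          rw [span_singleton_le_iff_mem, mem_span_singleton]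
          have hc0 : c ≠ 0 := fun h => by rw [h, zero_smul] at hc; exact hk0 hc.symm
          exact ⟨c⁻¹, by rw [← hc, smul_smul, inv_mul_cancel₀ hc0, one_smul]⟩
        refine le_trans ?_ k.2.2
        norm_cast
        refine Set.ncard_le_ncard_of_injOn (fun x => x.1) ?_ (fun x _ y _ hxy => Subtype.ext hxy)
        intro x hx
        have hx' : h' x ∈ ℝ ∙ h' k := hspan hx
        obtain ⟨c, hc⟩ := mem_span_singleton.1 hx'
        show h x.1 ∈ p ⊔ ℝ ∙ h k.1
        have : h x.1 - c • h k.1 ∈ p := by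
          rw [← Submodule.Quotient.mk_eq_zero, Submodule.Quotient.mk_sub,
            Submodule.Quotient.mk_smul, sub_eq_zero]
          exact hc.symm
        rw [show h x.1 = (h x.1 - c • h k.1) + c • h k.1 by abel]
        exact add_mem (mem_sup_left this) (mem_sup_right (mem_span_singleton.2 ⟨c, rfl⟩))
      · push Not at hne
        have : wt h' (ℝ ∙ v) = 0 := by
          rw [wt, Set.ncard_eq_zero]
          ext x; simpa using hne x
        rw [this]; push_cast; positivity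
    · intro U' hU'
      obtain ⟨U, hU, rfl⟩ := mem_image.1 hU'
      obtain ⟨hUL, hiU, hX⟩ := mem_filter.1 hU
      obtain ⟨hr, hW, hsub⟩ := hL U hUL
      have hpU : p ≤ U := (span_singleton_le_iff_mem _ _).2 hiU
      have hfr : ∀ A : Submodule ℝ V, p ≤ A →
          Module.finrank ℝ (A.map p.mkQ) + 1 = Module.finrank ℝ A := by
        intro A hA
        have := (p.mkQ.domRestrict A).finrank_range_add_finrank_ker
        have h2 : Module.finrank ℝ (LinearMap.ker (p.mkQ.domRestrict A)) = 1 := by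
          rw [LinearMap.ker_domRestrict, ker_mkQ]
          rw [LinearEquiv.finrank_eq (comapSubtypeEquivOfLe hA)]
          exact finrank_span_singleton (h0 i)
        rwa [LinearMap.range_domRestrict, h2] at this
      refine ⟨by have := hfr U hpU; omega, ?_, ?_⟩
      · have key : wt h U ≤ wt h' (U.map p.mkQ) + wt h p +
            (Finset.card ((univ.filter fun k => h k ∈ U).filter fun k => h k ∉ p ∧
              κ * M < (wt h (p ⊔ ℝ ∙ h k) : ℝ))) := by
          have e1 : wt h' (U.map p.mkQ) = (Finset.card ((univ.filter fun k => h k ∈ U).filter fun k =>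
              h k ∉ p ∧ (wt h (p ⊔ ℝ ∙ h k) : ℝ) ≤ κ * M)) := by
            rw [wt, ← Set.ncard_coe_finset]
            refine Set.ncard_congr (fun x _ => x.1) ?_ (fun x y _ _ hxy => Subtype.ext hxy) ?_
            · intro x hx
              simp only [coe_filter, mem_filter, mem_univ, true_and, Set.mem_setOf_eq]
              refine ⟨?_, x.2⟩
              obtain ⟨u, hu, hux⟩ := hx
              have : h x.1 - u ∈ p := by
                rw [← Submodule.Quotient.mk_eq_zero, Submodule.Quotient.mk_sub, sub_eq_zero]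
                exact hux.symm
              have := add_mem (hpU this) hu
              simpa using this
            · intro k hk
              simp only [coe_filter, mem_filter, mem_univ, true_and, Set.mem_setOf_eq] at hk
              exact ⟨⟨k, hk.2⟩, ⟨h k, hk.1, rfl⟩, rfl⟩
          rw [e1, wt_eq_card h U, wt_eq_card h p]
          refine le_trans (card_le_card ?_) (le_trans (card_union_le _ _)
            (Nat.add_le_add_right (card_union_le _ _) _))
          intro k hk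
          simp only [mem_union, mem_filter, mem_univ, true_and] at hk ⊢
          by_cases hkp : h k ∈ p
          · exact Or.inl (Or.inr hkp)
          · by_cases hw : (wt h (p ⊔ ℝ ∙ h k) : ℝ) ≤ κ * M
            · exact Or.inl (Or.inl ⟨hk, hkp, hw⟩)
            · exact Or.inr ⟨hk, hkp, not_le.1 hw⟩
        have key' : (wt h U : ℝ) ≤ (wt h' (U.map p.mkQ) : ℝ) + (wt h p : ℝ) +
            ((Finset.card ((univ.filter fun k => h k ∈ U).filter fun k => h k ∉ p ∧
              κ * M < (wt h (p ⊔ ℝ ∙ h k) : ℝ))) : ℝ) := by exact_mod_cast key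
        have := hcap (h i)
        linarith
      · intro A hA hAr
        have hA' : p ≤ A.comap p.mkQ := fun x hx => by
          rw [mem_comap, (p.mkQ_apply x), (Quotient.mk_eq_zero p).2 hx]; exact zero_mem _
        have hAU : A.comap p.mkQ ≤ U := by
          calc A.comap p.mkQ ≤ (U.map p.mkQ).comap p.mkQ := comap_mono hA
            _ = U := by rw [comap_map_eq, ker_mkQ, sup_eq_left]; exact hpU
        have hfrA := hfr _ hA'
        rw [map_comap_eq_of_surjective p.mkQ_surjective] at hfrA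
        have h1 := hsub _ hAU (by omega)
        have h2 : wt h' A ≤ wt h (A.comap p.mkQ) :=
          Set.ncard_le_ncard_of_injOn (fun x => x.1) (fun x hx => hx)
            (fun x _ y _ hxy => Subtype.ext hxy)
        have h2' : (wt h' A : ℝ) ≤ (wt h (A.comap p.mkQ) : ℝ) := by exact_mod_cast h2
        have h3 : η' * a ≤ η * (a / 2) := by
          have : η' ≤ η / 2 := min_le_left _ _
          nlinarith
        linarith
    · rw [hB']
      gcongr
  have hsum : ((Finset.card L) : ℝ) * (a / 2) ≤ N * B := by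
    calc ((Finset.card L) : ℝ) * (a / 2) ≤ ∑ U ∈ L, ((Finset.card (univ.filter (good U))) : ℝ) := by
          rw [← nsmul_eq_mul]; exact card_nsmul_le_sum _ _ _ hgood
      _ = ∑ i, ((Finset.card (L.filter fun U => good U i)) : ℝ) := by
          simp_rw [natCast_card_filter]; rw [sum_comm]
      _ ≤ ∑ _i : ι, B := sum_le_sum fun i _ => hproj i
      _ = N * B := by simp [N]
  have hstep : ((Finset.card L) : ℝ) ≤ N / (a / 2) * B := by
    rw [div_mul_eq_mul_div, le_div_iff₀ (by positivity)]; exact hsum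
  refine hstep.trans ?_
  have hj' : j = j - 1 + 1 := by omega
  have hN : 0 ≤ N / a := by positivity
  have e : N / (a / 2) = 2 * (N / a) := by field_simp
  rw [hB', e, show (2 * (N / a)) ^ j * (κ * M) / (a / 2) = (2 * (N / a)) ^ j * (2 * κ) * (M / a) by
    field_simp, Nat.add_sub_cancel]
  have t1 : (2 * (N / a)) * (D * ((2 * (N / a)) ^ j * (2 * κ) * (M / a))) ≤
      D * 2 ^ (j + 3) * κ * ((N / a) ^ (j + 1) * M / a) := by
    have : 0 ≤ D * κ * ((N / a) ^ (j + 1) * M / a) * 2 ^ j := by positivity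
    rw [mul_pow]
    have e2 : (2 * (N / a)) * (D * (2 ^ j * (N / a) ^ j * (2 * κ) * (M / a))) =
        4 * (D * κ * ((N / a) ^ (j + 1) * M / a) * 2 ^ j) := by ring
    rw [e2, show D * 2 ^ (j + 3) * κ * ((N / a) ^ (j + 1) * M / a) =
        8 * (D * κ * ((N / a) ^ (j + 1) * M / a) * 2 ^ j) by ring]
    linarith
  have t2 : (2 * (N / a)) * (D * (2 * (N / a)) ^ (j - 1)) ≤
      D * 2 ^ (j + 3) * κ * (N / a) ^ j := by
    have e3 : (2 * (N / a)) * (D * (2 * (N / a)) ^ (j - 1)) =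
        D * (2 : ℝ) ^ j * (N / a) ^ j := by
      conv_rhs => rw [hj', pow_succ, pow_succ]
      rw [mul_pow]; ring
    rw [e3, show D * 2 ^ (j + 3) * κ * (N / a) ^ j = D * 2 ^ j * (N / a) ^ j * (8 * κ) by ring]
    exact le_mul_of_one_le_right (by positivity) (by linarith)
  rw [mul_add D, mul_add, mul_add]
  exact add_le_add t1 t2

/-- **Rich nondegenerate flats of every dimension are few.** -/
theorem exists_flatsBound {C : ℝ} (hC : PlanesBound C) (hC0 : 0 < C) (j : ℕ) (hj : 2 ≤ j) :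
    ∃ η K D : ℝ, 0 < η ∧ η ≤ 1 ∧ 1 ≤ K ∧ 0 ≤ D ∧ FlatsBound j η K D := by
  induction j, hj using Nat.le_induction with
  | base =>
    refine ⟨1, max 1 C, C, one_pos, le_rfl, le_max_left _ _, hC0.le, ?_⟩
    intro V _ _ _ ι _ h h0 M a hM hKa hcap L hL
    have hCa : C * M ≤ a := le_trans (by gcongr; exact le_max_right _ _) hKa
    refine (hC V ι h h0 M a hM hCa hcap L fun U hU => ⟨(hL U hU).1, (hL U hU).2.1⟩).trans
      (le_of_eq ?_)
    have ha : 0 < a := lt_of_lt_of_le (by positivity) hCa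
    have e : ((Fintype.card ι : ℝ) / a) ^ 2 * M / a = (Fintype.card ι : ℝ) ^ 2 * M / a ^ 3 := by
      field_simp
    rw [e, show 2 - 1 = 1 from rfl, pow_one]
  | succ j hj ih =>
    obtain ⟨η, K, D, hη, hη1, hK, hD, hB⟩ := ih
    refine ⟨_, _, _, ?_, ?_, ?_, ?_, flatsBound_succ hC hC0 hj hη hK hD hB⟩
    · exact lt_min (by positivity) (by positivity)
    · exact (min_le_left _ _).trans (by linarith)
    · have := le_max_left (1 : ℝ) (128 * C)
      nlinarith
    · positivity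

end

end Vale.Agent.P054
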