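import Vale.Agent.P054.Geometry
import Vale.Agent.P054.Partition
import Vale.Agent.P054.Rich
import Vale.Agent.P054.Cells

/-!
# The step inequality

Groups with few separated pairs give every point many equidistant pairs from one group and cap
the number of these pairs on one bisector; rich flats of bisectors are then few.
-/

namespace Vale.Agent.P054

open Finset Submodule

noncomputable section

section Groups

variable {α : Type} [DecidableEq α]

/-- A group on which `f` varies little has many pairs on which it is constant. -/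
lemma group_energy (G : Finset α) (f : α → ℕ) (R : ℕ)
    (hR : ∑ p ∈ G, ∑ q ∈ G, Nat.dist (f p) (f q) ≤ R) :
    ((Finset.card G) : ℝ) ^ 2 ≤
      4 * (4 * (R : ℝ) / ((Finset.card G) : ℝ) ^ 2 + 1) * (Finset.card ((G ×ˢ G).filter fun x => f x.1 = f x.2)) := by
  rcases G.eq_empty_or_nonempty with rfl | hne
  · simp
  set s := (Finset.card G) with hs
  have hs0 : 0 < s := card_pos.2 hne
  obtain ⟨p₀, hp₀, hmin⟩ := exists_min_image G (fun p => ∑ q ∈ G, Nat.dist (f p) (f q)) hne
  have h1 : s * ∑ q ∈ G, Nat.dist (f p₀) (f q) ≤ R := by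
    refine le_trans ?_ hR
    rw [← smul_eq_mul]
    exact card_nsmul_le_sum _ _ _ fun p hp => hmin p hp
  set w := 2 * R / (s * s) with hw
  have hlt : 2 * R < (w + 1) * (s * s) := by
    have := Nat.lt_div_mul_add (show 0 < s * s by positivity) (a := 2 * R)
    rw [← hw] at this
    nlinarith
  set W := G.filter fun q => Nat.dist (f p₀) (f q) ≤ w with hW
  have hWbig : s ≤ 2 * (Finset.card W) := by
    set B := G.filter fun q => ¬ Nat.dist (f p₀) (f q) ≤ w with hB
    have h2 : (Finset.card B) * (w + 1) ≤ ∑ q ∈ G, Nat.dist (f p₀) (f q) := by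
      refine le_trans ?_ (sum_le_sum_of_subset (filter_subset (fun q => ¬ Nat.dist (f p₀) (f q) ≤ w) G))
      rw [← smul_eq_mul, ← hB]
      exact card_nsmul_le_sum _ _ _ fun q hq => Nat.succ_le_of_lt (not_le.1 (mem_filter.1 hq).2)
    have h3 : (Finset.card W) + (Finset.card B) = s := card_filter_add_card_filter_not _
    have h4 : s * ((Finset.card B) * (w + 1)) ≤ R := (Nat.mul_le_mul_left s h2).trans h1
    by_contra hcon
    push Not at hcon
    have h5 : s + 1 ≤ 2 * (Finset.card B) := by omega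
    have h6 : (s + 1) * ((w + 1) * s) ≤ 2 * (Finset.card B) * ((w + 1) * s) := Nat.mul_le_mul_right _ h5
    nlinarith
  set K := Icc (f p₀ - w) (f p₀ + w)
  have hmaps : ∀ q ∈ W, f q ∈ K := by
    intro q hq
    have := (mem_filter.1 hq).2
    simp only [Nat.dist] at this
    simp only [K, mem_Icc]
    omega
  have hK : (Finset.card K) ≤ 2 * w + 1 := by simp only [K, Nat.card_Icc]; omega
  have hCS := sq_sum_le_card_mul_sum_sq (s := K) (f := fun k => (Finset.card (W.filter fun q => f q = k)))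
  rw [← card_eq_sum_card_fiberwise hmaps] at hCS
  have hE : ∑ k ∈ K, (Finset.card (W.filter fun q => f q = k)) ^ 2 ≤
      (Finset.card ((G ×ˢ G).filter fun x => f x.1 = f x.2)) := by
    simp_rw [sq, ← card_product]
    rw [← card_biUnion]
    · refine card_le_card fun x hx => ?_
      obtain ⟨k, -, hk⟩ := mem_biUnion.1 hx
      obtain ⟨h2, h3⟩ := mem_product.1 hk
      obtain ⟨h4, h5⟩ := mem_filter.1 h2
      obtain ⟨h6, h7⟩ := mem_filter.1 h3
      exact mem_filter.2 ⟨mem_product.2 ⟨(mem_filter.1 h4).1, (mem_filter.1 h6).1⟩, h5.trans h7.symm⟩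
    · intro k _ k' _ hkk
      rw [Function.onFun, Finset.disjoint_left]
      intro x hx hx'
      exact hkk ((mem_filter.1 (mem_product.1 hx).1).2.symm.trans
        (mem_filter.1 (mem_product.1 hx').1).2)
  have h5 : (Finset.card W) ^ 2 ≤ (2 * w + 1) * (Finset.card ((G ×ˢ G).filter fun x => f x.1 = f x.2)) :=
    hCS.trans (Nat.mul_le_mul hK hE)
  have hWbig' : (s : ℝ) ≤ 2 * (Finset.card W) := by exact_mod_cast hWbig
  have h5' : ((Finset.card W) : ℝ) ^ 2 ≤ (2 * (w : ℝ) + 1) * (Finset.card ((G ×ˢ G).filter fun x => f x.1 = f x.2)) := by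
    exact_mod_cast h5
  have hw' : (w : ℝ) ≤ 2 * (R : ℝ) / (s : ℝ) ^ 2 := by
    rw [le_div_iff₀ (by positivity), sq]
    exact_mod_cast Nat.div_mul_le_self (2 * R) (s * s)
  have hE0 : (0 : ℝ) ≤ (Finset.card ((G ×ˢ G).filter fun x => f x.1 = f x.2)) := Nat.cast_nonneg _
  have h6 : (2 * (w : ℝ) + 1) * (Finset.card ((G ×ˢ G).filter fun x => f x.1 = f x.2)) ≤
      (4 * (R : ℝ) / (s : ℝ) ^ 2 + 1) * (Finset.card ((G ×ˢ G).filter fun x => f x.1 = f x.2)) := by
    refine mul_le_mul_of_nonneg_right ?_ hE0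
    have : 4 * (R : ℝ) / (s : ℝ) ^ 2 = 2 * (2 * (R : ℝ) / (s : ℝ) ^ 2) := by ring
    linarith
  nlinarith

end Groups

open Classical in
/-- Pairs that a range separates, seen one to one from both ends. -/
lemma pairs_le_cut {α ι : Type} [Fintype ι] (side : ι → α → Bool) (i : ι) (G : Finset α)
    (S : Finset (α × α)) (hS : S ⊆ G ×ˢ G) (hside : ∀ x ∈ S, side i x.1 ≠ side i x.2)
    (h1 : Set.InjOn Prod.fst (S : Set (α × α))) (h2 : Set.InjOn Prod.snd (S : Set (α × α))) :
    (Finset.card G) * (Finset.card S) ≤ 2 * Partition.cut side i G := by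
  set A := G.filter fun p => side i p = true with hA
  set B := G.filter fun p => ¬ side i p = true with hB
  have hAB : (Finset.card A) + (Finset.card B) = (Finset.card G) := card_filter_add_card_filter_not _
  have hmem : ∀ x ∈ S, x.1 ∈ G ∧ x.2 ∈ G := fun x hx => mem_product.1 (hS hx)
  set S₁ := S.filter fun x => side i x.1 = true
  set S₂ := S.filter fun x => ¬ side i x.1 = true
  have a1 : (Finset.card S₁) ≤ (Finset.card A) := card_le_card_of_injOn Prod.fst
    (fun x hx => mem_filter.2 ⟨(hmem x (mem_filter.1 hx).1).1, (mem_filter.1 hx).2⟩)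
    (h1.mono (by intro x hx; exact (mem_filter.1 hx).1))
  have b1 : (Finset.card S₁) ≤ (Finset.card B) := card_le_card_of_injOn Prod.snd
    (fun x hx => mem_filter.2 ⟨(hmem x (mem_filter.1 hx).1).2, fun hh =>
      hside x (mem_filter.1 hx).1 (((mem_filter.1 hx).2).trans hh.symm)⟩)
    (h2.mono (by intro x hx; exact (mem_filter.1 hx).1))
  have b2 : (Finset.card S₂) ≤ (Finset.card B) := card_le_card_of_injOn Prod.fst
    (fun x hx => mem_filter.2 ⟨(hmem x (mem_filter.1 hx).1).1, (mem_filter.1 hx).2⟩)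
    (h1.mono (by intro x hx; exact (mem_filter.1 hx).1))
  have a2 : (Finset.card S₂) ≤ (Finset.card A) := card_le_card_of_injOn Prod.snd
    (fun x hx => mem_filter.2 ⟨(hmem x (mem_filter.1 hx).1).2, by
      have h3 := hside x (mem_filter.1 hx).1
      have h4 := (mem_filter.1 hx).2
      cases h5 : side i x.1 <;> cases h6 : side i x.2 <;> simp_all⟩)
    (h2.mono (by intro x hx; exact (mem_filter.1 hx).1))
  have hcut : 2 * ((Finset.card A) * (Finset.card B)) ≤ Partition.cut side i G := by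
    have h3 : (Finset.card (A ×ˢ B ∪ B ×ˢ A)) ≤ Partition.cut side i G := by
      refine card_le_card fun x hx => ?_
      simp only [hA, hB, mem_union, mem_product, mem_filter] at hx ⊢
      rcases hx with ⟨⟨ha, ha'⟩, hb, hb'⟩ | ⟨⟨hb, hb'⟩, ha, ha'⟩
      · exact ⟨⟨ha, hb⟩, fun hh => hb' (hh ▸ ha')⟩
      · exact ⟨⟨hb, ha⟩, fun hh => hb' (hh.trans ha')⟩
    rw [card_union_of_disjoint, card_product, card_product, mul_comm (Finset.card B) (Finset.card A)] at h3
    · omega
    · rw [Finset.disjoint_left]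
      intro x hx hx'
      exact (mem_filter.1 (mem_product.1 hx').1).2 (mem_filter.1 (mem_product.1 hx).1).2
  have hsplit : (Finset.card S₁) + (Finset.card S₂) = (Finset.card S) := card_filter_add_card_filter_not _
  have e1 : (Finset.card S₁) * (Finset.card G) ≤ 2 * ((Finset.card A) * (Finset.card B)) := by rw [← hAB]; nlinarith
  have e2 : (Finset.card S₂) * (Finset.card G) ≤ 2 * ((Finset.card A) * (Finset.card B)) := by rw [← hAB]; nlinarith
  rw [← hsplit]
  nlinarith

variable {d : ℕ}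

/-- The constant in `log (number of ranges) + 2 δ r ≤ L₀ ℓ r^(1-1/d)`. -/
def sepConst (C₀ : ℕ) : ℝ := 4 + 18 * ((C₀ : ℝ) + 1)

open Classical in
/-- **Pairs of one group.** A family of at most `r s²` pairs such that one bisector serves few of
them and every point is equidistant from many. -/
theorem exists_pairs (hd : 1 ≤ d) {C₀ : ℕ}
    (hcells : ∀ (m : ℕ) (g : Fin m → ℝ × Sp d × ℝ) (P : Finset (Sp d)),
      (Finset.card (P.image (fun p i => decide (0 ≤ quad (g i) p)))) ≤ C₀ * (m + 1) ^ d)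
    (P : Finset (Sp d)) {t r s : ℕ} (ht : (Finset.card (dists P)) ≤ t) (hr : 1 ≤ r) (hs : 32 ≤ s)
    (hsize : 2 * r * s ≤ (Finset.card P))
    (hcond : 128 * sepConst C₀ * Real.log (((Finset.card P) : ℝ) + 2) * ((t : ℝ) + 2) *
      (r : ℝ) ^ (1 - (d : ℝ)⁻¹) ≤ (r : ℝ) * s) :
    ∃ E : Finset (Sp d × Sp d),
      (∀ x ∈ E, x.1 ≠ x.2) ∧ (Finset.card E) ≤ r * (s * s) ∧
      (∀ v : Sp d × ℝ, ((Finset.card (E.filter fun x => bis x.1 x.2 ∈ ℝ ∙ v)) : ℝ) ≤
        4 * (s : ℝ) * (sepConst C₀ * Real.log (((Finset.card P) : ℝ) + 2) * (r : ℝ) ^ (1 - (d : ℝ)⁻¹))) ∧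
      ∀ z ∈ P, (r : ℝ) * s ≤ (Finset.card (E.filter fun x => dist z x.1 = dist z x.2)) := by
  set n := (Finset.card P) with hn
  set ℓ := Real.log ((n : ℝ) + 2) with hℓ
  set u := (r : ℝ) ^ (1 - (d : ℝ)⁻¹) with hu
  set vals := insert (0 : ℝ) (dists P) with hvals
  let ι := {x : Sp d × ℝ // x ∈ P ×ˢ vals} ⊕ {x : Sp d × Sp d // x ∈ P.offDiag}
  let gf : ι → ℝ × Sp d × ℝ := fun i => i.elim
    (fun x => (-1, (2 : ℝ) • x.1.1, x.1.2 ^ 2 - ‖x.1.1‖ ^ 2))
    (fun x => (0, (bis x.1.1 x.1.2).1, (bis x.1.1 x.1.2).2))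
  let side : ι → Sp d → Bool := fun i p => decide (0 ≤ quad (gf i) p)
  have hside₁ : ∀ x p, side (.inl x) p = decide (dist x.1.1 p ^ 2 ≤ x.1.2 ^ 2) := by
    intro x p
    refine decide_eq_decide.2 ?_
    simp only [gf, Sum.elim_inl, quad, dist_eq_norm, norm_sub_sq_real, real_inner_smul_left]
    constructor <;> intro h <;> linarith
  have hside₂ : ∀ x p, side (.inr x) p = decide (0 ≤ evalAt p (bis x.1.1 x.1.2)) := by
    intro x p
    refine decide_eq_decide.2 ?_
    simp only [gf, Sum.elim_inr, quad, evalAt_apply, real_inner_comm p]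
    constructor <;> intro h <;> linarith
  obtain ⟨G, hG, hdisj, hcut⟩ := Partition.exists_groups P side hd hr (by omega)
    (fun m f => hcells m (fun j => gf (f j)) P) hsize
  -- the total separation
  have hn2 : 2 ≤ n := by nlinarith
  have hℓ1 : 1 ≤ ℓ := by
    rw [hℓ, Real.le_log_iff_exp_le (by positivity)]
    have := Real.exp_one_lt_d9
    have : (2 : ℝ) ≤ n := by exact_mod_cast hn2
    linarith
  have hr1 : (1 : ℝ) ≤ r := by exact_mod_cast hr
  have hu1 : 1 ≤ u := Real.one_le_rpow hr1 (sub_nonneg.2 (inv_le_one_of_one_le₀ (by exact_mod_cast hd)))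
  have hvalcard : (Finset.card vals) ≤ t + 1 := (card_insert_le _ _).trans (by omega)
  have hL : Real.log (Fintype.card ι) + 2 * Partition.scale C₀ d r * r ≤
      sepConst C₀ * ℓ * u := by
    have hdn : (Finset.card (dists P)) ≤ n * n :=
      card_image_le.trans (by rw [offDiag_card]; exact Nat.sub_le _ _)
    have h1 : Fintype.card ι ≤ (n + 2) ^ 4 := by
      simp only [ι, Fintype.card_sum, Fintype.card_coe, card_product, offDiag_card, ← hn]
      have : (Finset.card vals) ≤ n * n + 1 := (card_insert_le _ _).trans (by omega)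
      have h2 : n * (Finset.card vals) ≤ n * (n * n + 1) := Nat.mul_le_mul_left n this
      have h3 : (n + 2) ^ 4 = n ^ 4 + 8 * n ^ 3 + 24 * n ^ 2 + 32 * n + 16 := by ring
      have : n * n - n ≤ n ^ 2 := by rw [sq]; exact Nat.sub_le _ _
      nlinarith
    have h2 : Real.log (Fintype.card ι) ≤ 4 * ℓ := by
      rcases Nat.eq_zero_or_pos (Fintype.card ι) with h | h
      · rw [h, Nat.cast_zero, Real.log_zero]; linarith
      · rw [hℓ, show (4 : ℝ) * Real.log ((n : ℝ) + 2) = ((4 : ℕ) : ℝ) * Real.log ((n : ℝ) + 2) by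
          norm_num, ← Real.log_pow]
        refine Real.log_le_log (by exact_mod_cast h) ?_
        exact_mod_cast h1
    have h3 : 2 * Partition.scale C₀ d r * r ≤ 18 * ((C₀ : ℝ) + 1) * ℓ * u := by
      have e : u = (r : ℝ) / (r : ℝ) ^ ((d : ℝ)⁻¹) := by
        rw [hu, Real.rpow_sub (by linarith), Real.rpow_one]
      have h4 : Real.log ((r : ℝ) + 2) ≤ ℓ := by
        refine Real.log_le_log (by positivity) ?_
        have : r ≤ n := by nlinarith
        exact add_le_add_left (Nat.cast_le.2 this) 2 |>.trans le_rfl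
      have e2 : 2 * Partition.scale C₀ d r * r =
          18 * ((C₀ : ℝ) + 1) * Real.log ((r : ℝ) + 2) * u := by
        rw [e, Partition.scale]; ring
      rw [e2]
      gcongr
    have h5 : 4 * ℓ ≤ 4 * ℓ * u := le_mul_of_one_le_right (by linarith) hu1
    rw [sepConst]
    linarith
  set L := sepConst C₀ * ℓ * u with hLdef
  have hcut' : ∀ i, ∑ k ∈ range r, (Partition.cut side i (G k) : ℝ) ≤ 2 * (s : ℝ) ^ 2 * L :=
    fun i => (hcut i).trans (mul_le_mul_of_nonneg_left hL (by positivity))
  set E := (range r).biUnion fun k => (G k).offDiag with hE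
  refine ⟨E, ?_, ?_, ?_, ?_⟩
  · intro x hx
    obtain ⟨k, -, hk⟩ := mem_biUnion.1 hx
    exact (mem_offDiag.1 hk).2.2
  · refine card_biUnion_le.trans ((sum_le_card_nsmul _ _ (s * s) fun k hk => ?_).trans (by simp))
    rw [offDiag_card, (hG k (mem_range.1 hk)).2]
    exact Nat.sub_le _ _
  · intro v
    set S := E.filter fun x => bis x.1 x.2 ∈ ℝ ∙ v with hS
    rcases S.eq_empty_or_nonempty with h | ⟨x₀, hx₀⟩
    · rw [h, card_empty, Nat.cast_zero]
      have : 0 ≤ sepConst C₀ := by rw [sepConst]; positivity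
      positivity
    obtain ⟨hx₀E, hx₀v⟩ := mem_filter.1 hx₀
    obtain ⟨k₀, hk₀, hk₀x⟩ := mem_biUnion.1 hx₀E
    obtain ⟨hp₀, hq₀, hne₀⟩ := mem_offDiag.1 hk₀x
    have hP₀ := (hG k₀ (mem_range.1 hk₀)).1
    let i₀ : ι := .inr ⟨x₀, mem_offDiag.2 ⟨hP₀ hp₀, hP₀ hq₀, hne₀⟩⟩
    have hE' : ∀ x ∈ S, x.1 ≠ x.2 ∧ bis x.1 x.2 ∈ ℝ ∙ v := by
      intro x hx
      obtain ⟨hxE, hxv⟩ := mem_filter.1 hx
      obtain ⟨k, -, hk⟩ := mem_biUnion.1 hxE
      exact ⟨(mem_offDiag.1 hk).2.2, hxv⟩
    have hsep : ∀ x ∈ S, side i₀ x.1 ≠ side i₀ x.2 := by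
      intro x hx
      obtain ⟨hxne, hxv⟩ := hE' x hx
      obtain ⟨a, ha⟩ := mem_span_singleton.1 hxv
      obtain ⟨b, hb⟩ := mem_span_singleton.1 hx₀v
      have ha0 : a ≠ 0 := fun h => bis_ne_zero hxne (by rw [← ha, h, zero_smul])
      have hb0 : b ≠ 0 := fun h => bis_ne_zero hne₀ (by rw [← hb, h, zero_smul])
      have e1 := evalAt_bis_left x.1 x.2
      have e2 := evalAt_bis_right x.1 x.2
      rw [← ha, map_smul, smul_eq_mul] at e1 e2
      have hd2 : 0 < dist x.1 x.2 ^ 2 := by
        have := dist_pos.2 hxne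
        positivity
      simp only [i₀, hside₂, ne_eq, decide_eq_decide, ← hb, map_smul, smul_eq_mul]
      have key : (b * evalAt x.1 v) * (b * evalAt x.2 v) < 0 := by
        have h3 : (a * evalAt x.1 v) * (a * evalAt x.2 v) < 0 := by
          rw [e1, e2]; nlinarith
        have : (b * evalAt x.1 v) * (b * evalAt x.2 v) =
            (b / a) ^ 2 * ((a * evalAt x.1 v) * (a * evalAt x.2 v)) := by field_simp
        rw [this]
        exact mul_neg_of_pos_of_neg (by positivity) h3
      intro hiff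
      rcases le_or_gt 0 (b * evalAt x.1 v) with h | h
      · nlinarith [hiff.1 h]
      · rcases le_or_gt 0 (b * evalAt x.2 v) with h' | h'
        · linarith [hiff.2 h']
        · nlinarith
    have hinj1 : Set.InjOn Prod.fst (S : Set (Sp d × Sp d)) := by
      intro x hx y hy hxy
      obtain ⟨h1, h2⟩ := hE' x hx
      obtain ⟨h3, h4⟩ := hE' y hy
      rw [← hxy] at h3 h4
      exact Prod.ext hxy (bis_inj_of_mem h1 h3 h2 h4)
    have hinj2 : Set.InjOn Prod.snd (S : Set (Sp d × Sp d)) := by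
      intro x hx y hy hxy
      obtain ⟨h1, h2⟩ := hE' x hx
      obtain ⟨h3, h4⟩ := hE' y hy
      rw [← hxy] at h3 h4
      have h5 := (ℝ ∙ v).neg_mem h2
      have h6 := (ℝ ∙ v).neg_mem h4
      rw [← bis_swap] at h5 h6
      exact Prod.ext (bis_inj_of_mem (Ne.symm h1) (Ne.symm h3) h5 h6) hxy
    have hgroup : ∀ k ∈ range r, s * (Finset.card (S.filter fun x => x ∈ (G k).offDiag)) ≤
        2 * Partition.cut side i₀ (G k) := by
      intro k hk
      have := pairs_le_cut side i₀ (G k) (S.filter fun x => x ∈ (G k).offDiag)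
        (fun x hx => by
          obtain ⟨h1, h2, -⟩ := mem_offDiag.1 (mem_filter.1 hx).2
          exact mem_product.2 ⟨h1, h2⟩)
        (fun x hx => hsep x (mem_filter.1 hx).1)
        (hinj1.mono (by intro x hx; exact (mem_filter.1 hx).1))
        (hinj2.mono (by intro x hx; exact (mem_filter.1 hx).1))
      rwa [(hG k (mem_range.1 hk)).2] at this
    have hcount : s * (Finset.card S) ≤ ∑ k ∈ range r, 2 * Partition.cut side i₀ (G k) := by
      refine le_trans (Nat.mul_le_mul_left s (le_trans (card_le_card ?_) card_biUnion_le))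
        (by rw [mul_sum]; exact sum_le_sum hgroup)
      intro x hx
      obtain ⟨k, hk, hkx⟩ := mem_biUnion.1 (mem_filter.1 hx).1
      exact mem_biUnion.2 ⟨k, hk, mem_filter.2 ⟨hx, hkx⟩⟩
    have h1 : (s : ℝ) * (Finset.card S) ≤ ∑ k ∈ range r, 2 * (Partition.cut side i₀ (G k) : ℝ) := by
      exact_mod_cast hcount
    rw [← mul_sum] at h1
    have h2 := hcut' i₀
    have hs0 : (0 : ℝ) < s := by exact_mod_cast (by omega : 0 < s)
    refine le_of_mul_le_mul_left ?_ hs0
    nlinarith
  · intro z hz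
    set f : Sp d → ℕ := fun p => (Finset.card (vals.filter fun ρ => ρ < dist z p)) with hf
    have hvnn : ∀ ρ ∈ vals, 0 ≤ ρ := by
      intro ρ hρ
      rcases mem_insert.1 hρ with rfl | hρ
      · exact le_rfl
      · obtain ⟨x, -, rfl⟩ := mem_image.1 hρ
        exact dist_nonneg
    have hfe : ∀ p ∈ P, ∀ q ∈ P, f p = f q → dist z p = dist z q := by
      intro p hp q hq hpq
      have key : ∀ a b : ℝ, a < b → a ∈ vals →
          (Finset.card (vals.filter fun ρ => ρ < a)) < (Finset.card (vals.filter fun ρ => ρ < b)) := by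
        intro a b hab ha
        refine card_lt_card (ssubset_iff_of_subset (monotone_filter_right _ fun ρ _ h => h.trans hab)
          |>.2 ⟨a, mem_filter.2 ⟨ha, hab⟩, by simp⟩)
      have hmem : ∀ x ∈ P, dist z x ∈ vals := by
        intro x hx
        by_cases h : z = x
        · subst h; simp [hvals]
        · exact mem_insert_of_mem (mem_dists hz hx h)
      rcases lt_trichotomy (dist z p) (dist z q) with h | h | h
      · have := key _ _ h (hmem p hp); simp only [hf] at hpq; omega
      · exact h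
      · have := key _ _ h (hmem q hq); simp only [hf] at hpq; omega
    set R : ℕ → ℕ := fun k => ∑ ρ ∈ (vals.attach), Partition.cut side
      (.inl ⟨(z, ρ.1), mem_product.2 ⟨hz, ρ.2⟩⟩) (G k) with hR
    have hdist : ∀ k, ∑ p ∈ G k, ∑ q ∈ G k, Nat.dist (f p) (f q) ≤ R k := by
      intro k
      have h1 : ∀ p q, Nat.dist (f p) (f q) ≤ ∑ ρ ∈ vals.attach,
          if side (.inl ⟨(z, ρ.1), mem_product.2 ⟨hz, ρ.2⟩⟩) p ≠
            side (.inl ⟨(z, ρ.1), mem_product.2 ⟨hz, ρ.2⟩⟩) q then 1 else 0 := by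
        intro p q
        rw [sum_attach vals (fun ρ => if decide (dist z p ^ 2 ≤ ρ ^ 2) ≠ decide (dist z q ^ 2 ≤ ρ ^ 2)
          then 1 else 0) |>.symm.trans (sum_congr rfl fun ρ _ => by simp only [hside₁]) |>.symm,
          ← card_filter]
        have key : ∀ a b : Sp d, dist z a ≤ dist z b → f b - f a ≤ (Finset.card (vals.filter fun ρ =>
            decide (dist z a ^ 2 ≤ ρ ^ 2) ≠ decide (dist z b ^ 2 ≤ ρ ^ 2))) := by
          intro a b hab
          refine le_trans (le_card_sdiff _ _) (card_le_card fun ρ hρ => ?_)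
          obtain ⟨hρb, hρa⟩ := mem_sdiff.1 hρ
          obtain ⟨hρv, hρb⟩ := mem_filter.1 hρb
          have h2 : dist z a ≤ ρ := not_lt.1 fun h => hρa (mem_filter.2 ⟨hρv, h⟩)
          refine mem_filter.2 ⟨hρv, ?_⟩
          rw [ne_eq, decide_eq_decide]
          intro hiff
          have h3 := hiff.1 (pow_le_pow_left₀ dist_nonneg h2 2)
          rw [sq_le_sq₀ dist_nonneg (hvnn ρ hρv)] at h3
          linarith
        rcases le_total (dist z p) (dist z q) with h | h
        · have h2 := key p q h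
          have h3 : f p ≤ f q :=
            card_le_card (monotone_filter_right _ fun ρ _ hρ => lt_of_lt_of_le hρ h)
          rw [Nat.dist_eq_sub_of_le h3]
          exact h2
        · have h2 := key q p h
          have h3 : f q ≤ f p :=
            card_le_card (monotone_filter_right _ fun ρ _ hρ => lt_of_lt_of_le hρ h)
          rw [Nat.dist_eq_sub_of_le_right h3]
          refine h2.trans (le_of_eq (congrArg card (filter_congr fun ρ _ => ne_comm)))
      refine (sum_le_sum fun p _ => sum_le_sum fun q _ => h1 p q).trans (le_of_eq ?_)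
      simp only [hR, Partition.cut, card_filter, sum_product]
      conv_rhs => rw [sum_comm]
      exact sum_congr rfl fun p _ => sum_comm
    have hRsum : ∑ k ∈ range r, (R k : ℝ) ≤ ((t : ℝ) + 1) * (2 * (s : ℝ) ^ 2 * L) := by
      simp only [hR, Nat.cast_sum]
      rw [sum_comm]
      refine (sum_le_card_nsmul _ _ _ fun ρ _ => hcut' _).trans ?_
      rw [card_attach, nsmul_eq_mul]
      have hL0 : 0 ≤ L := by rw [hLdef, sepConst]; positivity
      refine mul_le_mul_of_nonneg_right ?_ (by positivity)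
      exact_mod_cast hvalcard
    have hgroupE : ∀ k ∈ range r, (s : ℝ) ^ 2 / (4 * (4 * (R k : ℝ) / (s : ℝ) ^ 2 + 1)) ≤
        (Finset.card ((G k ×ˢ G k).filter fun x => f x.1 = f x.2)) := by
      intro k hk
      have := group_energy (G k) f (R k) (hdist k)
      rw [(hG k (mem_range.1 hk)).2] at this
      rw [div_le_iff₀ (by positivity)]
      linarith
    have hCS : ((r : ℝ) * s) ^ 2 / (∑ k ∈ range r, 4 * (4 * (R k : ℝ) / (s : ℝ) ^ 2 + 1)) ≤
        ∑ k ∈ range r, ((Finset.card ((G k ×ˢ G k).filter fun x => f x.1 = f x.2)) : ℝ) := by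
      have h1 := sq_sum_div_le_sum_sq_div (range r) (fun _ => (s : ℝ))
        (g := fun k => 4 * (4 * (R k : ℝ) / (s : ℝ) ^ 2 + 1)) (fun k _ => by positivity)
      rw [sum_const, card_range, nsmul_eq_mul] at h1
      exact h1.trans (sum_le_sum hgroupE)
    have hs0 : (0 : ℝ) < s := by exact_mod_cast (by omega : 0 < s)
    have hden : ∑ k ∈ range r, 4 * (4 * (R k : ℝ) / (s : ℝ) ^ 2 + 1) ≤ (r : ℝ) * s / 2 := by
      rw [← mul_sum, sum_add_distrib, ← sum_div, ← mul_sum, sum_const, card_range, nsmul_one]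
      have h1 : 4 * ∑ k ∈ range r, (R k : ℝ) ≤ 8 * ((t : ℝ) + 1) * L * (s : ℝ) ^ 2 := by linarith
      rw [← div_le_iff₀ (by positivity)] at h1
      have hc : 128 * (((t : ℝ) + 2) * L) ≤ (r : ℝ) * s := by
        rw [hLdef]; linarith
      have hL0 : 0 ≤ L := by rw [hLdef, sepConst]; positivity
      have h16 : (16 : ℝ) * r ≤ (r : ℝ) * s := by
        have : (32 : ℝ) ≤ s := by exact_mod_cast hs
        nlinarith
      linarith
    have hlow : 2 * ((r : ℝ) * s) ≤
        ∑ k ∈ range r, ((Finset.card ((G k ×ˢ G k).filter fun x => f x.1 = f x.2)) : ℝ) := by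
      refine le_trans ?_ hCS
      rw [le_div_iff₀]
      · have : (0 : ℝ) ≤ (r : ℝ) * s := by positivity
        nlinarith
      · exact sum_pos (fun k _ => by positivity) ⟨0, mem_range.2 (by omega)⟩
    have hcount : ∑ k ∈ range r, (Finset.card ((G k ×ˢ G k).filter fun x => f x.1 = f x.2)) ≤
        (Finset.card (E.filter fun x => dist z x.1 = dist z x.2)) + r * s := by
      have h1 : ∀ k ∈ range r, (Finset.card ((G k ×ˢ G k).filter fun x => f x.1 = f x.2)) ≤
          (Finset.card ((G k).offDiag.filter fun x => dist z x.1 = dist z x.2)) + s := by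
        intro k hk
        obtain ⟨hkP, hks⟩ := hG k (mem_range.1 hk)
        rw [← hks, ← diag_card (G k)]
        refine le_trans (card_le_card fun x hx => ?_) (card_union_le _ _)
        obtain ⟨hxG, hxf⟩ := mem_filter.1 hx
        obtain ⟨h2, h3⟩ := mem_product.1 hxG
        by_cases h : x.1 = x.2
        · exact mem_union_right _ (mem_diag.2 ⟨h2, h⟩)
        · exact mem_union_left _ (mem_filter.2 ⟨mem_offDiag.2 ⟨h2, h3, h⟩,
            hfe _ (hkP h2) _ (hkP h3) hxf⟩)
      refine (sum_le_sum h1).trans ?_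
      rw [sum_add_distrib, sum_const, card_range, smul_eq_mul, ← card_biUnion]
      · exact Nat.add_le_add_right (le_of_eq (congrArg card (filter_biUnion _ _ _).symm)) _
      · intro k hk l hl hkl
        rw [Function.onFun, Finset.disjoint_left]
        intro x hx hx'
        exact Finset.disjoint_left.1 (hdisj k (mem_range.1 hk) l (mem_range.1 hl) hkl)
          (mem_offDiag.1 (mem_filter.1 hx).1).1 (mem_offDiag.1 (mem_filter.1 hx').1).1
    have hcount' : ∑ k ∈ range r, ((Finset.card ((G k ×ˢ G k).filter fun x => f x.1 = f x.2)) : ℝ) ≤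
        ((Finset.card (E.filter fun x => dist z x.1 = dist z x.2)) : ℝ) + (r : ℝ) * s := by
      exact_mod_cast hcount
    linarith

end

end Vale.Agent.P054
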