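import Vale.Agent.P054.Moment

/-!
P054: subsets of integer grids determine many distances, by the second moment method.
-/

namespace Vale.Agent.P054

open Finset

/-- Squared distance of two integer points. -/
def sqd {d : ℕ} (p : (Fin d → ℤ) × (Fin d → ℤ)) : ℤ := ∑ j, (p.1 j - p.2 j) ^ 2

theorem card_sq_le (d t : ℕ) (hd : 3 ≤ d) (ht : 1 ≤ t) (A : Finset (Fin d → ℤ))
    (hA : ∀ x ∈ A, ∀ j, 1 ≤ x j ∧ x j ≤ (t : ℤ)) :
    (A.card : ℝ) ^ 2 ≤
      ((A ×ˢ A).image sqd).card * ((5 * d * 9 ^ d : ℕ) : ℝ) * (2 * (t : ℝ)) ^ (2 * d - 2) := by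
  classical
  set Q := A ×ˢ A
  set D := Q.image sqd
  set N : ℤ → ℕ := fun m => (Q.filter fun p => sqd p = m).card
  have hsum : ∑ m ∈ D, N m = A.card ^ 2 := by
    rw [← card_eq_sum_card_fiberwise fun p hp => mem_image_of_mem sqd hp, card_product, sq]
  have hQQ : ((Q ×ˢ Q).filter fun q => sqd q.1 = sqd q.2).card = ∑ m ∈ D, N m ^ 2 := by
    rw [card_eq_sum_card_fiberwise (f := fun q => sqd q.1) (t := D) (fun q hq =>
      mem_image_of_mem sqd (mem_product.1 (mem_filter.1 hq).1).1)]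
    refine sum_congr rfl fun m _ => ?_
    rw [sq, ← card_product]
    congr 1
    ext q
    simp only [mem_filter, mem_product]
    constructor
    · exact fun h => ⟨⟨h.1.1.1, h.2⟩, h.1.1.2, h.1.2 ▸ h.2⟩
    · exact fun h => ⟨⟨⟨h.1.1, h.2.1⟩, h.1.2.trans h.2.2.symm⟩, h.1.2⟩
  set Z := (box d (2 * t) ×ˢ box d (2 * t)).filter fun p => ∑ j, p.1 j * p.2 j = 0
  have hinj : ((Q ×ˢ Q).filter fun q => sqd q.1 = sqd q.2).card ≤ Q.card * Z.card := by
    rw [← card_product]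
    refine card_le_card_of_injOn (fun q => ((q.1.1, q.2.1),
      ((fun j => (q.1.1 j - q.1.2 j) - (q.2.1 j - q.2.2 j)),
       (fun j => (q.1.1 j - q.1.2 j) + (q.2.1 j - q.2.2 j))))) ?_ ?_
    · intro q hq
      simp only [mem_coe, mem_filter, mem_product, Q] at hq
      simp only [mem_coe, mem_product, mem_filter, Z, Q]
      obtain ⟨⟨⟨h1, h2⟩, h3, h4⟩, h5⟩ := hq
      refine ⟨⟨h1, h3⟩, ⟨⟨mem_box.2 fun j => ?_, mem_box.2 fun j => ?_⟩, ?_⟩⟩
      · have := hA _ h1 j; have := hA _ h2 j; have := hA _ h3 j; have := hA _ h4 j; omega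
      · have := hA _ h1 j; have := hA _ h2 j; have := hA _ h3 j; have := hA _ h4 j; omega
      · simp only [sqd] at h5
        rw [← sub_eq_zero, ← sum_sub_distrib] at h5
        rw [← h5]
        exact sum_congr rfl fun j _ => by ring
    · intro q _ q' _ h
      simp only [Prod.mk.injEq] at h
      obtain ⟨⟨h1, h2⟩, h3, h4⟩ := h
      have e1 : q.1.2 = q'.1.2 := funext fun j => by
        have := congrFun h3 j; have := congrFun h4 j; have := congrFun h1 j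
        have := congrFun h2 j; omega
      have e2 : q.2.2 = q'.2.2 := funext fun j => by
        have := congrFun h3 j; have := congrFun h4 j; have := congrFun h1 j
        have := congrFun h2 j; omega
      exact Prod.ext (Prod.ext h1 e1) (Prod.ext h2 e2)
  rcases Nat.eq_zero_or_pos A.card with h0 | h0
  · rw [h0, Nat.cast_zero, zero_pow two_ne_zero]; positivity
  have hcs : ((∑ m ∈ D, N m : ℕ) : ℝ) ^ 2 ≤ D.card * ((∑ m ∈ D, N m ^ 2 : ℕ) : ℝ) := by
    push_cast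
    exact sq_sum_le_card_mul_sum_sq
  have hZ := orth_pairs d (2 * t) hd (by omega)
  rw [hsum, ← hQQ] at hcs
  have h1 : (((Q ×ˢ Q).filter fun q => sqd q.1 = sqd q.2).card : ℝ) ≤
      (A.card : ℝ) ^ 2 * (((5 * d * 9 ^ d : ℕ) : ℝ) * (2 * (t : ℝ)) ^ (2 * d - 2)) := by
    calc _ ≤ ((Q.card * Z.card : ℕ) : ℝ) := by exact_mod_cast hinj
      _ = (A.card : ℝ) ^ 2 * (Z.card : ℝ) := by
          simp only [Q, card_product, Nat.cast_mul]; ring
      _ ≤ _ := mul_le_mul_of_nonneg_left (by simpa using hZ) (by positivity)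
  have h2 : (A.card : ℝ) ^ 2 * (A.card : ℝ) ^ 2 ≤ (A.card : ℝ) ^ 2 *
      ((D.card : ℝ) * ((5 * d * 9 ^ d : ℕ) : ℝ) * (2 * (t : ℝ)) ^ (2 * d - 2)) := by
    calc _ = (((A.card ^ 2 : ℕ)) : ℝ) ^ 2 := by push_cast; ring
      _ ≤ _ := hcs
      _ ≤ _ := mul_le_mul_of_nonneg_left h1 (by positivity)
      _ = _ := by ring
  exact le_of_mul_le_mul_left h2 (by positivity)

theorem grid_distances (d : ℕ) (hd : 3 ≤ d) :
    ∃ c : ℝ, 0 < c ∧ ∀ (t : ℕ) (P : Finset (EuclideanSpace ℝ (Fin d))),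
      (∀ p ∈ P, ∀ i, ∃ k : ℕ, 1 ≤ k ∧ k ≤ t ∧ p i = k) → 2 ≤ P.card →
      c * (P.card : ℝ) ^ 2 / (t : ℝ) ^ (2 * d - 2) ≤
          ((P.offDiag.image fun q => dist q.1 q.2).card : ℝ) ∧
        ∀ δ : ℝ, 0 < δ → δ * (t : ℝ) ^ d ≤ P.card →
          c * δ ^ 2 * (P.card : ℝ) ^ ((2 : ℝ) / d) ≤
            ((P.offDiag.image fun q => dist q.1 q.2).card : ℝ) := by
  classical
  set C : ℝ := ((5 * d * 9 ^ d : ℕ) : ℝ) * 2 ^ (2 * d - 2) with hC
  have hC0 : 0 < C := by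
    have : 0 < 5 * d * 9 ^ d := by positivity
    have : (0 : ℝ) < ((5 * d * 9 ^ d : ℕ) : ℝ) := by exact_mod_cast this
    positivity
  refine ⟨1 / (2 * C), by positivity, fun t P hP h2 => ?_⟩
  let f : EuclideanSpace ℝ (Fin d) → (Fin d → ℤ) := fun p i => ⌊p i⌋
  have hf : ∀ p ∈ P, ∀ i, (1 : ℤ) ≤ f p i ∧ f p i ≤ (t : ℤ) ∧ p i = (f p i : ℝ) := by
    intro p hp i
    obtain ⟨k, hk1, hk2, hk⟩ := hP p hp i
    have hfk : f p i = (k : ℤ) := by
      show ⌊p i⌋ = (k : ℤ)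
      rw [hk]
      exact Int.floor_natCast k
    exact ⟨by omega, by omega, by rw [hfk, hk, Int.cast_natCast]⟩
  have hinj : Set.InjOn f P := fun p hp q hq h => by
    ext i
    rw [(hf p hp i).2.2, (hf q hq i).2.2, h]
  set A := P.image f
  have hAcard : A.card = P.card := card_image_of_injOn hinj
  have ht : 1 ≤ t := by
    obtain ⟨p, hp⟩ := card_pos.1 (show 0 < P.card by omega)
    obtain ⟨k, hk1, hk2, -⟩ := hP p hp ⟨0, by omega⟩
    omega
  have hmain := card_sq_le d t hd ht A fun x hx j => by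
    obtain ⟨p, hp, rfl⟩ := mem_image.1 hx
    exact ⟨(hf p hp j).1, (hf p hp j).2.1⟩
  set Δ := P.offDiag.image fun q => dist q.1 q.2
  have hD : ((A ×ˢ A).image sqd).card ≤ Δ.card + 1 := by
    refine (card_le_card (t := insert 0 (Δ.image fun r => ⌊r ^ 2⌋)) ?_).trans
      ((card_insert_le _ _).trans (Nat.add_le_add_right card_image_le 1))
    intro m hm
    obtain ⟨⟨x, y⟩, hxy, rfl⟩ := mem_image.1 hm
    rw [mem_product] at hxy
    obtain ⟨p, hp, rfl⟩ := mem_image.1 hxy.1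
    obtain ⟨q, hq, rfl⟩ := mem_image.1 hxy.2
    rw [mem_insert]
    by_cases hpq : p = q
    · left; subst hpq; simp [sqd]
    · right
      refine mem_image.2 ⟨dist p q, mem_image.2 ⟨(p, q), mem_offDiag.2 ⟨hp, hq, hpq⟩, rfl⟩, ?_⟩
      rw [EuclideanSpace.dist_sq_eq]
      have : ∑ i, dist (p i) (q i) ^ 2 = ((sqd (f p, f q) : ℤ) : ℝ) := by
        simp only [sqd]
        push_cast
        exact sum_congr rfl fun i _ => by
          rw [Real.dist_eq, sq_abs, (hf p hp i).2.2, (hf q hq i).2.2]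
      rw [this, Int.floor_intCast]
  have hpos : 1 ≤ Δ.card := by
    rw [Finset.one_le_card]
    obtain ⟨p, hp, q, hq, hpq⟩ := one_lt_card.1 (show 1 < P.card by omega)
    exact ⟨_, mem_image.2 ⟨(p, q), mem_offDiag.2 ⟨hp, hq, hpq⟩, rfl⟩⟩
  have ht' : (0 : ℝ) < t := by exact_mod_cast (show 0 < t by omega)
  have hfirst : 1 / (2 * C) * (P.card : ℝ) ^ 2 / (t : ℝ) ^ (2 * d - 2) ≤ (Δ.card : ℝ) := by
    rw [div_le_iff₀ (by positivity), one_div_mul_eq_div, div_le_iff₀ (by positivity)]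
    rw [hAcard] at hmain
    refine hmain.trans ?_
    have h3 : (((A ×ˢ A).image sqd).card : ℝ) ≤ 2 * Δ.card := by
      exact_mod_cast (show ((A ×ˢ A).image sqd).card ≤ 2 * Δ.card by omega)
    rw [mul_pow, hC]
    have h4 : 0 ≤ ((5 * d * 9 ^ d : ℕ) : ℝ) * (2 ^ (2 * d - 2) * (t : ℝ) ^ (2 * d - 2)) := by
      positivity
    calc _ = (((A ×ˢ A).image sqd).card : ℝ) *
          (((5 * d * 9 ^ d : ℕ) : ℝ) * (2 ^ (2 * d - 2) * (t : ℝ) ^ (2 * d - 2))) := by ring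
      _ ≤ 2 * (Δ.card : ℝ) *
          (((5 * d * 9 ^ d : ℕ) : ℝ) * (2 ^ (2 * d - 2) * (t : ℝ) ^ (2 * d - 2))) :=
          mul_le_mul_of_nonneg_right h3 h4
      _ = _ := by ring
  refine ⟨hfirst, fun δ hδ hden => le_trans ?_ hfirst⟩
  have hn : (P.card : ℝ) ≤ (t : ℝ) ^ d := by
    have h : A.card ≤ t ^ d := by
      refine (card_le_card (t := Fintype.piFinset fun _ : Fin d => Finset.Icc (1 : ℤ) t) ?_).trans
        (le_of_eq ?_)
      · intro x hx
        obtain ⟨p, hp, rfl⟩ := mem_image.1 hx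
        exact Fintype.mem_piFinset.2 fun j => Finset.mem_Icc.2 ⟨(hf p hp j).1, (hf p hp j).2.1⟩
      · rw [Fintype.card_piFinset, prod_const, card_univ, Fintype.card_fin, Int.card_Icc]
        congr 1
        omega
    rw [hAcard] at h
    exact_mod_cast h
  have hrp : (P.card : ℝ) ^ ((2 : ℝ) / d) ≤ (t : ℝ) ^ 2 := by
    refine (Real.rpow_le_rpow (by positivity) hn (by positivity)).trans (le_of_eq ?_)
    rw [← Real.rpow_natCast (t : ℝ) d, ← Real.rpow_mul ht'.le,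
      mul_div_cancel₀ _ (by positivity : (d : ℝ) ≠ 0)]
    norm_num
  rw [mul_assoc, mul_div_assoc]
  refine mul_le_mul_of_nonneg_left ?_ (by positivity)
  rw [le_div_iff₀ (by positivity)]
  calc δ ^ 2 * (P.card : ℝ) ^ ((2 : ℝ) / d) * (t : ℝ) ^ (2 * d - 2)
      ≤ δ ^ 2 * (t : ℝ) ^ 2 * (t : ℝ) ^ (2 * d - 2) := by gcongr
    _ = (δ * (t : ℝ) ^ d) ^ 2 := by
        rw [mul_assoc, ← pow_add, mul_pow, ← pow_mul, show 2 + (2 * d - 2) = d * 2 by omega]
    _ ≤ _ := pow_le_pow_left₀ (by positivity) hden 2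

end Vale.Agent.P054
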