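import Vale.Agent.P054.Defs

/-!
# Bisectors as vectors, and the easy cases

The pair `(p, q)` gives the vector of the affine function that vanishes on the bisector of `p`
and `q`; the points equidistant from `p, q` are the `z` whose functional kills that vector.
-/

namespace Vale.Agent.P054

open Finset Submodule

noncomputable section

variable {d : ℕ}

/-- Evaluation of the affine function coded by `v` at `z`. -/
def evalAt (z : Sp d) : (Sp d × ℝ) →ₗ[ℝ] ℝ where
  toFun v := inner ℝ z v.1 + v.2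
  map_add' u v := by simp [inner_add_right]; ring
  map_smul' c v := by simp [real_inner_smul_right]; ring

@[simp] lemma evalAt_apply (z : Sp d) (v : Sp d × ℝ) : evalAt z v = inner ℝ z v.1 + v.2 := rfl

/-- The vector of the bisector of `p` and `q`. -/
def bis (p q : Sp d) : Sp d × ℝ := ((2 : ℝ) • (q - p), ‖p‖ ^ 2 - ‖q‖ ^ 2)

lemma evalAt_bis (z p q : Sp d) : evalAt z (bis p q) = dist z p ^ 2 - dist z q ^ 2 := by
  simp [bis, dist_eq_norm, norm_sub_sq_real, real_inner_smul_right, inner_sub_right]; ring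

lemma evalAt_bis_eq_zero {z p q : Sp d} : evalAt z (bis p q) = 0 ↔ dist z p = dist z q := by
  rw [evalAt_bis, sub_eq_zero]
  exact sq_eq_sq₀ dist_nonneg dist_nonneg

lemma bis_ne_zero {p q : Sp d} (h : p ≠ q) : bis p q ≠ 0 := by
  intro hh
  have := congrArg Prod.fst hh
  simp [bis, sub_eq_zero, eq_comm, h] at this

lemma evalAt_bis_left (p q : Sp d) : evalAt p (bis p q) = -dist p q ^ 2 := by
  rw [evalAt_bis]; simp

lemma evalAt_bis_right (p q : Sp d) : evalAt q (bis p q) = dist p q ^ 2 := by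
  rw [evalAt_bis]; simp [dist_comm]

lemma bis_swap (p q : Sp d) : bis q p = -bis p q := by
  simp [bis, ← smul_neg]

/-- Along one hyperplane a point has one mirror image. -/
lemma bis_inj_right {p q q' : Sp d} (h : p ≠ q) {c : ℝ} (hc : bis p q = c • bis p q') :
    q = q' := by
  have h1 : q - p = c • (q' - p) := by
    have := congrArg Prod.fst hc
    simp only [bis, Prod.smul_fst] at this
    rw [smul_comm] at this
    exact smul_right_injective (Sp d) (two_ne_zero (α := ℝ)) this
  have h2 := congrArg Prod.snd hc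
  simp only [bis, Prod.smul_snd, smul_eq_mul] at h2
  have hq : q = p + c • (q' - p) := by rw [← h1]; abel
  set u := q' - p with hu
  have hq' : q' = p + u := by rw [hu]; abel
  rw [hq, hq', norm_add_sq_real, norm_add_sq_real, real_inner_smul_right, norm_smul, mul_pow,
    Real.norm_eq_abs, sq_abs] at h2
  have h3 : c * (c - 1) * ‖u‖ ^ 2 = 0 := by linarith
  rcases mul_eq_zero.1 h3 with h4 | h4
  · rcases mul_eq_zero.1 h4 with h5 | h5
    · exact absurd (by rw [hq, h5]; simp) h
    · rw [hq, hq', sub_eq_zero.1 h5, one_smul]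
  · have : u = 0 := by simpa using h4
    exact absurd (by rw [hq, this]; simp) h

/-- Parallel bisector vectors with a common first point come from the same pair. -/
lemma bis_inj_of_mem {p q q' : Sp d} (hq : p ≠ q) (hq' : p ≠ q') {v : Sp d × ℝ}
    (h1 : bis p q ∈ ℝ ∙ v) (h2 : bis p q' ∈ ℝ ∙ v) : q = q' := by
  obtain ⟨a, ha⟩ := mem_span_singleton.1 h1
  obtain ⟨b, hb⟩ := mem_span_singleton.1 h2
  have hb0 : b ≠ 0 := fun h => bis_ne_zero hq' (by rw [← hb, h, zero_smul])
  exact bis_inj_right hq (c := a / b) (by rw [← hb, ← ha, smul_smul, div_mul_cancel₀ _ hb0])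

/-- All distances between two points of a set. -/
def dists (P : Finset (Sp d)) : Finset ℝ :=
  letI := Classical.decEq (Sp d)
  P.offDiag.image fun x => dist x.1 x.2

lemma mem_dists {P : Finset (Sp d)} {p q : Sp d} (hp : p ∈ P) (hq : q ∈ P) (h : p ≠ q) :
    dist p q ∈ dists P := by
  classical
  exact mem_image.2 ⟨(p, q), mem_offDiag.2 ⟨hp, hq, h⟩, rfl⟩

/-- The exponent `k² / (2k - 1)`. -/
def expo (k : ℕ) : ℝ := (k : ℝ) ^ 2 / (2 * (k : ℝ) - 1)

/-- A bound for point sets of `Sp k` with at most `t` distances. -/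
def SmallSets (k : ℕ) (m : ℕ → ℕ → ℝ) : Prop :=
  ∀ (t : ℕ) (Q : Finset (Sp k)), (Finset.card (dists Q)) ≤ t → ((Finset.card Q) : ℝ) ≤ m t (Finset.card Q)

/-- The bound carries over to points of `Sp d` lying in a translate of a `k`-dimensional space. -/
lemma card_flat_le {k : ℕ} {m : ℕ → ℕ → ℝ} (hm : SmallSets k m) (W : Submodule ℝ (Sp d))
    (hW : Module.finrank ℝ W = k) {P S : Finset (Sp d)} (hSP : S ⊆ P)
    (hS : ∀ x ∈ S, ∀ y ∈ S, x - y ∈ W) {t : ℕ} (ht : (Finset.card (dists P)) ≤ t) : ((Finset.card S) : ℝ) ≤ m t (Finset.card S) := by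
  classical
  rcases S.eq_empty_or_nonempty with rfl | ⟨x₀, hx₀⟩
  · simpa using hm t ∅ (by simp [dists])
  let e : W ≃ₗᵢ[ℝ] Sp k :=
    (stdOrthonormalBasis ℝ W).repr.trans
      (LinearIsometryEquiv.piLpCongrLeft 2 ℝ ℝ (finCongr hW))
  let f : Sp d → Sp k := fun x => if h : x - x₀ ∈ W then e ⟨x - x₀, h⟩ else 0
  have hdist : ∀ x ∈ S, ∀ y ∈ S, dist (f x) (f y) = dist x y := by
    intro x hx y hy
    simp only [f, dif_pos (hS x hx x₀ hx₀), dif_pos (hS y hy x₀ hx₀)]
    rw [e.dist_map, Subtype.dist_eq]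
    simp [dist_eq_norm]
  have hinj : Set.InjOn f S := by
    intro x hx y hy h
    have := hdist x hx y hy
    rw [h, dist_self] at this
    exact dist_eq_zero.1 this.symm
  rw [← card_image_of_injOn hinj]
  refine hm t _ (le_trans (card_le_card ?_) ht)
  intro ρ hρ
  obtain ⟨z, hz, rfl⟩ := mem_image.1 hρ
  obtain ⟨h1, h2, h3⟩ := mem_offDiag.1 hz
  obtain ⟨x, hx, hxe⟩ := mem_image.1 h1
  obtain ⟨y, hy, hye⟩ := mem_image.1 h2
  rw [← hxe, ← hye, hdist x hx y hy]
  exact mem_dists (hSP hx) (hSP hy) (fun h => h3 (by rw [← hxe, ← hye, h]))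

/-- The points `x` whose functional kills a given `j`-dimensional space of bisectors through `z`
lie in a translate of a `(d - j)`-dimensional space. -/
lemma exists_direction {z : Sp d} (U : Submodule ℝ (Sp d × ℝ)) (hU : U ≤ LinearMap.ker (evalAt z)) :
    ∃ W : Submodule ℝ (Sp d), Module.finrank ℝ W + Module.finrank ℝ U = d ∧
      ∀ x y, U ≤ LinearMap.ker (evalAt x) → U ≤ LinearMap.ker (evalAt y) → x - y ∈ W := by
  set A := U.map (LinearMap.fst ℝ (Sp d) ℝ) with hA
  refine ⟨Aᗮ, ?_, ?_⟩
  · have h1 : Module.finrank ℝ A = Module.finrank ℝ U := by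
      have hinj : Function.Injective ((LinearMap.fst ℝ (Sp d) ℝ).domRestrict U) := by
        rw [← LinearMap.ker_eq_bot]
        rw [Submodule.eq_bot_iff]
        rintro ⟨v, hv⟩ hv0
        have h1 : v.1 = 0 := hv0
        have h2 := LinearMap.mem_ker.1 (hU hv)
        rw [evalAt_apply, h1, inner_zero_right, zero_add] at h2
        exact Subtype.ext (Prod.ext h1 h2)
      rw [hA, ← LinearMap.range_domRestrict, LinearMap.finrank_range_of_inj hinj]
    have h2 := Submodule.finrank_add_finrank_orthogonal A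
    rw [finrank_euclideanSpace_fin] at h2
    omega
  · intro x y hx hy
    rw [Submodule.mem_orthogonal]
    intro a ha
    obtain ⟨v, hv, rfl⟩ := Submodule.mem_map.1 ha
    have h1 := LinearMap.mem_ker.1 (hx hv)
    have h2 := LinearMap.mem_ker.1 (hy hv)
    rw [evalAt_apply] at h1 h2
    rw [LinearMap.fst_apply, inner_sub_right, real_inner_comm v.1 x, real_inner_comm v.1 y] at *
    linarith

lemma smallSets_zero : SmallSets 0 (fun _ _ => 1) := by
  intro t Q _
  show ((Finset.card Q) : ℝ) ≤ 1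
  exact_mod_cast card_le_one.2 fun x _ y _ => Subsingleton.elim x y

lemma smallSets_one : SmallSets 1 (fun t _ => (t : ℝ) + 1) := by
  classical
  intro t Q hQ
  rcases Q.eq_empty_or_nonempty with rfl | hne
  · simp; positivity
  obtain ⟨o, ho, hmin⟩ := exists_min_image Q (fun x => x 0) hne
  have hd : ∀ x : Sp 1, dist o x = |o 0 - x 0| := by
    intro x
    rw [EuclideanSpace.dist_eq]
    simp [Real.sqrt_sq_eq_abs, Real.dist_eq]
  have h : (Finset.card (Q.erase o)) ≤ (Finset.card (dists Q)) := by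
    refine card_le_card_of_injOn (fun x => dist o x) ?_ ?_
    · intro x hx
      obtain ⟨h1, h2⟩ := mem_erase.1 hx
      exact mem_dists ho h2 (Ne.symm h1)
    · intro x hx y hy hxy
      have hx' := hmin x (mem_of_mem_erase hx)
      have hy' := hmin y (mem_of_mem_erase hy)
      simp only [hd] at hxy
      rw [abs_of_nonpos (by linarith), abs_of_nonpos (by linarith)] at hxy
      ext i
      fin_cases i
      simp only [Fin.zero_eta]
      linarith
  rw [card_erase_of_mem ho] at h
  have : (Finset.card Q) ≤ t + 1 := by omega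
  show ((Finset.card Q) : ℝ) ≤ (t : ℝ) + 1
  exact_mod_cast this

open Classical in
/-- A cell bound for strict signs bounds nonstrict ones. -/
lemma cells_nonneg {C : ℕ}
    (hC : ∀ (m : ℕ) (g : Fin m → ℝ × Sp d × ℝ) (P : Finset (Sp d)),
      (∀ p ∈ P, ∀ i, quad (g i) p ≠ 0) →
      (P.image (fun p i => decide (0 < quad (g i) p))).card ≤ C * (m + 1) ^ d)
    (m : ℕ) (g : Fin m → ℝ × Sp d × ℝ) (P : Finset (Sp d)) :
    (Finset.card (P.image (fun p i => decide (0 ≤ quad (g i) p)))) ≤ C * (m + 1) ^ d := by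
  set T := insert (1 : ℝ) (((P ×ˢ univ).image fun x => |quad (g x.2) x.1|).filter fun v => 0 < v)
  obtain ⟨e, he, hmin⟩ := exists_min_image T id ⟨1, mem_insert_self _ _⟩
  have he0 : 0 < e := by
    rcases mem_insert.1 he with rfl | h
    · exact one_pos
    · exact (mem_filter.1 h).2
  have hgap : ∀ p ∈ P, ∀ i, quad (g i) p ≠ 0 → e ≤ |quad (g i) p| := fun p hp i hi =>
    hmin _ (mem_insert_of_mem (mem_filter.2
      ⟨mem_image.2 ⟨(p, i), mem_product.2 ⟨hp, mem_univ _⟩, rfl⟩, abs_pos.2 hi⟩))
  set g' : Fin m → ℝ × Sp d × ℝ := fun i => ((g i).1, (g i).2.1, (g i).2.2 + e / 2)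
  have hq : ∀ p i, quad (g' i) p = quad (g i) p + e / 2 := by
    intro p i; simp only [quad, g']; ring
  have hne : ∀ p ∈ P, ∀ i, quad (g' i) p ≠ 0 ∧
      (0 < quad (g' i) p ↔ 0 ≤ quad (g i) p) := by
    intro p hp i
    rw [hq]
    rcases lt_trichotomy (quad (g i) p) 0 with h | h | h
    · have := hgap p hp i h.ne
      rw [abs_of_neg h] at this
      exact ⟨by linarith, iff_of_false (by linarith) (by linarith)⟩
    · exact ⟨by linarith, iff_of_true (by linarith) h.ge⟩
    · exact ⟨by linarith, iff_of_true (by linarith) h.le⟩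
  refine le_trans (le_of_eq ?_) (hC m g' P fun p hp i => (hne p hp i).1)
  refine congrArg card (image_congr fun p hp => ?_)
  funext i
  exact decide_eq_decide.2 (hne p hp i).2.symm

end

end Vale.Agent.P054
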