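import Vale.Agent.P054.Congruence

/-!
P054: the number of pairs of orthogonal integer vectors in a box is O(T^(2d-2)) for d at least 3.
-/

namespace Vale.Agent.P054

open Finset

theorem shell_card_le (d s : ℕ) (hd0 : 0 < d) :
    ((box d s).filter fun u => nrm u = s).card ≤ 2 * d * (2 * s + 1) ^ (d - 1) := by
  classical
  set W : Fin d → ℤ → Finset (Fin d → ℤ) := fun i a =>
    Fintype.piFinset fun j => if j = i then {a} else Finset.Icc (-(s : ℤ)) s
  have hsub : ((box d s).filter fun u => nrm u = s) ⊆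
      univ.biUnion fun i : Fin d => W i s ∪ W i (-(s : ℤ)) := by
    intro u hu
    simp only [mem_filter, mem_box] at hu
    obtain ⟨hub, hus⟩ := hu
    simp only [mem_biUnion, mem_univ, true_and, mem_union]
    have hd := hd0
    obtain ⟨i, -, hi⟩ := Finset.exists_mem_eq_sup univ ⟨⟨0, hd⟩, mem_univ _⟩ fun j => (u j).natAbs
    refine ⟨i, ?_⟩
    have hi' : (u i).natAbs = s := hi.symm.trans hus
    rcases Int.natAbs_eq (u i) with h | h
    · left
      simp only [W, Fintype.mem_piFinset]
      intro j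
      split_ifs with hj
      · subst hj; rw [mem_singleton, h, hi']
      · have := hub j; rw [Finset.mem_Icc]; omega
    · right
      simp only [W, Fintype.mem_piFinset]
      intro j
      split_ifs with hj
      · subst hj; rw [mem_singleton, h, hi']
      · have := hub j; rw [Finset.mem_Icc]; omega
  refine (card_le_card hsub).trans (card_biUnion_le.trans ?_)
  have hW : ∀ i a, (W i a).card = (2 * s + 1) ^ (d - 1) := by
    intro i a
    rw [Fintype.card_piFinset, ← Finset.mul_prod_erase univ _ (mem_univ i)]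
    simp only [if_true, card_singleton, one_mul]
    rw [prod_congr rfl (fun j hj => by
      rw [if_neg (ne_of_mem_erase hj), Int.card_Icc,
        show ((s : ℤ) + 1 - -(s : ℤ)).toNat = 2 * s + 1 by omega]),
      prod_const, card_erase_of_mem (mem_univ i), card_univ, Fintype.card_fin]
  calc ∑ i : Fin d, (W i s ∪ W i (-(s : ℤ))).card
      ≤ ∑ _i : Fin d, 2 * (2 * s + 1) ^ (d - 1) :=
        sum_le_sum fun i _ => (card_union_le _ _).trans (by rw [hW, hW]; omega)
    _ = _ := by rw [sum_const, card_univ, Fintype.card_fin, smul_eq_mul]; ring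

theorem nrm_pos {d : ℕ} {u : Fin d → ℤ} (hu : u ≠ 0) : 0 < nrm u := by
  obtain ⟨j, hj⟩ := Function.ne_iff.1 hu
  exact lt_of_lt_of_le (Int.natAbs_pos.2 hj) (Finset.le_sup (f := fun j => (u j).natAbs) (mem_univ j))

theorem inv_nrm_sum (d R : ℕ) (hd : 3 ≤ d) :
    ∑ u ∈ (box d R).erase 0, (1 / (nrm u : ℝ)) ≤ (2 * d * 3 ^ (d - 1) : ℕ) * (R : ℝ) ^ (d - 1) := by
  classical
  have hmaps : ∀ u ∈ (box d R).erase 0, nrm u ∈ Finset.Icc 1 R := fun u hu =>
    Finset.mem_Icc.2 ⟨nrm_pos (ne_of_mem_erase hu),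
      Finset.sup_le fun j _ => mem_box.1 (mem_of_mem_erase hu) j⟩
  rw [← sum_fiberwise_of_maps_to hmaps]
  calc ∑ s ∈ Finset.Icc 1 R, ∑ u ∈ (box d R).erase 0 with nrm u = s, (1 / (nrm u : ℝ))
      ≤ ∑ _s ∈ Finset.Icc 1 R, ((2 * d * 3 ^ (d - 1) : ℕ) : ℝ) * (R : ℝ) ^ (d - 2) := by
        refine sum_le_sum fun s hs => ?_
        rw [Finset.mem_Icc] at hs
        rw [sum_congr rfl fun u hu => by rw [(mem_filter.1 hu).2], sum_const, nsmul_eq_mul]
        have hc : ((box d R).erase 0 |>.filter fun u => nrm u = s).card ≤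
            2 * d * 3 ^ (d - 1) * s ^ (d - 1) := by
          refine (card_le_card (t := (box d s).filter fun u => nrm u = s) fun u hu => ?_).trans
            ((shell_card_le d s (by omega)).trans ?_)
          · simp only [mem_filter, mem_box] at hu ⊢
            exact ⟨fun j => hu.2 ▸ Finset.le_sup (f := fun j => (u j).natAbs) (mem_univ j), hu.2⟩
          · rw [mul_assoc (2 * d), ← mul_pow]
            exact Nat.mul_le_mul_left _ (Nat.pow_le_pow_left (by omega) _)
        have hs0 : (0 : ℝ) < s := by exact_mod_cast (show 0 < s by omega)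
        calc _ ≤ ((2 * d * 3 ^ (d - 1) * s ^ (d - 1) : ℕ) : ℝ) * (1 / (s : ℝ)) :=
              mul_le_mul_of_nonneg_right (by exact_mod_cast hc) (by positivity)
          _ = ((2 * d * 3 ^ (d - 1) : ℕ) : ℝ) * (s : ℝ) ^ (d - 2) := by
              push_cast
              rw [show d - 1 = d - 2 + 1 by omega, pow_succ]
              field_simp
              ring
          _ ≤ _ := by
              refine mul_le_mul_of_nonneg_left ?_ (by positivity)
              exact pow_le_pow_left₀ hs0.le (by exact_mod_cast hs.2) _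
    _ = _ := by
        rw [sum_const, Nat.card_Icc, nsmul_eq_mul, show R + 1 - 1 = R by omega,
          show d - 1 = d - 2 + 1 by omega, pow_succ]
        ring

theorem inv_sq_sum_le (T : ℕ) : ∑ g ∈ Finset.Icc 1 T, (1 / (g : ℝ) ^ 2) ≤ 2 := by
  rcases Nat.eq_zero_or_pos T with rfl | hT
  · simp
  have h : ∀ n : ℕ, 1 ≤ n → ∑ g ∈ Finset.Icc 1 n, (1 / (g : ℝ) ^ 2) ≤ 2 - 1 / (n : ℝ) := by
    intro n hn
    induction n, hn using Nat.le_induction with
    | base => norm_num
    | succ n hn ih =>
      rw [Finset.sum_Icc_succ_top (by omega)]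
      have : (0 : ℝ) < n := by exact_mod_cast hn
      have h2 : 1 / (((n + 1 : ℕ) : ℝ)) ^ 2 ≤ 1 / (n : ℝ) - 1 / ((n + 1 : ℕ) : ℝ) := by
        push_cast
        rw [div_sub_div _ _ (by positivity) (by positivity),
          div_le_div_iff₀ (by positivity) (by positivity)]
        nlinarith
      linarith
  have : (0 : ℝ) ≤ 1 / (T : ℝ) := by positivity
  linarith [h T hT]

theorem content_nrm_sum (d T : ℕ) (hd : 3 ≤ d) :
    ∑ u ∈ (box d T).erase 0, ((content u : ℝ) / nrm u) ≤
      2 * (2 * d * 3 ^ (d - 1) : ℕ) * (T : ℝ) ^ (d - 1) := by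
  classical
  have hc : ∀ u ∈ (box d T).erase 0, content u ∈ Finset.Icc 1 T := by
    intro u hu
    obtain ⟨j, hj⟩ := Function.ne_iff.1 (ne_of_mem_erase hu)
    have h1 : content u ∣ (u j).natAbs := Int.natAbs_dvd_natAbs.2 (Finset.gcd_dvd (mem_univ j))
    exact Finset.mem_Icc.2 ⟨Nat.pos_of_dvd_of_pos h1 (Int.natAbs_pos.2 hj),
      (Nat.le_of_dvd (Int.natAbs_pos.2 hj) h1).trans (mem_box.1 (mem_of_mem_erase hu) j)⟩
  rw [← sum_fiberwise_of_maps_to hc]
  calc ∑ g ∈ Finset.Icc 1 T, ∑ u ∈ (box d T).erase 0 with content u = g, ((content u : ℝ) / nrm u)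
      ≤ ∑ g ∈ Finset.Icc 1 T, ((2 * d * 3 ^ (d - 1) : ℕ) : ℝ) * (T : ℝ) ^ (d - 1) * (1 / (g : ℝ) ^ 2) := by
        refine sum_le_sum fun g hg => ?_
        rw [Finset.mem_Icc] at hg
        set S := ((box d T).erase 0).filter fun u => content u = g
        let f : (Fin d → ℤ) → (Fin d → ℤ) := fun u j => u j / (g : ℤ)
        have hdvd : ∀ u ∈ S, ∀ j, (g : ℤ) ∣ u j := by
          intro u hu j
          rw [← (mem_filter.1 hu).2, content, Int.natAbs_dvd]
          exact Finset.gcd_dvd (mem_univ j)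
        have hmul : ∀ u ∈ S, ∀ j, u j = (g : ℤ) * f u j := fun u hu j =>
          (Int.mul_ediv_cancel' (hdvd u hu j)).symm
        have hinj : Set.InjOn f S := by
          intro u hu w hw h
          funext j
          rw [hmul u hu j, hmul w hw j, h]
        have hnrm : ∀ u ∈ S, nrm u = g * nrm (f u) := by
          intro u hu
          have hj' : ∀ j, (u j).natAbs = g * (f u j).natAbs := fun j => by
            rw [hmul u hu j, Int.natAbs_mul, Int.natAbs_natCast]
          refine le_antisymm (Finset.sup_le fun j hj => ?_) ?_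
          · rw [hj']
            exact Nat.mul_le_mul_left g (Finset.le_sup (f := fun j => (f u j).natAbs) hj)
          · obtain ⟨j, hj, he⟩ := Finset.exists_mem_eq_sup univ
              ⟨⟨0, by omega⟩, mem_univ _⟩ fun j => (f u j).natAbs
            rw [nrm, he, ← hj']
            exact Finset.le_sup (f := fun j => (u j).natAbs) hj
        have himg : S.image f ⊆ (box d (T / g)).erase 0 := by
          intro w hw
          obtain ⟨u, hu, rfl⟩ := mem_image.1 hw
          have hu1 := (mem_filter.1 hu).1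
          refine mem_erase.2 ⟨fun h0 => ne_of_mem_erase hu1 (funext fun j => by
            rw [hmul u hu j, h0]; simp), mem_box.2 fun j => ?_⟩
          rw [Nat.le_div_iff_mul_le (by omega), mul_comm]
          have := mem_box.1 (mem_of_mem_erase hu1) j
          rwa [hmul u hu j, Int.natAbs_mul, Int.natAbs_natCast] at this
        calc ∑ u ∈ S, ((content u : ℝ) / nrm u) = ∑ w ∈ S.image f, (1 / (nrm w : ℝ)) := by
              rw [sum_image hinj]
              refine sum_congr rfl fun u hu => ?_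
              rw [(mem_filter.1 hu).2, hnrm u hu, Nat.cast_mul]
              have : (g : ℝ) ≠ 0 := by exact_mod_cast (show g ≠ 0 by omega)
              field_simp
          _ ≤ ∑ w ∈ (box d (T / g)).erase 0, (1 / (nrm w : ℝ)) :=
              sum_le_sum_of_subset_of_nonneg himg fun w _ _ => by positivity
          _ ≤ _ := (inv_nrm_sum d (T / g) hd).trans (by
              have hg1 : (1 : ℝ) ≤ g := by exact_mod_cast hg.1
              calc ((2 * d * 3 ^ (d - 1) : ℕ) : ℝ) * ((T / g : ℕ) : ℝ) ^ (d - 1)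
                  ≤ ((2 * d * 3 ^ (d - 1) : ℕ) : ℝ) * ((T : ℝ) / g) ^ (d - 1) :=
                    mul_le_mul_of_nonneg_left
                      (pow_le_pow_left₀ (by positivity) Nat.cast_div_le _) (by positivity)
                _ ≤ ((2 * d * 3 ^ (d - 1) : ℕ) : ℝ) * ((T : ℝ) ^ (d - 1) / (g : ℝ) ^ 2) := by
                    rw [div_pow]
                    have hT0 : (0 : ℝ) ≤ (T : ℝ) ^ (d - 1) := by positivity
                    have hg2 : (0 : ℝ) < (g : ℝ) ^ 2 := by positivity
                    exact mul_le_mul_of_nonneg_left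
                      (div_le_div_of_nonneg_left hT0 hg2 (pow_le_pow_right₀ hg1 (by omega)))
                      (Nat.cast_nonneg _)
                _ = _ := by ring)
    _ ≤ _ := by
        rw [← mul_sum]
        calc _ ≤ ((2 * d * 3 ^ (d - 1) : ℕ) : ℝ) * (T : ℝ) ^ (d - 1) * 2 :=
              mul_le_mul_of_nonneg_left (inv_sq_sum_le T) (by positivity)
          _ = _ := by ring

theorem orth_pairs (d T : ℕ) (hd : 3 ≤ d) (hT : 1 ≤ T) :
    (((box d T ×ˢ box d T).filter fun p => ∑ j, p.1 j * p.2 j = 0).card : ℝ) ≤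
      (5 * d * 9 ^ d : ℕ) * (T : ℝ) ^ (2 * d - 2) := by
  classical
  set n : (Fin d → ℤ) → ℕ := fun u => ((box d T).filter fun v => ∑ j, u j * v j = 0).card
  have hcount : ((box d T ×ˢ box d T).filter fun p => ∑ j, p.1 j * p.2 j = 0).card =
      ∑ u ∈ box d T, n u := by
    rw [card_filter, sum_product]
    exact sum_congr rfl fun u _ => (card_filter _ _).symm
  have h0 : (0 : Fin d → ℤ) ∈ box d T := mem_box.2 fun j => by simp
  have hu : ∀ u ∈ (box d T).erase 0,
      (n u : ℝ) ≤ ((3 * T) ^ (d - 1) : ℕ) * ((content u : ℝ) / nrm u) := by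
    intro u hu
    have hne := ne_of_mem_erase hu
    have hub := mem_box.1 (mem_of_mem_erase hu)
    obtain ⟨i, -, hi⟩ := Finset.exists_mem_eq_sup univ
      ⟨⟨0, by omega⟩, mem_univ _⟩ fun j => (u j).natAbs
    have hui : u i ≠ 0 := by
      intro h
      have := nrm_pos hne
      rw [nrm, hi, h] at this
      simp at this
    have h := solutions_count u T i hui (hub i)
    have hgm : content u ∣ (u i).natAbs := Int.natAbs_dvd_natAbs.2 (Finset.gcd_dvd (mem_univ i))
    have hg : 0 < content u := Nat.pos_of_dvd_of_pos hgm (Int.natAbs_pos.2 hui)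
    have hm : (0 : ℝ) < nrm u := by exact_mod_cast nrm_pos hne
    have h' : (n u : ℝ) * (((u i).natAbs / content u : ℕ) : ℝ) ≤ (((3 * T) ^ (d - 1) : ℕ) : ℝ) := by
      exact_mod_cast h
    rw [Nat.cast_div hgm (by exact_mod_cast hg.ne')] at h'
    rw [show (u i).natAbs = nrm u from hi.symm] at h'
    have hg' : (0 : ℝ) < content u := by exact_mod_cast hg
    rw [← mul_div_assoc, le_div_iff₀ hm]
    rw [← mul_div_assoc, div_le_iff₀ hg'] at h'
    exact h'
  rw [hcount, ← add_sum_erase _ _ h0]
  push_cast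
  have hT' : (1 : ℝ) ≤ T := by exact_mod_cast hT
  have hfirst : (n 0 : ℝ) ≤ (9 : ℝ) ^ d * (T : ℝ) ^ (2 * d - 2) := by
    have h1 : n 0 ≤ (3 * T) ^ d := by
      refine (card_filter_le _ _).trans ?_
      rw [card_box]
      exact Nat.pow_le_pow_left (by omega) d
    calc (n 0 : ℝ) ≤ (((3 * T) ^ d : ℕ) : ℝ) := by exact_mod_cast h1
      _ = (3 : ℝ) ^ d * (T : ℝ) ^ d := by push_cast; rw [mul_pow]
      _ ≤ _ := mul_le_mul (pow_le_pow_left₀ (by norm_num) (by norm_num) d)
          (pow_le_pow_right₀ hT' (by omega)) (by positivity) (by positivity)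
  have hrest : (∑ u ∈ (box d T).erase 0, (n u : ℝ)) ≤
      4 * (d : ℝ) * (9 : ℝ) ^ d * (T : ℝ) ^ (2 * d - 2) := by
    calc _ ≤ ∑ u ∈ (box d T).erase 0, (((3 * T) ^ (d - 1) : ℕ) : ℝ) * ((content u : ℝ) / nrm u) :=
          sum_le_sum hu
      _ ≤ (((3 * T) ^ (d - 1) : ℕ) : ℝ) * (2 * (2 * d * 3 ^ (d - 1) : ℕ) * (T : ℝ) ^ (d - 1)) := by
          rw [← mul_sum]
          exact mul_le_mul_of_nonneg_left (content_nrm_sum d T hd) (by positivity)
      _ = 4 * (d : ℝ) * (9 : ℝ) ^ (d - 1) * (T : ℝ) ^ (2 * d - 2) := by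
          push_cast
          rw [show (9 : ℝ) = 3 * 3 by norm_num, mul_pow, mul_pow,
            show 2 * d - 2 = d - 1 + (d - 1) by omega, pow_add]
          ring
      _ ≤ _ := by
          refine mul_le_mul_of_nonneg_right (mul_le_mul_of_nonneg_left ?_ (by positivity)) (by positivity)
          exact pow_le_pow_right₀ (by norm_num) (by omega)
  have hd' : (1 : ℝ) ≤ d := by exact_mod_cast (show 1 ≤ d by omega)
  have hX : 0 ≤ (9 : ℝ) ^ d * (T : ℝ) ^ (2 * d - 2) := by positivity
  nlinarith [mul_nonneg (sub_nonneg.2 hd') hX]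

end Vale.Agent.P054
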