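import Mathlib

/-!
# Straight-line drawings in the plane

A finite straight-line graph without crossings has at most three times as many edges as vertices,
so a graph with many edges has many crossing pairs (crossing lemma, by sampling), and a point set
has few rich lines (Szemerédi–Trotter).
-/

namespace Vale.Agent.P054.Planar

open Finset

noncomputable section

/-- A point of the plane. -/
abbrev Pt := ℝ × ℝ

/-- The slope of a segment. -/
def slope' (e : Pt × Pt) : ℝ := (e.2.2 - e.1.2) / (e.2.1 - e.1.1)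

/-- The height of the line through a segment. -/
def ht (e : Pt × Pt) (x : ℝ) : ℝ := e.1.2 + slope' e * (x - e.1.1)

/-- `w` lies in the interior of the segment `e`. -/
def Inside (e : Pt × Pt) (w : Pt) : Prop :=
  e.1.1 < w.1 ∧ w.1 < e.2.1 ∧ w.2 = ht e w.1

/-- The interiors of two segments meet. -/
def Cross (e f : Pt × Pt) : Prop :=
  e ≠ f ∧ ∃ x, e.1.1 < x ∧ x < e.2.1 ∧ f.1.1 < x ∧ x < f.2.1 ∧ ht e x = ht f x

/-- A straight-line drawing on the vertex set `V`, vertices having distinct abscissas. -/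
structure Drawing (V : Finset Pt) (E : Finset (Pt × Pt)) : Prop where
  inj : ∀ u ∈ V, ∀ v ∈ V, u.1 = v.1 → u = v
  mem₁ : ∀ e ∈ E, e.1 ∈ V
  mem₂ : ∀ e ∈ E, e.2 ∈ V
  lt : ∀ e ∈ E, e.1.1 < e.2.1
  inside : ∀ e ∈ E, ∀ w ∈ V, ¬ Inside e w

lemma ht_left (e : Pt × Pt) : ht e e.1.1 = e.1.2 := by simp [ht]

lemma ht_right {e : Pt × Pt} (h : e.1.1 < e.2.1) : ht e e.2.1 = e.2.2 := by
  have : e.2.1 - e.1.1 ≠ 0 := (sub_pos.2 h).ne'
  rw [ht, slope', div_mul_cancel₀ _ this]
  ring

lemma ht_sub (e : Pt × Pt) (x y : ℝ) : ht e y - ht e x = slope' e * (y - x) := by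
  simp [ht]; ring

/-- Two segments with a common left end do not have the same slope. -/
lemma slope_ne {V : Finset Pt} {E : Finset (Pt × Pt)} (D : Drawing V E) {e f : Pt × Pt}
    (he : e ∈ E) (hf : f ∈ E) (h1 : e.1 = f.1) (hne : e ≠ f) : slope' e ≠ slope' f := by
  intro hs
  have hh : ∀ x, ht e x = ht f x := fun x => by simp [ht, hs, h1]
  rcases lt_trichotomy e.2.1 f.2.1 with h | h | h
  · refine D.inside f hf e.2 (D.mem₂ e he) ⟨?_, h, ?_⟩
    · rw [← h1]; exact D.lt e he
    · rw [← hh, ht_right (D.lt e he)]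
  · exact hne (Prod.ext h1 (D.inj _ (D.mem₂ e he) _ (D.mem₂ f hf) h))
  · refine D.inside e he f.2 (D.mem₂ f hf) ⟨?_, h, ?_⟩
    · rw [h1]; exact D.lt f hf
    · rw [hh, ht_right (D.lt f hf)]

/-- Two segments with a common left end: the steeper one is higher to the right. -/
lemma ht_lt {V : Finset Pt} {E : Finset (Pt × Pt)} (_D : Drawing V E) {e f : Pt × Pt}
    (h1 : e.1 = f.1) (hs : slope' e < slope' f) {x : ℝ} (hx : e.1.1 < x) : ht e x < ht f x := by
  have he := ht_sub e e.1.1 x
  have hf := ht_sub f f.1.1 x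
  rw [ht_left] at he hf
  rw [h1] at he hx
  nlinarith

/-- Segments that do not cross keep their order. -/
lemma no_swap {e f : Pt × Pt} (hne : e ≠ f) (hc : ¬ Cross e f) {a b : ℝ}
    (hab : a ≤ b) (ha1 : e.1.1 ≤ a) (ha2 : f.1.1 ≤ a) (hb1 : b ≤ e.2.1) (hb2 : b ≤ f.2.1)
    (h : ht e a < ht f a) : ht e b ≤ ht f b := by
  by_contra hb
  push Not at hb
  have hab' : a < b := lt_of_le_of_ne hab (fun hh => by subst hh; linarith)
  have hcont : ContinuousOn (fun x => ht e x - ht f x) (Set.Icc a b) := by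
    unfold ht; fun_prop
  obtain ⟨x, hx, hx0⟩ := intermediate_value_Ioo hab'.le hcont
    (show (0 : ℝ) ∈ Set.Ioo (ht e a - ht f a) (ht e b - ht f b) from ⟨by linarith, by linarith⟩)
  refine hc ⟨hne, x, lt_of_le_of_lt ha1 hx.1, lt_of_lt_of_le hx.2 hb1,
    lt_of_le_of_lt ha2 hx.1, lt_of_lt_of_le hx.2 hb2, ?_⟩
  simpa [sub_eq_zero] using hx0

/-- A gap: two segments leaving a vertex to the right, consecutive in slope, with the first
vertex `w` of the wedge between them. -/
structure Gap (V : Finset Pt) (E : Finset (Pt × Pt)) (e f : Pt × Pt) (w : Pt) : Prop where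
  lo : e ∈ E
  hi : f ∈ E
  left : e.1 = f.1
  slope : slope' e < slope' f
  wV : w ∈ V
  after : e.1.1 < w.1
  w_le_lo : w.1 ≤ e.2.1
  w_le_hi : w.1 ≤ f.2.1
  above : ht e w.1 ≤ w.2
  below : w.2 ≤ ht f w.1
  first : ∀ u ∈ V, e.1.1 < u.1 → u.1 < w.1 → u.2 < ht e u.1 ∨ ht f u.1 < u.2

/-- Two different gaps with the same vertex sit on opposite sides of it. -/
lemma gap_aux {V : Finset Pt} {E : Finset (Pt × Pt)} (D : Drawing V E)
    (hnc : ∀ e ∈ E, ∀ f ∈ E, ¬ Cross e f) {e f e' f' : Pt × Pt} {w : Pt}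
    (g : Gap V E e f w) (g' : Gap V E e' f' w) (hlt : e.1.1 < e'.1.1) :
    (w.2 = ht e w.1 ∧ w.2 = ht f' w.1) ∨ (w.2 = ht f w.1 ∧ w.2 = ht e' w.1) := by
  have hv : e'.1 ∈ V := D.mem₁ _ g'.lo
  rcases g.first e'.1 hv hlt g'.after with h | h
  · -- the second gap starts below the first
    left
    have hne : f' ≠ e := fun hh => by
      rw [← hh, ← g'.left] at hlt; exact lt_irrefl _ hlt
    have h0 : ht f' e'.1.1 < ht e e'.1.1 := by
      rw [g'.left, ht_left, ← g'.left]; exact h
    have := no_swap hne (hnc _ g'.hi _ g.lo) g'.after.le (by rw [← g'.left]) hlt.le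
      g'.w_le_hi g.w_le_lo h0
    have h1 := g.above
    have h2 := g'.below
    exact ⟨by linarith, by linarith⟩
  · right
    have hne : f ≠ e' := fun hh => by
      rw [← hh, ← g.left] at hlt; exact lt_irrefl _ hlt
    have h0 : ht f e'.1.1 < ht e' e'.1.1 := by rw [ht_left e']; exact h
    have := no_swap hne (hnc _ g.hi _ g'.lo) g'.after.le (by rw [← g.left]; exact hlt.le) le_rfl
      g.w_le_hi g'.w_le_lo h0
    have h1 := g.below
    have h2 := g'.above
    exact ⟨by linarith, by linarith⟩

/-- At most two gaps have the same first vertex: they are told apart by whether it is on top. -/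
lemma gap_unique {V : Finset Pt} {E : Finset (Pt × Pt)} (D : Drawing V E)
    (hnc : ∀ e ∈ E, ∀ f ∈ E, ¬ Cross e f) {e f e' f' : Pt × Pt} {w : Pt}
    (g : Gap V E e f w) (g' : Gap V E e' f' w)
    (cons : ∀ h ∈ E, h.1 = f.1 → slope' h ≤ slope' e ∨ slope' f ≤ slope' h)
    (cons' : ∀ h ∈ E, h.1 = f'.1 → slope' h ≤ slope' e' ∨ slope' f' ≤ slope' h)
    (side : (w.2 = ht f w.1 ↔ w.2 = ht f' w.1)) : f = f' := by
  have st := ht_lt D g.left g.slope g.after
  have st' := ht_lt D g'.left g'.slope g'.after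
  rcases lt_trichotomy e.1.1 e'.1.1 with h | h | h
  · rcases gap_aux D hnc g g' h with ⟨h1, h2⟩ | ⟨h1, h2⟩
    · have := side.2 h2; linarith
    · have := side.1 h1; linarith
  · by_contra hne
    have hv : e.1 = e'.1 := D.inj _ (D.mem₁ _ g.lo) _ (D.mem₁ _ g'.lo) h
    have hff : f.1 = f'.1 := by rw [← g.left, hv, g'.left]
    have hs := slope_ne D g.hi g'.hi hff hne
    rcases lt_or_gt_of_ne hs with hl | hl
    · -- the first gap is below
      rcases cons' f g.hi hff with h2 | h2
      · have h3 : ht f w.1 ≤ ht e' w.1 := by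
          rcases h2.lt_or_eq with h4 | h4
          · exact (ht_lt D (hff.trans g'.left.symm) h4 (by rw [← g.left]; exact g.after)).le
          · have : f = e' := by
              by_contra h5
              exact slope_ne D g.hi g'.lo (hff.trans g'.left.symm) h5 h4
            rw [this]
        have h4 := g.below
        have h5 := g'.above
        have := side.1 (by linarith)
        linarith
      · linarith
    · rcases cons f' g'.hi hff.symm with h2 | h2
      · have h3 : ht f' w.1 ≤ ht e w.1 := by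
          rcases h2.lt_or_eq with h4 | h4
          · exact (ht_lt D (hff.symm.trans g.left.symm) h4 (by rw [← g'.left]; exact g'.after)).le
          · have : f' = e := by
              by_contra h5
              exact slope_ne D g'.hi g.lo (hff.symm.trans g.left.symm) h5 h4
            rw [this]
        have h4 := g'.below
        have h5 := g.above
        have := side.2 (by linarith)
        linarith
      · linarith
  · rcases gap_aux D hnc g' g h with ⟨h1, h2⟩ | ⟨h1, h2⟩
    · have := side.1 h2; linarith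
    · have := side.2 h1; linarith

open Classical in
/-- **Noncrossing straight-line graphs have at most `3 |V|` edges.** -/
theorem card_le_three_mul {V : Finset Pt} {E : Finset (Pt × Pt)} (D : Drawing V E)
    (hnc : ∀ e ∈ E, ∀ f ∈ E, ¬ Cross e f) : (Finset.card E) ≤ 3 * (Finset.card V) := by
  -- the least steep edge at each vertex
  set F := E.filter (fun f => ∃ e ∈ E, e.1 = f.1 ∧ slope' e < slope' f) with hF
  have h1 : (Finset.card (E \ F)) ≤ (Finset.card V) := by
    refine Finset.card_le_card_of_injOn Prod.fst (fun e he => D.mem₁ e (mem_sdiff.1 he).1) ?_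
    intro e he f hf hef
    simp only [coe_sdiff, Set.mem_diff, mem_coe, hF, mem_filter, not_and, not_exists] at he hf
    by_contra hne
    rcases lt_or_gt_of_ne (slope_ne D he.1 hf.1 hef hne) with h | h
    · exact hf.2 hf.1 e he.1 hef h
    · exact he.2 he.1 f hf.1 hef.symm h
  have key : ∀ f ∈ F, ∃ e w, Gap V E e f w ∧
      ∀ h ∈ E, h.1 = f.1 → slope' h ≤ slope' e ∨ slope' f ≤ slope' h := by
    intro f hf
    obtain ⟨hfE, e₀, he₀, he₀f, he₀s⟩ := mem_filter.1 hf
    obtain ⟨e, he, hmax⟩ := Finset.exists_max_image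
      (E.filter (fun e => e.1 = f.1 ∧ slope' e < slope' f)) slope'
      ⟨e₀, mem_filter.2 ⟨he₀, he₀f, he₀s⟩⟩
    obtain ⟨heE, hef, hes⟩ := mem_filter.1 he
    set T := V.filter (fun u => e.1.1 < u.1 ∧ ht e u.1 ≤ u.2 ∧ u.2 ≤ ht f u.1) with hT
    have he2 : e.2 ∈ T := by
      refine mem_filter.2 ⟨D.mem₂ e heE, D.lt e heE, ?_, ?_⟩
      · rw [ht_right (D.lt e heE)]
      · have := ht_lt D hef hes (D.lt e heE)
        rw [ht_right (D.lt e heE)] at this
        exact this.le
    have hf2 : f.2 ∈ T := by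
      have hx : e.1.1 < f.2.1 := by rw [hef]; exact D.lt f hfE
      refine mem_filter.2 ⟨D.mem₂ f hfE, hx, ?_, ?_⟩
      · have := ht_lt D hef hes hx
        rw [ht_right (D.lt f hfE)] at this
        exact this.le
      · rw [ht_right (D.lt f hfE)]
    obtain ⟨w, hw, hmin⟩ := Finset.exists_min_image T Prod.fst ⟨_, he2⟩
    obtain ⟨hwV, hw1, hw2, hw3⟩ := mem_filter.1 hw
    refine ⟨e, w, ⟨heE, hfE, hef, hes, hwV, hw1, hmin _ he2, hmin _ hf2, hw2, hw3, ?_⟩, ?_⟩
    · intro u hu hu1 hu2
      by_contra hcon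
      push Not at hcon
      have := hmin u (mem_filter.2 ⟨hu, hu1, hcon.1, hcon.2⟩)
      linarith
    · intro h hh hhf
      by_contra hcon
      push Not at hcon
      have := hmax h (mem_filter.2 ⟨hh, hhf, hcon.2⟩)
      linarith [hcon.1]
  choose! lo w hgap hcons using key
  have h2 : (Finset.card F) ≤ (Finset.card (V ×ˢ (univ : Finset Bool))) := by
    refine Finset.card_le_card_of_injOn (fun f => (w f, decide ((w f).2 = ht f (w f).1))) ?_ ?_
    · intro f hf
      simp only [coe_product, Set.mem_prod, mem_coe, mem_univ, and_true]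
      exact (hgap f hf).wV
    · intro f hf f' hf' heq
      simp only [Prod.mk.injEq] at heq
      have g' := hgap f' hf'
      rw [← heq.1] at g'
      refine gap_unique D hnc (hgap f hf) g' (hcons f hf) (hcons f' hf') ?_
      have h3 := heq.2
      rw [← heq.1] at h3
      simpa using h3
  have h3 : (Finset.card E) = (Finset.card (E \ F)) + (Finset.card F) := (card_sdiff_add_card_eq_card (filter_subset _ _)).symm
  rw [card_product, card_univ, Fintype.card_bool] at h2
  omega

end

end Vale.Agent.P054.Planar
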