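import Mathlib
import Vale.Agent.P054.Defs
import Vale.Agent.P054.Planar

/-!
# Few rich planes in a weighted configuration of lines through the origin

Crossing lemma by sampling, Szemerédi–Trotter by Székely's argument, a generic projection and a
random sample of the weighted points.
-/

namespace Vale.Agent.P054.RichLines

open Finset
open Vale.Agent.P054.Planar

noncomputable section

/-! ### Independent sampling -/

/-- The probability of the sample `t`. -/
def samp {α : Type*} [DecidableEq α] (s : Finset α) (p : α → ℝ) (t : Finset α) : ℝ :=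
  (∏ i ∈ t, p i) * ∏ i ∈ s \ t, (1 - p i)

lemma samp_nonneg {α : Type*} [DecidableEq α] {s : Finset α} {p : α → ℝ}
    (hp0 : ∀ i ∈ s, 0 ≤ p i) (hp1 : ∀ i ∈ s, p i ≤ 1) {t : Finset α} (ht : t ∈ s.powerset) :
    0 ≤ samp s p t :=
  mul_nonneg (prod_nonneg fun i hi => hp0 i (mem_powerset.1 ht hi))
    (prod_nonneg fun i hi => sub_nonneg.2 (hp1 i (mem_sdiff.1 hi).1))

lemma samp_sum {α : Type*} [DecidableEq α] (s : Finset α) (p : α → ℝ) :
    ∑ t ∈ s.powerset, samp s p t = 1 := by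
  rw [show (∑ t ∈ s.powerset, samp s p t) = ∏ i ∈ s, (p i + (1 - p i)) from
    (Finset.prod_add p (fun i => 1 - p i) s).symm]
  simp

lemma samp_sup {α : Type*} [DecidableEq α] (s : Finset α) (p : α → ℝ) {A : Finset α}
    (hA : A ⊆ s) :
    ∑ t ∈ s.powerset, samp s p t * (if A ⊆ t then 1 else 0) = ∏ i ∈ A, p i := by
  have h := Finset.prod_add p (fun i => if i ∈ A then 0 else 1 - p i) s
  have e1 : ∏ i ∈ s, (p i + (if i ∈ A then 0 else 1 - p i)) = ∏ i ∈ A, p i := by
    rw [← prod_sdiff hA, prod_eq_one (s := s \ A) (fun i hi => by simp [(mem_sdiff.1 hi).2]),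
      one_mul]
    exact prod_congr rfl fun i hi => by simp [hi]
  rw [← e1, h]
  refine sum_congr rfl fun t _ => ?_
  by_cases hAt : A ⊆ t
  · rw [if_pos hAt, mul_one, samp]
    congr 1
    exact prod_congr rfl fun i hi => (if_neg fun h => (mem_sdiff.1 hi).2 (hAt h)).symm
  · rw [if_neg hAt, mul_zero]
    obtain ⟨i, hiA, hit⟩ := not_subset.1 hAt
    rw [prod_eq_zero (mem_sdiff.2 ⟨hA hiA, hit⟩) (show (if i ∈ A then 0 else 1 - p i) = (0 : ℝ) by
      simp [hiA]), mul_zero]

lemma samp_count {α β : Type*} [DecidableEq α] (s : Finset α) (p : α → ℝ) (F : Finset β)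
    (A : β → Finset α) (hA : ∀ x ∈ F, A x ⊆ s) :
    ∑ t ∈ s.powerset, samp s p t * ((Finset.card {x ∈ F | A x ⊆ t}) : ℝ) = ∑ x ∈ F, ∏ i ∈ A x, p i := by
  have e : ∀ t, ((Finset.card {x ∈ F | A x ⊆ t}) : ℝ) = ∑ x ∈ F, if A x ⊆ t then (1 : ℝ) else 0 := fun t => by
    rw [Finset.sum_boole]
  simp only [e, mul_sum]
  rw [sum_comm]
  exact sum_congr rfl fun x hx => samp_sup s p (hA x hx)

lemma samp_card {α : Type*} [DecidableEq α] (s : Finset α) (p : α → ℝ) {B : Finset α}
    (hB : B ⊆ s) :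
    ∑ t ∈ s.powerset, samp s p t * ((Finset.card {x ∈ B | x ∈ t}) : ℝ) = ∑ i ∈ B, p i := by
  simpa using samp_count s p B (fun i => {i}) (fun i hi => by simpa using hB hi)

lemma samp_var {α : Type*} [DecidableEq α] (s : Finset α) (p : α → ℝ) {B : Finset α}
    (hB : B ⊆ s) :
    ∑ t ∈ s.powerset, samp s p t * (((Finset.card {x ∈ B | x ∈ t}) : ℝ) - ∑ i ∈ B, p i) ^ 2
      = ∑ i ∈ B, (p i - p i ^ 2) := by
  set μ := ∑ i ∈ B, p i with hμ
  have h2 : ∑ t ∈ s.powerset, samp s p t * ((Finset.card {x ∈ B | x ∈ t}) : ℝ) ^ 2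
      = μ ^ 2 + ∑ i ∈ B, (p i - p i ^ 2) := by
    have h := samp_count s p (B ×ˢ B) (fun x => {x.1, x.2}) fun x hx => by
      rw [mem_product] at hx
      simp only [insert_subset_iff, singleton_subset_iff]
      exact ⟨hB hx.1, hB hx.2⟩
    have e : ∀ t, ((Finset.card {x ∈ B ×ˢ B | ({x.1, x.2} : Finset α) ⊆ t}) : ℝ)
        = ((Finset.card {x ∈ B | x ∈ t}) : ℝ) ^ 2 := fun t => by
      rw [sq, ← Nat.cast_mul, ← card_product]
      congr 2
      ext x
      simp only [mem_filter, mem_product, insert_subset_iff, singleton_subset_iff]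
      tauto
    simp only [e] at h
    rw [h, sum_product, sq, hμ, sum_mul, ← sum_add_distrib]
    refine sum_congr rfl fun i hi => ?_
    rw [mul_sum]
    have e2 : ∀ j ∈ B, ∏ x ∈ ({i, j} : Finset α), p x
        = p i * p j + if i = j then p i - p i ^ 2 else 0 := fun j _ => by
      rcases eq_or_ne i j with rfl | hij
      · simp; ring
      · rw [prod_pair hij, if_neg hij, add_zero]
    rw [sum_congr rfl e2, sum_add_distrib, sum_ite_eq, if_pos hi]
  calc ∑ t ∈ s.powerset, samp s p t * (((Finset.card {x ∈ B | x ∈ t}) : ℝ) - μ) ^ 2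
      = ∑ t ∈ s.powerset, (samp s p t * ((Finset.card {x ∈ B | x ∈ t}) : ℝ) ^ 2
          - 2 * μ * (samp s p t * ((Finset.card {x ∈ B | x ∈ t}) : ℝ)) + μ ^ 2 * samp s p t) :=
        sum_congr rfl fun t _ => by ring
    _ = _ := by
        rw [sum_add_distrib, sum_sub_distrib, ← mul_sum, ← mul_sum, h2, samp_card s p hB,
          samp_sum]
        ring

/-! ### The crossing lemma -/

open Classical in
/-- The ordered crossing pairs. -/
def crossings (E : Finset (Pt × Pt)) : Finset ((Pt × Pt) × (Pt × Pt)) :=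
  {x ∈ E ×ˢ E | Cross x.1 x.2}

lemma ends_distinct {V : Finset Pt} {E : Finset (Pt × Pt)} (D : Drawing V E) {e f : Pt × Pt}
    (he : e ∈ E) (hf : f ∈ E) (hc : Cross e f) :
    e.1 ≠ e.2 ∧ e.1 ≠ f.1 ∧ e.1 ≠ f.2 ∧ e.2 ≠ f.1 ∧ e.2 ≠ f.2 ∧ f.1 ≠ f.2 := by
  obtain ⟨hne, x, h1, h2, h3, h4, hx⟩ := hc
  refine ⟨fun h => ?_, fun h => ?_, fun h => ?_, fun h => ?_, fun h => ?_, fun h => ?_⟩
  · exact (D.lt e he).ne (by rw [h])
  · rcases lt_or_gt_of_ne (slope_ne D he hf h hne) with hs | hs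
    · exact (ht_lt D h hs h1).ne hx
    · exact (ht_lt D h.symm hs h3).ne hx.symm
  · rw [h] at h1; linarith
  · rw [h] at h2; linarith
  · have hh : ht e e.2.1 = ht f e.2.1 := by
      rw [ht_right (D.lt e he), h, ht_right (D.lt f hf)]
    have hs : slope' e = slope' f := by
      have ha := ht_sub e x e.2.1
      have hb := ht_sub f x e.2.1
      have : slope' e * (e.2.1 - x) = slope' f * (e.2.1 - x) := by linarith
      exact mul_right_cancel₀ (sub_pos.2 h2).ne' this
    have hall : ∀ y, ht e y = ht f y := fun y => by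
      have ha := ht_sub e x y
      have hb := ht_sub f x y
      rw [hs] at ha
      linarith
    rcases lt_trichotomy e.1.1 f.1.1 with hl | hl | hl
    · refine D.inside e he f.1 (D.mem₁ f hf) ⟨hl, ?_, ?_⟩
      · rw [h]; exact D.lt f hf
      · rw [hall, ht_left]
    · exact hne (Prod.ext (D.inj _ (D.mem₁ e he) _ (D.mem₁ f hf) hl) h)
    · refine D.inside f hf e.1 (D.mem₁ e he) ⟨hl, ?_, ?_⟩
      · rw [← h]; exact D.lt e he
      · rw [← hall, ht_left]
  · exact (D.lt f hf).ne (by rw [h])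

open Classical in
lemma restricted_le {V : Finset Pt} {E : Finset (Pt × Pt)} (D : Drawing V E) {S : Finset Pt}
    (hS : S ⊆ V) :
    (Finset.card {e ∈ E | ({e.1, e.2} : Finset Pt) ⊆ S}) ≤ 3 * (Finset.card S)
      + (Finset.card {x ∈ crossings E | ({x.1.1, x.1.2, x.2.1, x.2.2} : Finset Pt) ⊆ S}) := by
  set ES := {e ∈ E | ({e.1, e.2} : Finset Pt) ⊆ S} with hES
  set XS := {x ∈ crossings E | ({x.1.1, x.1.2, x.2.1, x.2.2} : Finset Pt) ⊆ S} with hXS
  set E' := ES \ XS.image Prod.fst with hE'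
  have hmem : ∀ e ∈ E', e ∈ E ∧ e.1 ∈ S ∧ e.2 ∈ S := fun e he => by
    have := (mem_sdiff.1 he).1
    simp only [hES, mem_filter, insert_subset_iff, singleton_subset_iff] at this
    exact this
  have D' : Drawing S E' := ⟨fun u hu v hv => D.inj u (hS hu) v (hS hv),
    fun e he => (hmem e he).2.1, fun e he => (hmem e he).2.2, fun e he => D.lt e (hmem e he).1,
    fun e he w hw => D.inside e (hmem e he).1 w (hS hw)⟩
  have h1 : (Finset.card E') ≤ 3 * (Finset.card S) := card_le_three_mul D' fun e he f hf hc => by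
    refine (mem_sdiff.1 he).2 (mem_image.2 ⟨(e, f), ?_, rfl⟩)
    obtain ⟨a, b, c⟩ := hmem e he
    obtain ⟨a', b', c'⟩ := hmem f hf
    simp [hXS, crossings, mem_filter, insert_subset_iff, a, a', b, b', c, c', hc]
  have h2 : (Finset.card ES) ≤ (Finset.card E') + (Finset.card (XS.image Prod.fst)) := card_le_card_sdiff_add_card
  have h3 := card_image_le (s := XS) (f := Prod.fst)
  omega

/-- **The crossing lemma.** -/
theorem crossing_lemma {V : Finset Pt} {E : Finset (Pt × Pt)} (D : Drawing V E)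
    (h : 4 * (Finset.card V) ≤ (Finset.card E)) : ((Finset.card E) : ℝ) ^ 3 ≤ 64 * ((Finset.card V) : ℝ) ^ 2 * (Finset.card (crossings E)) := by
  classical
  rcases Nat.eq_zero_or_pos (Finset.card V) with hV | hV
  · have : E = ∅ := by
      refine eq_empty_of_forall_notMem fun e he => ?_
      rw [card_eq_zero] at hV
      simpa [hV] using D.mem₁ e he
    subst this
    simp only [card_empty, Nat.cast_zero, ne_eq, OfNat.ofNat_ne_zero, not_false_eq_true, zero_pow]
    positivity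
  have hE : (0 : ℝ) < (Finset.card E) := by exact_mod_cast (show 0 < (Finset.card E) by omega)
  set p : ℝ := 4 * (Finset.card V) / (Finset.card E) with hp
  have hp0 : 0 ≤ p := by positivity
  have hp1 : p ≤ 1 := by rw [hp, div_le_one hE]; exact_mod_cast h
  have hx : ∀ x ∈ crossings E, x.1 ∈ E ∧ x.2 ∈ E ∧ Cross x.1 x.2 := fun x hx => by
    simpa [crossings, and_assoc] using hx
  have c1 := samp_count V (fun _ => p) E (fun e => {e.1, e.2}) fun e he => by
    simp [insert_subset_iff, D.mem₁ e he, D.mem₂ e he]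
  have c4 := samp_count V (fun _ => p) (crossings E) (fun x => {x.1.1, x.1.2, x.2.1, x.2.2})
    fun x hx' => by
      obtain ⟨a, b, -⟩ := hx x hx'
      simp [insert_subset_iff, D.mem₁ _ a, D.mem₂ _ a, D.mem₁ _ b, D.mem₂ _ b]
  have c0 := samp_card V (fun _ => p) (Subset.refl V)
  have e1 : ∑ e ∈ E, ∏ _i ∈ ({e.1, e.2} : Finset Pt), p = (Finset.card E) * p ^ 2 := by
    rw [← nsmul_eq_mul, ← sum_const]
    refine sum_congr rfl fun e he => ?_
    rw [prod_const, card_pair fun h => (D.lt e he).ne (by rw [h])]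
  have e4 : ∑ x ∈ crossings E, ∏ _i ∈ ({x.1.1, x.1.2, x.2.1, x.2.2} : Finset Pt), p
      = (Finset.card (crossings E)) * p ^ 4 := by
    rw [← nsmul_eq_mul, ← sum_const]
    refine sum_congr rfl fun x hx' => ?_
    obtain ⟨a, b, c⟩ := hx x hx'
    obtain ⟨d1, d2, d3, d4, d5, d6⟩ := ends_distinct D a b c
    rw [prod_const, card_insert_of_notMem (by simp [d1, d2, d3]),
      card_insert_of_notMem (by simp [d4, d5]), card_pair d6]
  have main : ∑ t ∈ V.powerset, samp V (fun _ => p) t * ((Finset.card {e ∈ E | ({e.1, e.2} : Finset Pt) ⊆ t}) : ℝ)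
      ≤ ∑ t ∈ V.powerset, (3 * (samp V (fun _ => p) t * ((Finset.card {x ∈ V | x ∈ t}) : ℝ))
        + samp V (fun _ => p) t
          * ((Finset.card {x ∈ crossings E | ({x.1.1, x.1.2, x.2.1, x.2.2} : Finset Pt) ⊆ t}) : ℝ)) := by
    refine sum_le_sum fun t ht => ?_
    have hw := samp_nonneg (p := fun _ => p) (fun _ _ => hp0) (fun _ _ => hp1) ht
    have h1 := restricted_le D (mem_powerset.1 ht)
    have h2 : {x ∈ V | x ∈ t} = t := by
      ext x
      simp only [mem_filter, and_iff_right_iff_imp]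
      exact fun hx => mem_powerset.1 ht hx
    rw [h2, mul_left_comm, ← mul_add]
    exact mul_le_mul_of_nonneg_left (by exact_mod_cast h1) hw
  rw [sum_add_distrib, ← mul_sum, c1, c4, c0, e1, e4, sum_const, nsmul_eq_mul] at main
  have hVr : (0 : ℝ) < (Finset.card V) := by exact_mod_cast hV
  rw [hp] at main
  field_simp at main
  nlinarith [main]

/-! ### Rich lines in the plane -/

open Classical in
/-- The points of `Q` on a line. -/
def onLine (Q : Finset Pt) (l : ℝ × ℝ) : Finset Pt := {p ∈ Q | p.2 = l.1 * p.1 + l.2}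

open Classical in
/-- The segments between consecutive points on a line. -/
def segs (Q : Finset Pt) (l : ℝ × ℝ) : Finset (Pt × Pt) :=
  {e ∈ onLine Q l ×ˢ onLine Q l | e.1.1 < e.2.1 ∧
    ∀ w ∈ onLine Q l, ¬ (e.1.1 < w.1 ∧ w.1 < e.2.1)}

lemma mem_onLine {Q : Finset Pt} {l : ℝ × ℝ} {p : Pt} :
    p ∈ onLine Q l ↔ p ∈ Q ∧ p.2 = l.1 * p.1 + l.2 := by
  classical
  exact mem_filter

lemma mem_segs {Q : Finset Pt} {l : ℝ × ℝ} {e : Pt × Pt} :
    e ∈ segs Q l ↔ (e.1 ∈ onLine Q l ∧ e.2 ∈ onLine Q l) ∧ e.1.1 < e.2.1 ∧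
      ∀ w ∈ onLine Q l, ¬ (e.1.1 < w.1 ∧ w.1 < e.2.1) := by
  classical
  rw [segs, mem_filter, mem_product]

lemma ht_segs {Q : Finset Pt} {l : ℝ × ℝ} {e : Pt × Pt} (he : e ∈ segs Q l) (x : ℝ) :
    ht e x = l.1 * x + l.2 := by
  obtain ⟨⟨h1, h2⟩, h3, -⟩ := mem_segs.1 he
  obtain ⟨-, h1⟩ := mem_onLine.1 h1
  obtain ⟨-, h2⟩ := mem_onLine.1 h2
  have hsl : slope' e = l.1 := by
    rw [slope', h1, h2, div_eq_iff (sub_pos.2 h3).ne']; ring
  rw [ht, hsl, h1]; ring

lemma segs_line {Q : Finset Pt} {l l' : ℝ × ℝ} {e : Pt × Pt} (he : e ∈ segs Q l)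
    (he' : e ∈ segs Q l') : l = l' := by
  have h0 := (ht_segs he 0).symm.trans (ht_segs he' 0)
  have h1 := (ht_segs he 1).symm.trans (ht_segs he' 1)
  exact Prod.ext (by linarith) (by linarith)

lemma card_segs {Q : Finset Pt} (hinj : ∀ u ∈ Q, ∀ v ∈ Q, u.1 = v.1 → u = v) (l : ℝ × ℝ) :
    (Finset.card (onLine Q l)) ≤ (Finset.card (segs Q l)) + 1 := by
  classical
  rcases (onLine Q l).eq_empty_or_nonempty with h0 | hne
  · simp [h0]
  obtain ⟨top, htop, hmax⟩ := exists_max_image (onLine Q l) Prod.fst hne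
  have hsub : (onLine Q l).erase top ⊆ (segs Q l).image Prod.fst := by
    intro u hu
    obtain ⟨hut, hu'⟩ := mem_erase.1 hu
    have hlt : u.1 < top.1 := lt_of_le_of_ne (hmax u hu') fun h =>
      hut (hinj u (mem_onLine.1 hu').1 top (mem_onLine.1 htop).1 h)
    obtain ⟨v, hv, hmin⟩ := exists_min_image {w ∈ onLine Q l | u.1 < w.1} Prod.fst
      ⟨top, mem_filter.2 ⟨htop, hlt⟩⟩
    obtain ⟨hv1, hv2⟩ := mem_filter.1 hv
    refine mem_image.2 ⟨(u, v), mem_segs.2 ⟨⟨hu', hv1⟩, hv2, fun w hw hcon => ?_⟩, rfl⟩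
    have := hmin w (mem_filter.2 ⟨hw, hcon.1⟩)
    linarith [hcon.2]
  have h1 := (card_le_card hsub).trans card_image_le
  rw [card_erase_of_mem htop] at h1
  omega

/-- Two segments of one line with a common interior abscissa coincide. -/
lemma segs_same {Q : Finset Pt} (hinj : ∀ u ∈ Q, ∀ v ∈ Q, u.1 = v.1 → u = v) {l : ℝ × ℝ}
    {e f : Pt × Pt} (he : e ∈ segs Q l) (hf : f ∈ segs Q l) {x : ℝ} (h1 : e.1.1 < x)
    (h2 : x < e.2.1) (h3 : f.1.1 < x) (h4 : x < f.2.1) : e = f := by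
  obtain ⟨⟨a1, a2⟩, -, a⟩ := mem_segs.1 he
  obtain ⟨⟨b1, b2⟩, -, b⟩ := mem_segs.1 hf
  refine Prod.ext (hinj _ (mem_onLine.1 a1).1 _ (mem_onLine.1 b1).1 ?_)
    (hinj _ (mem_onLine.1 a2).1 _ (mem_onLine.1 b2).1 ?_)
  · rcases lt_trichotomy e.1.1 f.1.1 with h | h | h
    · exact absurd ⟨h, h3.trans h2⟩ (a _ b1)
    · exact h
    · exact absurd ⟨h, h1.trans h4⟩ (b _ a1)
  · rcases lt_trichotomy e.2.1 f.2.1 with h | h | h
    · exact absurd ⟨h3.trans h2, h⟩ (b _ a2)
    · exact h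
    · exact absurd ⟨h1.trans h4, h⟩ (a _ b2)

/-- Székely's graph of a family of lines. -/
lemma szekely {Q : Finset Pt} (hinj : ∀ u ∈ Q, ∀ v ∈ Q, u.1 = v.1 → u = v)
    (L : Finset (ℝ × ℝ)) : ∃ E, Drawing Q E ∧ (Finset.card E) = ∑ l ∈ L, (Finset.card (segs Q l)) ∧
      (Finset.card (crossings E)) ≤ (Finset.card L) * (Finset.card L) := by
  classical
  refine ⟨L.biUnion (segs Q), ?_, card_biUnion fun l _ l' _ hll' =>
    disjoint_left.2 fun e he he' => hll' (segs_line he he'), ?_⟩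
  · refine ⟨hinj, fun e he => ?_, fun e he => ?_, fun e he => ?_, fun e he w hw hins => ?_⟩ <;>
      obtain ⟨l, -, hl⟩ := mem_biUnion.1 he
    · exact (mem_onLine.1 (mem_segs.1 hl).1.1).1
    · exact (mem_onLine.1 (mem_segs.1 hl).1.2).1
    · exact (mem_segs.1 hl).2.1
    · refine (mem_segs.1 hl).2.2 w (mem_onLine.2 ⟨hw, ?_⟩) ⟨hins.1, hins.2.1⟩
      rw [hins.2.2, ht_segs hl]
  · have hget : ∀ e ∈ L.biUnion (segs Q), ∃ l, l ∈ L ∧ e ∈ segs Q l :=
      fun e he => mem_biUnion.1 he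
    choose! ln hln using hget
    rw [← card_product]
    refine card_le_card_of_injOn (fun x => (ln x.1, ln x.2)) ?_ ?_
    · intro x hx
      rw [mem_coe, crossings, mem_filter, mem_product] at hx
      rw [mem_coe, mem_product]
      exact ⟨(hln _ hx.1.1).1, (hln _ hx.1.2).1⟩
    · intro x hx y hy hxy
      rw [mem_coe, crossings, mem_filter, mem_product] at hx hy
      obtain ⟨hxy1, hxy2⟩ := Prod.ext_iff.1 hxy
      dsimp only at hxy1 hxy2
      obtain ⟨⟨he, hf⟩, hne, t, t1, t2, t3, t4, tt⟩ := hx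
      obtain ⟨⟨he', hf'⟩, -, u, u1, u2, u3, u4, uu⟩ := hy
      have s1 := (hln _ he).2
      have s2 := (hln _ hf).2
      have r1 := (hln _ he').2
      have r2 := (hln _ hf').2
      rw [← hxy1] at r1
      rw [← hxy2] at r2
      rw [ht_segs s1, ht_segs s2] at tt
      rw [ht_segs r1, ht_segs r2] at uu
      have hl : ln x.1 ≠ ln x.2 := fun h => hne (segs_same hinj s1 (h ▸ s2) t1 t2 t3 t4)
      have ha : (ln x.1).1 - (ln x.2).1 ≠ 0 := fun h => by
        have h' : (ln x.1).1 = (ln x.2).1 := by linarith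
        rw [h'] at tt
        exact hl (Prod.ext h' (by linarith))
      have htu : t = u := mul_left_cancel₀ ha (by linarith)
      subst htu
      exact Prod.ext (segs_same hinj s1 r1 t1 t2 u1 u2) (segs_same hinj s2 r2 t3 t4 u3 u4)

open Classical in
/-- **Szemerédi–Trotter for rich lines.** -/
theorem rich_lines_le (Q : Finset Pt) (hinj : ∀ u ∈ Q, ∀ v ∈ Q, u.1 = v.1 → u = v)
    (L : Finset (ℝ × ℝ)) {K : ℝ} (hK : 2 ≤ K)
    (hrich : ∀ l ∈ L, K ≤ ((Finset.card {p ∈ Q | p.2 = l.1 * p.1 + l.2}) : ℝ)) :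
    ((Finset.card L) : ℝ) ≤ 512 * ((Finset.card Q) : ℝ) ^ 2 / K ^ 3 + 8 * (Finset.card Q) / K := by
  have hK0 : 0 < K := by linarith
  obtain ⟨E, D, hE, hX⟩ := szekely hinj L
  have hEL : ((Finset.card L) : ℝ) * (K / 2) ≤ (Finset.card E) := by
    rw [hE, Nat.cast_sum, ← nsmul_eq_mul, ← sum_const]
    refine sum_le_sum fun l hl => ?_
    have h1 : ((Finset.card (onLine Q l)) : ℝ) ≤ (Finset.card (segs Q l)) + 1 := by exact_mod_cast card_segs hinj l
    have h2 := hrich l hl
    rw [show ({p ∈ Q | p.2 = l.1 * p.1 + l.2} : Finset Pt) = onLine Q l from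
      Finset.ext fun p => by rw [mem_onLine, mem_filter]] at h2
    linarith
  have hXr : ((Finset.card (crossings E)) : ℝ) ≤ ((Finset.card L) : ℝ) ^ 2 := by rw [sq]; exact_mod_cast hX
  rcases le_or_gt (4 * (Finset.card Q)) (Finset.card E) with h | h
  · have h2 : (((Finset.card L) : ℝ) * (K / 2)) ^ 3 ≤ 64 * ((Finset.card Q) : ℝ) ^ 2 * ((Finset.card L) : ℝ) ^ 2 :=
      (pow_le_pow_left₀ (mul_nonneg (Nat.cast_nonneg _) (by linarith)) hEL 3).trans
        ((crossing_lemma D h).trans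
          (mul_le_mul_of_nonneg_left hXr (mul_nonneg (by norm_num) (sq_nonneg _))))
    have hQ1 : (0 : ℝ) ≤ 8 * ((Finset.card Q) : ℝ) / K := div_nonneg (by positivity) hK0.le
    refine le_add_of_le_of_nonneg ?_ hQ1
    rcases Nat.eq_zero_or_pos (Finset.card L) with hL | hL
    · rw [hL, Nat.cast_zero]; positivity
    have hLr : (0 : ℝ) < ((Finset.card L) : ℝ) ^ 2 := pow_pos (Nat.cast_pos.2 hL) 2
    rw [le_div_iff₀ (pow_pos hK0 3)]
    refine le_of_mul_le_mul_right ?_ hLr
    linarith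
  · have h1 : ((Finset.card E) : ℝ) ≤ 4 * (Finset.card Q) := by exact_mod_cast h.le
    have hQ0 : (0 : ℝ) ≤ 512 * ((Finset.card Q) : ℝ) ^ 2 / K ^ 3 := by positivity
    refine le_add_of_nonneg_of_le hQ0 ?_
    rw [le_div_iff₀ hK0]
    linarith

/-! ### Generic projection -/

lemma sup_eq_of_finrank_two {V : Type} [AddCommGroup V] [Module ℝ V] [FiniteDimensional ℝ V]
    {c d U : Submodule ℝ V} (hc : Module.finrank ℝ c = 1) (hd : Module.finrank ℝ d = 1)
    (hcd : c ≠ d) (hcU : c ≤ U) (hdU : d ≤ U) (hU : Module.finrank ℝ U = 2) : c ⊔ d = U := by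
  refine Submodule.eq_of_le_of_finrank_le (sup_le hcU hdU) ?_
  have hlt : c < c ⊔ d := lt_of_le_of_ne le_sup_left fun h => by
    refine hcd (Submodule.eq_of_le_of_finrank_le (h ▸ le_sup_right) ?_).symm
    omega
  have := Submodule.finrank_lt_finrank_of_lt hlt
  omega

/-- Few planes contain many of finitely many given lines through the origin. -/
theorem rich_planes_unweighted {V : Type} [AddCommGroup V] [Module ℝ V] [FiniteDimensional ℝ V]
    (S : Finset (Submodule ℝ V)) (hS : ∀ c ∈ S, Module.finrank ℝ c = 1)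
    (L : Finset (Submodule ℝ V)) {K : ℝ} (hK : 2 ≤ K)
    (hL : ∀ U ∈ L, Module.finrank ℝ U = 2)
    (hrich : ∀ U ∈ L, K ≤ (Set.ncard {c | c ∈ S ∧ c ≤ U} : ℝ)) :
    ((Finset.card L) : ℝ) ≤ 512 * ((Finset.card S) : ℝ) ^ 2 / K ^ 3 + 8 * (Finset.card S) / K := by
  classical
  have hrep : ∀ c : S, ∃ v : V, v ≠ 0 ∧ (ℝ ∙ v) = (c : Submodule ℝ V) := fun c => by
    obtain ⟨⟨v, hv⟩, hv0, hall⟩ := finrank_eq_one_iff'.1 (hS c c.2)
    refine ⟨v, fun h => hv0 (Subtype.ext h), le_antisymm ?_ fun w hw => ?_⟩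
    · rwa [Submodule.span_singleton_le_iff_mem]
    · obtain ⟨a, ha⟩ := hall ⟨w, hw⟩
      exact Submodule.mem_span_singleton.2 ⟨a, congrArg Subtype.val ha⟩
  choose r hr0 hr using hrep
  obtain ⟨φ0, hφ0⟩ := Module.exists_dual_forall_apply_ne_zero (K := ℝ) r hr0
  set u := fun c : S => (φ0 (r c))⁻¹ • r c with hu
  have hu1 : ∀ c, φ0 (u c) = 1 := fun c => by simp [hu, hφ0 c]
  have hus : ∀ c : S, (ℝ ∙ u c) = (c : Submodule ℝ V) := fun c => by
    rw [← hr c, hu]
    exact Submodule.span_singleton_smul_eq (isUnit_iff_ne_zero.2 (inv_ne_zero (hφ0 c))) (r c)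
  have hum : ∀ c : S, u c ∈ (c : Submodule ℝ V) := fun c => by
    rw [← hus c]; exact Submodule.mem_span_singleton_self _
  obtain ⟨φ1, hφ1⟩ := Module.exists_dual_forall_apply_ne_zero (K := ℝ)
    (fun q : {q : S × S // q.1 ≠ q.2} => u q.1.1 - u q.1.2) fun q => by
      rw [sub_ne_zero]
      exact fun h => q.2 (Subtype.ext (by rw [← hus, ← hus, h]))
  set z := fun q : S × S × S => u q.2.2 - u q.1
    - ((φ1 (u q.2.2) - φ1 (u q.1)) / (φ1 (u q.2.1) - φ1 (u q.1))) • (u q.2.1 - u q.1) with hz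
  obtain ⟨φ2, hφ2⟩ := Module.exists_dual_forall_apply_ne_zero (K := ℝ)
    (fun q : {q : S × S × S // z q ≠ 0} => z q.1) fun q => q.2
  have hx : ∀ c c' : S, φ1 (u c) = φ1 (u c') → c = c' := fun c c' h => by
    by_contra hne
    exact hφ1 ⟨(c, c'), hne⟩ (by simp [h])
  set g := fun c : S => ((φ1 (u c), φ2 (u c)) : Pt) with hg
  set P := S.attach.image g with hP
  have hginj : Function.Injective g := fun c c' h => hx c c' (congrArg Prod.fst h)
  have hPc : (Finset.card P) = (Finset.card S) := by rw [hP, card_image_of_injective _ hginj, card_attach]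
  have hPinj : ∀ a ∈ P, ∀ b ∈ P, a.1 = b.1 → a = b := fun a ha b hb h => by
    simp only [hP, mem_image, mem_attach, true_and] at ha hb
    obtain ⟨c, rfl⟩ := ha
    obtain ⟨c', rfl⟩ := hb
    rw [hx c c' h]
  have hpair : ∀ U ∈ L, ∃ c d : S, c ≠ d ∧ (c : Submodule ℝ V) ≤ U ∧ (d : Submodule ℝ V) ≤ U := by
    intro U hU
    have h2 : 1 < Set.ncard {c | c ∈ S ∧ c ≤ U} := by
      have h1 := hrich U hU
      have : (1 : ℝ) < (Set.ncard {c | c ∈ S ∧ c ≤ U} : ℝ) := by linarith
      exact_mod_cast this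
    obtain ⟨c, d, hc, hd, hcd⟩ :=
      (Set.one_lt_ncard_iff (S.finite_toSet.subset fun c hc => hc.1)).1 h2
    exact ⟨⟨c, hc.1⟩, ⟨d, hd.1⟩, fun h => hcd (congrArg Subtype.val h), hc.2, hd.2⟩
  choose cU dU hne hcU hdU using fun U : L => hpair U U.2
  set a := fun U : L => (φ2 (u (dU U)) - φ2 (u (cU U))) / (φ1 (u (dU U)) - φ1 (u (cU U))) with ha
  set line := fun U : L => ((a U, φ2 (u (cU U)) - a U * φ1 (u (cU U))) : ℝ × ℝ) with hline
  have hsup : ∀ U : L, (cU U : Submodule ℝ V) ⊔ (dU U : Submodule ℝ V) = U := fun U =>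
    sup_eq_of_finrank_two (hS _ (cU U).2) (hS _ (dU U).2)
      (fun h => hne U (Subtype.ext h)) (hcU U) (hdU U) (hL U U.2)
  have hon : ∀ (U : L) (e : S), (g e).2 = (line U).1 * (g e).1 + (line U).2
      ↔ (e : Submodule ℝ V) ≤ U := by
    intro U e
    have hd0 : φ1 (u (dU U)) - φ1 (u (cU U)) ≠ 0 :=
      sub_ne_zero.2 fun h => hne U (hx _ _ h).symm
    constructor
    · intro h
      have hz0 : z (cU U, dU U, e) = 0 := by
        by_contra hne0
        refine hφ2 ⟨_, hne0⟩ ?_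
        simp only [hz, map_sub, map_smul, smul_eq_mul]
        simp only [hg, hline, ha] at h
        field_simp at h ⊢
        linarith
      rw [← hsup U, ← hus e, Submodule.span_singleton_le_iff_mem]
      simp only [hz, sub_eq_iff_eq_add, zero_add] at hz0
      rw [hz0]
      exact Submodule.add_mem _ (Submodule.smul_mem _ _ (Submodule.sub_mem _
        (Submodule.mem_sup_right (hum _)) (Submodule.mem_sup_left (hum _))))
        (Submodule.mem_sup_left (hum _))
    · intro h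
      rw [← hsup U] at h
      obtain ⟨y, hy, w, hw, hyw⟩ := Submodule.mem_sup.1 (h (hum e))
      rw [← hus (cU U), Submodule.mem_span_singleton] at hy
      rw [← hus (dU U), Submodule.mem_span_singleton] at hw
      obtain ⟨α, rfl⟩ := hy
      obtain ⟨β, rfl⟩ := hw
      have h1 : α + β = 1 := by
        have := congrArg φ0 hyw
        simpa [hu1] using this
      obtain rfl : α = 1 - β := by linarith
      simp only [hg, hline, ha, ← hyw, map_add, map_smul, smul_eq_mul]
      field_simp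
      ring
  have hinj : Function.Injective line := by
    intro U U' h
    have hc : (cU U' : Submodule ℝ V) ≤ U := by
      rw [← hon U, h, hon U']; exact hcU U'
    have hd : (dU U' : Submodule ℝ V) ≤ U := by
      rw [← hon U, h, hon U']; exact hdU U'
    have h' : (U' : Submodule ℝ V) ≤ U := by rw [← hsup U']; exact sup_le hc hd
    exact Subtype.ext
      (Submodule.eq_of_le_of_finrank_le h' (by rw [hL U U.2, hL U' U'.2])).symm
  have := rich_lines_le P hPinj (L.attach.image line) hK fun l hl => by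
    obtain ⟨U, -, rfl⟩ := mem_image.1 hl
    refine (hrich U U.2).trans (Nat.cast_le.2 ?_)
    have e : {p ∈ P | p.2 = (line U).1 * p.1 + (line U).2}
        = ({c ∈ S.attach | c.1 ≤ (U : Submodule ℝ V)} : Finset S).image g := by
      rw [hP, filter_image]
      congr 1
      exact filter_congr fun c _ => hon U c
    rw [e, card_image_of_injective _ hginj]
    have e' : {c | c ∈ S ∧ c ≤ (U : Submodule ℝ V)}
        = ↑(({c ∈ S.attach | c.1 ≤ (U : Submodule ℝ V)} : Finset S).image Subtype.val) := by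
      ext c; simp [and_comm]
    rw [e', Set.ncard_coe_finset]
    exact card_image_le
  rwa [card_image_of_injective _ hinj, card_attach, hPc] at this

/-! ### Weights -/

/-- **Few rich planes.** -/
theorem exists_rich_planes_bound : ∃ C : ℝ, 0 < C ∧
    ∀ (V : Type) [AddCommGroup V] [Module ℝ V] [FiniteDimensional ℝ V] (ι : Type) [Fintype ι]
      (h : ι → V), (∀ i, h i ≠ 0) → ∀ M a : ℝ, 1 ≤ M → C * M ≤ a →
      (∀ v : V, (wt h (ℝ ∙ v) : ℝ) ≤ M) →
      ∀ L : Finset (Submodule ℝ V), (∀ U ∈ L, Module.finrank ℝ U = 2 ∧ a ≤ (wt h U : ℝ)) →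
        (L.card : ℝ) ≤ C * ((Fintype.card ι : ℝ) ^ 2 * M / a ^ 3 + (Fintype.card ι : ℝ) / a) := by
  classical
  refine ⟨131072, by norm_num, fun V _ _ _ ι _ h hh M a hM ha hw L hL => ?_⟩
  have hM0 : 0 < M := by linarith
  have ha0 : 0 < a := by linarith
  set N : ℝ := (Fintype.card ι : ℝ) with hN
  rcases L.eq_empty_or_nonempty with rfl | ⟨U0, hU0⟩
  · simp only [card_empty, Nat.cast_zero]; positivity
  have hN0 : 0 < N := by
    refine lt_of_lt_of_le ha0 ((hL U0 hU0).2.trans ?_)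
    rw [hN, ← Nat.card_eq_fintype_card, ← Set.ncard_univ]
    exact Nat.cast_le.2 (Set.ncard_le_ncard (Set.subset_univ _))
  have hLp : (0 : ℝ) < (Finset.card L) := by exact_mod_cast card_pos.2 ⟨U0, hU0⟩
  set cl := fun i => (ℝ ∙ h i) with hcl
  set Cs := (univ : Finset ι).image cl with hCs
  have hrk : ∀ c ∈ Cs, Module.finrank ℝ c = 1 := fun c hc => by
    obtain ⟨i, -, rfl⟩ := mem_image.1 hc
    exact finrank_span_singleton (hh i)
  set w := fun c : Submodule ℝ V => ((Finset.card {i : ι | cl i = c}) : ℝ) with hwd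
  set p := fun c => w c / M with hp
  have hwM : ∀ c ∈ Cs, w c ≤ M := fun c hc => by
    obtain ⟨i, -, rfl⟩ := mem_image.1 hc
    refine le_trans (Nat.cast_le.2 ?_) (hw (h i))
    rw [wt, ← Set.ncard_coe_finset]
    refine Set.ncard_le_ncard fun j hj => ?_
    simp only [coe_filter, mem_univ, true_and, Set.mem_ofPred_eq, hcl] at hj ⊢
    exact hj ▸ Submodule.mem_span_singleton_self _
  have hp0 : ∀ c ∈ Cs, 0 ≤ p c := fun c _ => div_nonneg (Nat.cast_nonneg _) hM0.le
  have hp1 : ∀ c ∈ Cs, p c ≤ 1 := fun c hc => (div_le_one hM0).2 (hwM c hc)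
  set B := fun U : Submodule ℝ V => {c ∈ Cs | c ≤ U} with hB
  have hsumB : ∀ U, ∑ c ∈ B U, p c = (wt h U : ℝ) / M := fun U => by
    simp only [hp, ← sum_div]
    congr 1
    simp only [hwd, ← Nat.cast_sum]
    congr 1
    rw [wt, show {i | h i ∈ U} = ↑({i : ι | cl i ≤ U} : Finset ι) by
        ext i; simp [hcl, Submodule.span_singleton_le_iff_mem], Set.ncard_coe_finset,
      card_eq_sum_card_fiberwise (f := cl) (t := B U) fun i hi => by
        simp only [coe_filter, mem_univ, true_and, Set.mem_ofPred_eq] at hi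
        simp [hB, hCs, hi]]
    refine sum_congr rfl fun c hc => ?_
    congr 1
    ext i
    simp only [mem_filter, mem_univ, true_and]
    exact ⟨fun e => ⟨e ▸ (mem_filter.1 hc).2, e⟩, fun e => e.2⟩
  have hsum : ∑ c ∈ Cs, p c = N / M := by
    simp only [hp, ← sum_div]
    congr 1
    simp only [hwd, hN, ← Nat.cast_sum]
    rw [← card_univ, card_eq_sum_card_fiberwise (f := cl) (t := Cs) fun i hi =>
      mem_image_of_mem cl hi]
  set bad := fun t : Finset (Submodule ℝ V) =>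
    {U ∈ L | ((Finset.card {c ∈ B U | c ∈ t}) : ℝ) < a / (2 * M)} with hbad
  have hEbad : ∀ U ∈ L, ∑ t ∈ Cs.powerset, samp Cs p t *
      (if ((Finset.card {c ∈ B U | c ∈ t}) : ℝ) < a / (2 * M) then 1 else 0) ≤ 1 / 8 := by
    intro U hU
    set μ := (wt h U : ℝ) / M with hμ
    have hμa : a / M ≤ μ := by rw [hμ]; gcongr; exact (hL U hU).2
    have h32 : 32 ≤ a / M := by rw [le_div_iff₀ hM0]; linarith
    have hμ0 : 0 < μ := by linarith
    have hBs : B U ⊆ Cs := filter_subset _ _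
    calc ∑ t ∈ Cs.powerset, samp Cs p t *
          (if ((Finset.card {c ∈ B U | c ∈ t}) : ℝ) < a / (2 * M) then 1 else 0)
        ≤ ∑ t ∈ Cs.powerset, samp Cs p t *
            (4 / μ ^ 2 * (((Finset.card {c ∈ B U | c ∈ t}) : ℝ) - ∑ i ∈ B U, p i) ^ 2) := by
          refine sum_le_sum fun t ht => mul_le_mul_of_nonneg_left ?_ (samp_nonneg hp0 hp1 ht)
          rw [hsumB, ← hμ]
          split_ifs with hlt
          · have h1 : μ / 2 ≤ μ - ((Finset.card {c ∈ B U | c ∈ t}) : ℝ) := by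
              rw [show a / (2 * M) = a / M / 2 by ring] at hlt
              linarith
            have h2 := pow_le_pow_left₀ (by positivity) h1 2
            rw [div_mul_eq_mul_div, one_le_div (by positivity)]
            linarith
          · positivity
      _ = 4 / μ ^ 2 * ∑ i ∈ B U, (p i - p i ^ 2) := by
          rw [← samp_var Cs p hBs, mul_sum]
          exact sum_congr rfl fun t _ => by ring
      _ ≤ 4 / μ ^ 2 * μ := by
          refine mul_le_mul_of_nonneg_left ?_ (by positivity)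
          calc ∑ i ∈ B U, (p i - p i ^ 2) ≤ ∑ i ∈ B U, p i :=
                sum_le_sum fun i _ => sub_le_self _ (sq_nonneg _)
            _ = μ := hsumB U
      _ = 4 / μ := by field_simp
      _ ≤ 1 / 8 := by rw [div_le_iff₀ hμ0]; linarith
  have hE : ∑ t ∈ Cs.powerset, samp Cs p t *
      (((Finset.card {c ∈ Cs | c ∈ t}) : ℝ) * (M / (4 * N)) + ((Finset.card (bad t)) : ℝ) * (2 / (Finset.card L))) < 1 := by
    have e : ∀ t, ((Finset.card (bad t)) : ℝ)
        = ∑ U ∈ L, if ((Finset.card {c ∈ B U | c ∈ t}) : ℝ) < a / (2 * M) then (1 : ℝ) else 0 := fun t => by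
      rw [Finset.sum_boole]
    have h1 : ∑ t ∈ Cs.powerset, samp Cs p t * ((Finset.card (bad t)) : ℝ) ≤ (Finset.card L) * (1 / 8) := by
      simp only [e, mul_sum]
      rw [sum_comm, ← nsmul_eq_mul, ← sum_const]
      exact sum_le_sum hEbad
    simp only [mul_add, ← mul_assoc, sum_add_distrib, ← sum_mul, samp_card Cs p (Subset.refl Cs),
      hsum]
    have h2 : N / M * (M / (4 * N)) = 1 / 4 := by field_simp
    rw [h2]
    calc (1 / 4 : ℝ) + (∑ t ∈ Cs.powerset, samp Cs p t * ((Finset.card (bad t)) : ℝ)) * (2 / (Finset.card L))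
        ≤ 1 / 4 + (Finset.card L) * (1 / 8) * (2 / (Finset.card L)) := by
          gcongr
      _ < 1 := by field_simp; norm_num
  obtain ⟨t, ht, hts⟩ : ∃ t ∈ Cs.powerset,
      ((Finset.card {c ∈ Cs | c ∈ t}) : ℝ) * (M / (4 * N)) + ((Finset.card (bad t)) : ℝ) * (2 / (Finset.card L)) < 1 := by
    by_contra hcon
    push Not at hcon
    have : ∑ t ∈ Cs.powerset, samp Cs p t * 1 ≤ ∑ t ∈ Cs.powerset, samp Cs p t *
        (((Finset.card {c ∈ Cs | c ∈ t}) : ℝ) * (M / (4 * N)) + ((Finset.card (bad t)) : ℝ) * (2 / (Finset.card L))) :=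
      sum_le_sum fun t ht => mul_le_mul_of_nonneg_left (hcon t ht) (samp_nonneg hp0 hp1 ht)
    simp only [mul_one, samp_sum] at this
    linarith
  rw [mem_powerset] at ht
  have htc : {c ∈ Cs | c ∈ t} = t := by
    ext c
    simp only [mem_filter, and_iff_right_iff_imp]
    exact fun hc => ht hc
  rw [htc] at hts
  have hpos1 : 0 ≤ ((Finset.card t) : ℝ) * (M / (4 * N)) := by positivity
  have hpos2 : 0 ≤ ((Finset.card (bad t)) : ℝ) * (2 / (Finset.card L)) := by positivity
  have hq : ((Finset.card t) : ℝ) ≤ 4 * N / M := by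
    have : ((Finset.card t) : ℝ) * (M / (4 * N)) ≤ 1 := by linarith
    rw [← mul_div_assoc, div_le_one (by positivity)] at this
    rwa [le_div_iff₀ hM0]
  have hb : ((Finset.card (bad t)) : ℝ) ≤ (Finset.card L) / 2 := by
    have : ((Finset.card (bad t)) : ℝ) * (2 / (Finset.card L)) ≤ 1 := by linarith
    rw [← mul_div_assoc, div_le_one hLp] at this
    linarith
  have hK : 2 ≤ a / (2 * M) := by rw [le_div_iff₀ (by positivity)]; linarith
  have main := rich_planes_unweighted t (fun c hc => hrk c (ht hc)) (L \ bad t) hK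
    (fun U hU => (hL U (mem_sdiff.1 hU).1).1) fun U hU => by
      obtain ⟨hU1, hU2⟩ := mem_sdiff.1 hU
      simp only [hbad, mem_filter, not_and, not_lt] at hU2
      refine (hU2 hU1).trans (Nat.cast_le.2 (le_of_eq ?_))
      rw [← Set.ncard_coe_finset]
      congr 1
      ext c
      simp only [hB, coe_filter, mem_filter, Set.mem_ofPred_eq]
      exact ⟨fun hc => ⟨hc.2, hc.1.2⟩, fun hc => ⟨⟨ht hc.1, hc.2⟩, hc.1⟩⟩
  have hsd : ((Finset.card (L \ bad t)) : ℝ) + (Finset.card (bad t)) = (Finset.card L) := by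
    exact_mod_cast card_sdiff_add_card_eq_card (filter_subset _ L)
  have h1 : ((Finset.card L) : ℝ) / 2 ≤ 512 * (4 * N / M) ^ 2 / (a / (2 * M)) ^ 3
      + 8 * (4 * N / M) / (a / (2 * M)) := by
    refine le_trans (by linarith) (main.trans ?_)
    gcongr
  have e1 : 512 * (4 * N / M) ^ 2 / (a / (2 * M)) ^ 3 = 65536 * (N ^ 2 * M / a ^ 3) := by
    field_simp; ring
  have e2 : 8 * (4 * N / M) / (a / (2 * M)) = 64 * (N / a) := by
    field_simp; ring
  rw [e1, e2] at h1
  have : 0 ≤ N / a := by positivity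
  linarith

end

end Vale.Agent.P054.RichLines
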