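import Vale.Agent.P054.Geometry

/-!
# Choice of parameters in the step inequality

Exponent arithmetic, the choice of `r` and `s` at a given size, and the two cases of the
minimum defining that size.
-/

namespace Vale.Agent.P054

open Finset Real

lemma expo_zero : expo 0 = 0 := by simp [expo]

lemma one_le_expo {d : ℕ} (hd : 1 ≤ d) : 1 ≤ expo d := by
  have h : (1 : ℝ) ≤ d := by exact_mod_cast hd
  rw [expo, le_div_iff₀ (by linarith)]
  nlinarith [sq_nonneg ((d : ℝ) - 1)]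

lemma expo_case₁ {d k : ℕ} (hd : 2 ≤ d) (hk : k + 2 ≤ d) :
    expo k * ((d : ℝ) + 1) ≤ expo d * ((k : ℝ) + 2) := by
  rcases Nat.eq_zero_or_pos k with rfl | hk1
  · rw [expo_zero, zero_mul]
    have := one_le_expo (d := d) (by omega)
    positivity
  · have h1 : (1 : ℝ) ≤ k := by exact_mod_cast hk1
    have h2 : (k : ℝ) + 2 ≤ d := by exact_mod_cast hk
    rw [expo, expo, div_mul_eq_mul_div, div_mul_eq_mul_div,
      div_le_div_iff₀ (by linarith) (by linarith)]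
    nlinarith [mul_nonneg (mul_nonneg (sq_nonneg (d : ℝ)) (show (0 : ℝ) ≤ k by linarith))
        (show (0 : ℝ) ≤ 2 by norm_num),
      mul_nonneg (sq_nonneg (d : ℝ)) (show (0 : ℝ) ≤ k - 1 by linarith),
      mul_nonneg (mul_nonneg (show (0 : ℝ) ≤ k by linarith) (show (0 : ℝ) ≤ d by linarith))
        (show (0 : ℝ) ≤ d - k by linarith), sq_nonneg (k : ℝ)]

lemma expo_case₂ {d k : ℕ} (hd : 2 ≤ d) (hk : k + 2 ≤ d) :
    expo k * ((d : ℝ) - 1) + ((d : ℝ) - k) * d + 1 ≤ expo d * (2 * (d : ℝ) - k) := by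
  have hd2 : (2 : ℝ) ≤ d := by exact_mod_cast hd
  rcases Nat.eq_zero_or_pos k with rfl | hk1
  · rw [expo_zero, expo, Nat.cast_zero, zero_mul, zero_add, sub_zero, sub_zero,
      div_mul_eq_mul_div, le_div_iff₀ (by linarith)]
    nlinarith [sq_nonneg ((d : ℝ) - 1)]
  · have h1 : (1 : ℝ) ≤ k := by exact_mod_cast hk1
    have h2 : (k : ℝ) + 2 ≤ d := by exact_mod_cast hk
    rw [expo, expo, div_mul_eq_mul_div, div_mul_eq_mul_div, add_assoc,
      div_add' _ _ _ (by linarith), div_le_div_iff₀ (by linarith) (by linarith)]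
    nlinarith [mul_nonneg (mul_nonneg (show (0 : ℝ) ≤ d - 1 by linarith)
      (show (0 : ℝ) ≤ k - 1 by linarith)) (show (0 : ℝ) ≤ k + d - 1 by linarith)]

/-- Taking the root in `n ^ a ≤ D T ^ b`. -/
lemma le_of_rpow_le {n D T a b E : ℝ} {m : ℕ} (hn : 0 ≤ n) (hD : 1 ≤ D) (hT : 1 ≤ T)
    (ha : 0 < a) (ham : 1 ≤ a * m) (hb : b ≤ E * a) (h : n ^ a ≤ D * T ^ b) :
    n ≤ D ^ m * T ^ E := by
  have h1 : (n ^ a) ^ (1 / a) ≤ (D * T ^ b) ^ (1 / a) :=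
    rpow_le_rpow (rpow_nonneg hn _) h (by positivity)
  rw [← rpow_mul hn, mul_one_div_cancel ha.ne', rpow_one,
    mul_rpow (by linarith) (rpow_nonneg (by linarith) _), ← rpow_mul (by linarith : 0 ≤ T)] at h1
  refine h1.trans (mul_le_mul ?_ ?_ (rpow_nonneg (by linarith) _) (pow_nonneg (by linarith) _))
  · rw [← rpow_natCast]
    refine rpow_le_rpow_of_exponent_le hD ?_
    rw [div_le_iff₀ ha]
    linarith
  · refine rpow_le_rpow_of_exponent_le hT ?_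
    rw [mul_one_div, div_le_iff₀ ha]
    linarith

lemma one_le_log_add_two {n : ℕ} (hn : 1 ≤ n) : 1 ≤ log ((n : ℝ) + 2) := by
  have h : (1 : ℝ) ≤ n := by exact_mod_cast hn
  rw [le_log_iff_exp_le (by linarith)]
  linarith [exp_one_lt_d9]

/-- The choice of `r` and `s` at a given size `x`. -/
lemma exists_params {d : ℕ} (hd : 2 ≤ d) {K : ℝ} (hK : 1 ≤ K) {n : ℕ} {T L x : ℝ}
    (hn0 : 1 ≤ n) (hT : 1 ≤ T) (hL : 1 ≤ L) (hbig : (4 * K) ^ (d + 1) ≤ (n : ℝ))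
    (hxM : 2 * (K * L) ^ d ≤ x)
    (hx1 : x ≤ ((n : ℝ) / (4 * K * T * L)) ^ ((d : ℝ) / ((d : ℝ) - 1)))
    (hx2 : x ≤ (n : ℝ) ^ ((d : ℝ) / ((d : ℝ) + 1))) :
    ∃ r s : ℕ, 0 < r ∧ 1 ≤ s ∧ 2 * r * s ≤ n ∧ K ≤ (s : ℝ) ∧
      K * L * T * (r : ℝ) ^ (1 - (d : ℝ)⁻¹) ≤ (r : ℝ) * s ∧
      K * L * (r : ℝ) ^ (1 - (d : ℝ)⁻¹) ≤ r ∧ (r : ℝ) ≤ x ∧ x ≤ 2 * r ∧ (n : ℝ) ≤ 4 * ((r : ℝ) * s) := by
  have hd1 : (2 : ℝ) ≤ d := by exact_mod_cast hd
  have hn : (0 : ℝ) < n := by exact_mod_cast hn0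
  set c : ℝ := 4 * K with hc
  set X₁ := ((n : ℝ) / (c * T * L)) ^ ((d : ℝ) / ((d : ℝ) - 1)) with hX₁
  set X₂ := (n : ℝ) ^ ((d : ℝ) / ((d : ℝ) + 1)) with hX₂
  have hq : 0 < (n : ℝ) / (c * T * L) := by positivity
  have hKL : 1 ≤ (K * L) ^ d := one_le_pow₀ (one_le_mul_of_one_le_of_one_le hK hL)
  have hX2 : X₂ = (n : ℝ) / (n : ℝ) ^ (1 / ((d : ℝ) + 1)) := by
    rw [eq_div_iff (rpow_pos_of_pos hn _).ne', hX₂, ← rpow_add hn, ← add_div,
      div_self (by positivity), rpow_one]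
  have hcn : c ≤ (n : ℝ) ^ (1 / ((d : ℝ) + 1)) := by
    have h := rpow_le_rpow (by positivity) hbig (show 0 ≤ 1 / ((d : ℝ) + 1) by positivity)
    rwa [← rpow_natCast, ← rpow_mul (by linarith), Nat.cast_add, Nat.cast_one,
      mul_one_div_cancel (by positivity), rpow_one] at h
  set r := ⌊x⌋₊ with hr
  have hx0 : 0 < x := by linarith
  have hrx : (r : ℝ) ≤ x := Nat.floor_le hx0.le
  have hxr : x ≤ 2 * r := by
    have := Nat.lt_floor_add_one x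
    rw [← hr] at this
    linarith
  have hr0 : (1 : ℝ) ≤ r := by linarith
  have hxn : x * c ≤ n := by
    have h1 : X₂ * c ≤ n := by
      rw [hX2, div_mul_eq_mul_div, div_le_iff₀ (rpow_pos_of_pos hn _)]
      exact mul_le_mul_of_nonneg_left hcn hn.le
    exact (mul_le_mul_of_nonneg_right hx2 (by linarith)).trans h1
  set s := n / (2 * r) with hs
  have hrn : 0 < r := by exact_mod_cast (by linarith : (0 : ℝ) < r)
  have hsup : 2 * r * s ≤ n := Nat.mul_div_le n (2 * r)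
  have hslo : (n : ℝ) < 2 * r * ((s : ℝ) + 1) := by
    have h := Nat.lt_mul_div_succ n (show 0 < 2 * r by omega)
    rw [← hs] at h
    exact_mod_cast h
  have hrc : (r : ℝ) * c ≤ n := (mul_le_mul_of_nonneg_right hrx (by linarith)).trans hxn
  have hrs : (n : ℝ) ≤ 4 * ((r : ℝ) * s) := by
    have : 4 * (r : ℝ) ≤ r * c := by rw [hc]; nlinarith
    linarith
  have hsK : K ≤ (s : ℝ) := by
    have : (r : ℝ) * c ≤ r * (4 * s) := by linarith
    rw [hc] at this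
    nlinarith
  have hs1 : 1 ≤ s := by exact_mod_cast (show (1 : ℝ) ≤ s by linarith)
  have hδ : 0 < (d : ℝ)⁻¹ := by positivity
  have hsplit : (r : ℝ) ^ (1 - (d : ℝ)⁻¹) * (r : ℝ) ^ ((d : ℝ)⁻¹) = r := by
    rw [← rpow_add (by linarith), sub_add_cancel, rpow_one]
  have hc2 : K * L * (r : ℝ) ^ (1 - (d : ℝ)⁻¹) ≤ r := by
    have h1 : K * L ≤ (r : ℝ) ^ ((d : ℝ)⁻¹) := by
      have h2 := rpow_le_rpow (by positivity) (show (K * L) ^ d ≤ (r : ℝ) by linarith) hδ.le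
      rwa [pow_rpow_inv_natCast (by positivity) (by omega)] at h2
    calc K * L * (r : ℝ) ^ (1 - (d : ℝ)⁻¹)
        ≤ (r : ℝ) ^ ((d : ℝ)⁻¹) * (r : ℝ) ^ (1 - (d : ℝ)⁻¹) :=
          mul_le_mul_of_nonneg_right h1 (rpow_nonneg (by linarith) _)
      _ = r := by rw [mul_comm, hsplit]
  have hc1' : K * L * T * (r : ℝ) ^ (1 - (d : ℝ)⁻¹) ≤ (r : ℝ) * s := by
    have hexp : (d : ℝ) / ((d : ℝ) - 1) * (1 - (d : ℝ)⁻¹) = 1 := by
      have : (d : ℝ) - 1 ≠ 0 := by linarith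
      field_simp
    have h1 : (r : ℝ) ^ (1 - (d : ℝ)⁻¹) ≤ (n : ℝ) / (c * T * L) := by
      have h2 := rpow_le_rpow (z := 1 - (d : ℝ)⁻¹) (by linarith) (hrx.trans hx1)
        (sub_nonneg.2 (inv_le_one_of_one_le₀ (by linarith)))
      rwa [hX₁, ← rpow_mul hq.le, hexp, rpow_one] at h2
    calc K * L * T * (r : ℝ) ^ (1 - (d : ℝ)⁻¹) ≤ K * L * T * ((n : ℝ) / (c * T * L)) :=
          mul_le_mul_of_nonneg_left h1 (by positivity)
      _ = (n : ℝ) / 4 := by rw [hc]; field_simp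
      _ ≤ (r : ℝ) * s := by linarith
  exact ⟨r, s, hrn, hs1, hsup, hsK, hc1', hc2, hrx, hxr, hrs⟩

/-- The step inequality at `x`. -/
lemma step_at {d : ℕ} (hd : 2 ≤ d) {K : ℝ} (hK : 1 ≤ K) {A n : ℕ} {T L x : ℝ}
    (hn0 : 1 ≤ n) (hT : 1 ≤ T) (hL : 1 ≤ L) (hx0 : 0 < x)
    (hx2 : x ≤ (n : ℝ) ^ ((d : ℝ) / ((d : ℝ) + 1))) {r s : ℕ} (hrn : 0 < r)
    (hsup : 2 * r * s ≤ n) (hrx : (r : ℝ) ≤ x) (hxr : x ≤ 2 * r) (hrs : (n : ℝ) ≤ 4 * ((r : ℝ) * s))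
    (hmain : (n : ℝ) ≤ K * ∑ j ∈ Icc 2 d, ((s : ℝ) ^ j * L / (r : ℝ) ^ ((d : ℝ)⁻¹)
        + (s : ℝ) ^ (j - 1)) * (T ^ expo (d - j) * L ^ A)) :
    ∃ j ∈ Icc 2 d, (n : ℝ) ≤
      10 * K * d * ((n / x) ^ j / x ^ ((d : ℝ)⁻¹)) * T ^ expo (d - j) * L ^ (A + 1) := by
  have hd1 : (2 : ℝ) ≤ d := by exact_mod_cast hd
  have hK0 : (0 : ℝ) < K := by linarith
  have hn : (0 : ℝ) < n := by exact_mod_cast hn0
  have hδ : 0 < (d : ℝ)⁻¹ := by positivity
  have hr0 : (1 : ℝ) ≤ r := by exact_mod_cast hrn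
  set C : ℝ := 10 * K * d with hC
  set X₂ := (n : ℝ) ^ ((d : ℝ) / ((d : ℝ) + 1)) with hX₂
  have hX2 : X₂ = (n : ℝ) / (n : ℝ) ^ (1 / ((d : ℝ) + 1)) := by
    rw [eq_div_iff (rpow_pos_of_pos hn _).ne', hX₂, ← rpow_add hn, ← add_div,
      div_self (by positivity), rpow_one]
  have hrs' : (r : ℝ) ^ ((d : ℝ)⁻¹) ≤ 4 * s := by
    have h1 : (r : ℝ) ^ ((d : ℝ)⁻¹) ≤ (n : ℝ) ^ (1 / ((d : ℝ) + 1)) := by
      refine (rpow_le_rpow (by linarith) (hrx.trans hx2) hδ.le).trans (le_of_eq ?_)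
      rw [hX₂, ← rpow_mul hn.le]
      congr 1
      field_simp
    have h2 : (n : ℝ) ^ (1 / ((d : ℝ) + 1)) ≤ 4 * s := by
      have h3 : (r : ℝ) * (n : ℝ) ^ (1 / ((d : ℝ) + 1)) ≤ n := by
        rw [← le_div_iff₀ (rpow_pos_of_pos hn _), ← hX2]
        exact hrx.trans hx2
      refine le_of_mul_le_mul_left ?_ (show (0 : ℝ) < r by linarith)
      linarith
    exact h1.trans h2
  have hsx : (s : ℝ) ≤ n / x := by
    rw [le_div_iff₀ hx0]
    have h1 : 2 * (r : ℝ) * s ≤ n := by exact_mod_cast hsup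
    have h2 : x * s ≤ 2 * (r : ℝ) * s := mul_le_mul_of_nonneg_right hxr (Nat.cast_nonneg _)
    linarith
  have hxd : x ^ ((d : ℝ)⁻¹) ≤ 2 * (r : ℝ) ^ ((d : ℝ)⁻¹) := by
    refine (rpow_le_rpow hx0.le hxr hδ.le).trans ?_
    rw [mul_rpow (by norm_num) (by linarith)]
    exact mul_le_mul_of_nonneg_right
      (rpow_le_self_of_one_le (by norm_num) (inv_le_one_of_one_le₀ (by linarith)))
      (rpow_nonneg (by linarith) _)
  obtain ⟨j, hj, hjle⟩ : ∃ j ∈ Icc 2 d,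
      (n : ℝ) ≤ C * ((n / x) ^ j / x ^ ((d : ℝ)⁻¹)) * T ^ expo (d - j) * L ^ (A + 1) := by
    have hne : (Icc 2 d).Nonempty := ⟨2, by simp [hd]⟩
    refine exists_le_of_sum_le hne ?_
    rw [sum_const, nsmul_eq_mul]
    refine (mul_le_mul_of_nonneg_left hmain (Nat.cast_nonneg _)).trans ?_
    rw [mul_sum, mul_sum]
    refine sum_le_sum fun j hj => ?_
    have hj1 : 1 ≤ j := by have := (mem_Icc.1 hj).1; omega
    have hcard : ((Icc 2 d).card : ℝ) ≤ d := by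
      rw [Nat.card_Icc]
      exact_mod_cast (by omega : d + 1 - 2 ≤ d)
    have hrd : 0 < (r : ℝ) ^ ((d : ℝ)⁻¹) := rpow_pos_of_pos (by linarith) _
    have hxd0 : 0 < x ^ ((d : ℝ)⁻¹) := rpow_pos_of_pos hx0 _
    have e1 : (s : ℝ) ^ (j - 1) ≤ 4 * ((s : ℝ) ^ j * L / (r : ℝ) ^ ((d : ℝ)⁻¹)) := by
      rw [mul_div_assoc', le_div_iff₀ hrd]
      calc (s : ℝ) ^ (j - 1) * (r : ℝ) ^ ((d : ℝ)⁻¹) ≤ (s : ℝ) ^ (j - 1) * (4 * s * L) := by
            refine mul_le_mul_of_nonneg_left (hrs'.trans ?_) (by positivity)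
            exact le_mul_of_one_le_right (by positivity) hL
        _ = 4 * ((s : ℝ) ^ (j - 1 + 1) * L) := by ring
        _ = 4 * ((s : ℝ) ^ j * L) := by rw [Nat.sub_add_cancel hj1]
    have e2 : (s : ℝ) ^ j * L / (r : ℝ) ^ ((d : ℝ)⁻¹) ≤
        2 * ((n / x) ^ j / x ^ ((d : ℝ)⁻¹)) * L := by
      rw [div_le_iff₀ hrd]
      calc (s : ℝ) ^ j * L ≤ (n / x) ^ j * L := by
            gcongr
        _ = (n / x) ^ j / x ^ ((d : ℝ)⁻¹) * L * x ^ ((d : ℝ)⁻¹) := by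
            field_simp
        _ ≤ (n / x) ^ j / x ^ ((d : ℝ)⁻¹) * L * (2 * (r : ℝ) ^ ((d : ℝ)⁻¹)) :=
            mul_le_mul_of_nonneg_left hxd (by positivity)
        _ = _ := by ring
    calc _ ≤ (d : ℝ) * (K * ((5 * (2 * ((n / x) ^ j / x ^ ((d : ℝ)⁻¹)) * L)) *
          (T ^ expo (d - j) * L ^ A))) := by
          refine mul_le_mul hcard (mul_le_mul_of_nonneg_left ?_ hK0.le) (by positivity) (by positivity)
          exact mul_le_mul_of_nonneg_right (by linarith) (by positivity)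
      _ = _ := by rw [hC]; ring
  exact ⟨j, hj, hjle⟩

/-- The case where the first term is the minimum. -/
lemma case_first {d j k : ℕ} (hd : 2 ≤ d) (hkd : k + 2 ≤ d) (hjk : (j : ℝ) = (d : ℝ) - k)
    {n T L C c x : ℝ} {A : ℕ} (hn : 0 < n) (hT : 1 ≤ T) (hL : 1 ≤ L) (hC1 : 1 ≤ C) (hc1 : 1 ≤ c)
    (hmin : x = (n / (c * T * L)) ^ ((d : ℝ) / ((d : ℝ) - 1)))
    (hkey : x ^ ((j : ℝ) + (d : ℝ)⁻¹) * n ≤ C * L ^ (A + 1) * n ^ (j : ℝ) * T ^ expo k) :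
    n ≤ (C * c ^ (d * d + 1) * L ^ (A + d * d + 2)) ^ (d + 1) * T ^ expo d := by
  have hd1 : (2 : ℝ) ≤ d := by exact_mod_cast hd
  have hq : 0 < n / (c * T * L) := by positivity
  set q : ℕ := d * d + 1 with hqdef
  set D := C * c ^ q * L ^ (A + d * d + 2) with hD
  have hD1 : 1 ≤ D := by
    rw [hD]
    exact one_le_mul_of_one_le_of_one_le
      (one_le_mul_of_one_le_of_one_le hC1 (one_le_pow₀ hc1)) (one_le_pow₀ hL)
  set a : ℝ := ((j : ℝ) + d) / ((d : ℝ) - 1) with ha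
  set g : ℝ := ((j : ℝ) * d + 1) / ((d : ℝ) - 1) with hg
  have hd0 : (0 : ℝ) < (d : ℝ) - 1 := by linarith
  have ha0 : 0 < a := by rw [ha]; positivity
  refine le_of_rpow_le (a := a) (b := expo k + g) hn.le hD1 hT ha0 ?_ ?_ ?_
  · rw [ha, div_mul_eq_mul_div, le_div_iff₀ hd0]
    push_cast
    nlinarith
  · rw [ha, hg]
    have h := expo_case₂ hd hkd
    rw [mul_div_assoc', le_div_iff₀ hd0, add_mul, div_mul_cancel₀ _ hd0.ne', hjk]
    linarith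
  · have hpow : x ^ ((j : ℝ) + (d : ℝ)⁻¹) = n ^ g / (c * L * T) ^ g := by
      rw [hmin, ← rpow_mul hq.le, ← div_rpow hn.le (by positivity), mul_right_comm c T L]
      congr 1
      rw [hg]
      field_simp
    rw [hpow, div_mul_eq_mul_div, div_le_iff₀ (by positivity)] at hkey
    have hexp : n ^ a * n ^ (j : ℝ) = n ^ g * n := by
      rw [← rpow_add hn, ← rpow_add_one hn.ne']
      congr 1
      rw [ha, hg]
      field_simp
      ring
    rw [← hexp] at hkey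
    have hcL : (c * L) ^ g ≤ (c * L) ^ q := by
      rw [← rpow_natCast]
      refine rpow_le_rpow_of_exponent_le (one_le_mul_of_one_le_of_one_le hc1 hL) ?_
      rw [hg, div_le_iff₀ hd0, hqdef]
      push_cast
      nlinarith
    have h4 : n ^ a * n ^ (j : ℝ) ≤ D * T ^ (expo k + g) * n ^ (j : ℝ) := by
      refine hkey.trans ?_
      calc C * L ^ (A + 1) * n ^ (j : ℝ) * T ^ expo k * (c * L * T) ^ g
          = C * L ^ (A + 1) * (c * L) ^ g * (T ^ expo k * T ^ g) * n ^ (j : ℝ) := by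
            rw [mul_rpow (by positivity) (by linarith)]; ring
        _ ≤ C * L ^ (A + 1) * (c * L) ^ q * (T ^ expo k * T ^ g) * n ^ (j : ℝ) := by
            gcongr
        _ = _ := by rw [hD, hqdef, rpow_add (by linarith)]; ring
    exact le_of_mul_le_mul_right h4 (rpow_pos_of_pos hn _)

/-- The case where the second term is the minimum. -/
lemma case_second {d j k : ℕ} (hd : 2 ≤ d) (hkd : k + 2 ≤ d) (hjk : (j : ℝ) = (d : ℝ) - k)
    {n T L C c x : ℝ} {A : ℕ} (hn : 0 < n) (hT : 1 ≤ T) (hL : 1 ≤ L) (hC1 : 1 ≤ C) (hc1 : 1 ≤ c)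
    (hmin : x = n ^ ((d : ℝ) / ((d : ℝ) + 1)))
    (hkey : x ^ ((j : ℝ) + (d : ℝ)⁻¹) * n ≤ C * L ^ (A + 1) * n ^ (j : ℝ) * T ^ expo k) :
    n ≤ (C * c ^ (d * d + 1) * L ^ (A + d * d + 2)) ^ (d + 1) * T ^ expo d := by
  have hd1 : (2 : ℝ) ≤ d := by exact_mod_cast hd
  set q : ℕ := d * d + 1 with hqdef
  set D := C * c ^ q * L ^ (A + d * d + 2) with hD
  have hD1 : 1 ≤ D := by
    rw [hD]
    exact one_le_mul_of_one_le_of_one_le
      (one_le_mul_of_one_le_of_one_le hC1 (one_le_pow₀ hc1)) (one_le_pow₀ hL)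
  set a : ℝ := ((k : ℝ) + 2) / ((d : ℝ) + 1) with ha
  refine le_of_rpow_le (a := a) (b := expo k) hn.le hD1 hT (by positivity) ?_ ?_ ?_
  · rw [ha, div_mul_eq_mul_div, le_div_iff₀ (by positivity)]
    push_cast
    nlinarith [(Nat.cast_nonneg k : (0 : ℝ) ≤ k)]
  · rw [ha, mul_div_assoc', le_div_iff₀ (by positivity)]
    exact expo_case₁ hd hkd
  · have hexp : x ^ ((j : ℝ) + (d : ℝ)⁻¹) * n = n ^ a * n ^ (j : ℝ) := by
      rw [hmin, ← rpow_mul hn.le, ← rpow_add_one hn.ne', ← rpow_add hn]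
      congr 1
      rw [ha, hjk]
      field_simp
      ring
    rw [hexp] at hkey
    have hCD : C * L ^ (A + 1) ≤ D := by
      rw [hD]
      exact mul_le_mul (le_mul_of_one_le_right (by linarith) (one_le_pow₀ hc1))
        (pow_le_pow_right₀ hL (by omega)) (by positivity) (by positivity)
    have h4 : n ^ a * n ^ (j : ℝ) ≤ D * T ^ expo k * n ^ (j : ℝ) :=
      hkey.trans (by
        calc C * L ^ (A + 1) * n ^ (j : ℝ) * T ^ expo k
            = C * L ^ (A + 1) * T ^ expo k * n ^ (j : ℝ) := by ring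
          _ ≤ _ := by gcongr)
    exact le_of_mul_le_mul_right h4 (rpow_pos_of_pos hn _)

end Vale.Agent.P054
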