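import Vale.Agent.P054.Count
import Vale.Agent.P054.RichLines

/-!
# The step inequality from smaller dimensions
-/

namespace Vale.Agent.P054

open Finset Submodule

noncomputable section

/-- The inductive bound for dimension `k`: at most `B (t+2)^(k²/(2k-1)) log(n+2)^A` points. -/
def PointsBound (k : ℕ) (B : ℝ) (A : ℕ) : Prop :=
  SmallSets k fun t q => B * ((t : ℝ) + 2) ^ expo k * Real.log ((q : ℝ) + 2) ^ A

variable {d : ℕ}

lemma finrank_ker_evalAt (z : Sp d) :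
    Module.finrank ℝ (LinearMap.ker (evalAt z)) = d := by
  have h1 := (evalAt z).finrank_range_add_finrank_ker
  have h2 : LinearMap.range (evalAt z) = ⊤ :=
    LinearMap.range_eq_top.2 fun c => ⟨(0, c), by simp⟩
  rw [h2, finrank_top, Module.finrank_self, Module.finrank_prod, Module.finrank_self,
    finrank_euclideanSpace_fin] at h1
  omega

/-- The bound on rich flats, in terms of `r` and `s`. -/
lemma count_alg {j d : ℕ} {N r s ℓ θ D c M T : ℝ} (hr : 0 < r) (hs : 0 < s) (hθ : 0 < θ)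
    (hθ1 : θ ≤ 1) (hD : 0 ≤ D) (hc : 0 ≤ c) (hℓ : 0 ≤ ℓ) (hN : 0 ≤ N) (hNle : N ≤ r * (s * s))
    (hM : M = 4 * s * (c * ℓ * r ^ (1 - (d : ℝ)⁻¹)))
    (hT : D * (1 / θ) ^ j * (4 * c / θ + 1) ≤ T) :
    D * ((N / (θ * (r * s))) ^ j * M / (θ * (r * s)) + (N / (θ * (r * s))) ^ (j - 1)) ≤
      T * (s ^ j * ℓ / r ^ ((d : ℝ)⁻¹) + s ^ (j - 1)) := by
  set a := θ * (r * s) with ha
  have ha0 : 0 < a := by positivity
  have h1 : N / a ≤ (1 / θ) * s := by
    rw [div_le_iff₀ ha0]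
    refine hNle.trans (le_of_eq ?_)
    rw [ha]
    field_simp
  have h2 : M / a = 4 * c / θ * (ℓ / r ^ ((d : ℝ)⁻¹)) := by
    rw [hM, ha, Real.rpow_sub hr, Real.rpow_one]
    field_simp
  have h0' : 0 ≤ N / a := by positivity
  have hle : 1 ≤ 1 / θ := by rw [le_div_iff₀ hθ, one_mul]; exact hθ1
  set X := s ^ j * ℓ / r ^ ((d : ℝ)⁻¹) with hX
  set Y := s ^ (j - 1) with hY
  have hX0 : 0 ≤ X := by positivity
  have hY0 : 0 ≤ Y := by positivity
  have hP0 : 0 ≤ (1 / θ) ^ j := by positivity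
  have h3 : (N / a) ^ j * M / a ≤ (1 / θ) ^ j * (4 * c / θ) * X := by
    rw [mul_div_assoc, h2]
    refine (mul_le_mul_of_nonneg_right (pow_le_pow_left₀ h0' h1 j) (by positivity)).trans
      (le_of_eq ?_)
    rw [hX]; ring
  have h4 : (N / a) ^ (j - 1) ≤ (1 / θ) ^ j * Y := by
    refine (pow_le_pow_left₀ h0' h1 _).trans ?_
    rw [mul_pow]
    exact mul_le_mul_of_nonneg_right (pow_le_pow_right₀ hle (Nat.sub_le _ _)) (by positivity)
  calc D * ((N / a) ^ j * M / a + (N / a) ^ (j - 1))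
      ≤ D * ((1 / θ) ^ j * (4 * c / θ) * X + (1 / θ) ^ j * Y) :=
        mul_le_mul_of_nonneg_left (add_le_add h3 h4) hD
    _ ≤ D * ((1 / θ) ^ j * (4 * c / θ + 1) * (X + Y)) := by
        refine mul_le_mul_of_nonneg_left ?_ hD
        have e : (1 / θ) ^ j * (4 * c / θ + 1) * (X + Y) =
            ((1 / θ) ^ j * (4 * c / θ) * X + (1 / θ) ^ j * Y) +
              ((1 / θ) ^ j * X + (1 / θ) ^ j * (4 * c / θ) * Y) := by ring
        rw [e]
        have : 0 ≤ (1 / θ) ^ j * X + (1 / θ) ^ j * (4 * c / θ) * Y := by positivity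
        linarith
    _ = D * (1 / θ) ^ j * (4 * c / θ + 1) * (X + Y) := by ring
    _ ≤ T * (X + Y) := mul_le_mul_of_nonneg_right hT (by linarith)

open Classical in
/-- **The step inequality.** -/
theorem step (hd : 2 ≤ d) {B : ℝ} (hB : 1 ≤ B) (A : ℕ)
    (hsmall : ∀ k ≤ d - 2, PointsBound k B A) :
    ∃ K : ℝ, 1 ≤ K ∧ ∀ (P : Finset (Sp d)) (t : ℕ), (Finset.card (dists P)) ≤ t → ∀ r s : ℕ,
      1 ≤ r → 1 ≤ s → 2 * r * s ≤ (Finset.card P) → K ≤ (s : ℝ) →
      K * Real.log (((Finset.card P) : ℝ) + 2) * ((t : ℝ) + 2) * (r : ℝ) ^ (1 - (d : ℝ)⁻¹) ≤ (r : ℝ) * s →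
      K * Real.log (((Finset.card P) : ℝ) + 2) * (r : ℝ) ^ (1 - (d : ℝ)⁻¹) ≤ r →
      ((Finset.card P) : ℝ) ≤ K * ∑ j ∈ Icc 2 d,
        ((s : ℝ) ^ j * Real.log (((Finset.card P) : ℝ) + 2) / (r : ℝ) ^ ((d : ℝ)⁻¹) + (s : ℝ) ^ (j - 1)) *
          (((t : ℝ) + 2) ^ expo (d - j) * Real.log (((Finset.card P) : ℝ) + 2) ^ A) := by
  obtain ⟨C₁, hC₁, hplanes⟩ := RichLines.exists_rich_planes_bound
  have hex : ∀ j, ∃ η K D : ℝ, 0 < η ∧ η ≤ 1 ∧ 1 ≤ K ∧ 0 ≤ D ∧
      (2 ≤ j → FlatsBound j η K D) := by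
    intro j
    by_cases hj : 2 ≤ j
    · obtain ⟨η, K, D, h1, h2, h3, h4, h5⟩ := exists_flatsBound (C := C₁) hplanes hC₁ j hj
      exact ⟨η, K, D, h1, h2, h3, h4, fun _ => h5⟩
    · exact ⟨1, 1, 0, one_pos, le_rfl, le_rfl, le_rfl, fun h => absurd h hj⟩
  choose η Kj Dj hη hη1 hKj hDj hflats using hex
  set θ : ℕ → ℝ := fun j => ∏ i ∈ Ioc j d, η i with hθ
  have hθ0 : ∀ j, 0 < θ j := fun j => prod_pos fun i _ => hη i
  have hθ1 : ∀ j, θ j ≤ 1 := fun j => prod_le_one (fun i _ => (hη i).le) (fun i _ => hη1 i)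
  have hθsucc : ∀ j < d, θ j = η (j + 1) * θ (j + 1) := by
    intro j hj
    simp only [hθ]
    rw [← Finset.insert_Ioc_add_one_left_eq_Ioc hj, prod_insert (by simp)]
  obtain ⟨C₀, hC₀⟩ := exists_cells_bound d
  set c₀ := sepConst C₀ with hc₀
  have hc₀1 : 1 ≤ c₀ := by
    rw [hc₀, sepConst]; linarith [(Nat.cast_nonneg C₀ : (0 : ℝ) ≤ C₀)]
  set T₁ := ∑ j ∈ range (d + 1), (Kj j + 1) / θ j
  set T₂ := ∑ j ∈ range (d + 1), Dj j * (1 / θ j) ^ j * (4 * c₀ / θ j + 1)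
  have hT₁' : ∀ j ≤ d, (Kj j + 1) / θ j ≤ T₁ := fun j hj =>
    single_le_sum (f := fun j => (Kj j + 1) / θ j) (s := range (d + 1))
      (fun i _ => div_nonneg (by linarith [hKj i]) (hθ0 i).le) (mem_range.2 (by omega))
  have hT₂' : ∀ j ≤ d, Dj j * (1 / θ j) ^ j * (4 * c₀ / θ j + 1) ≤ T₂ := fun j hj =>
    single_le_sum (f := fun j => Dj j * (1 / θ j) ^ j * (4 * c₀ / θ j + 1)) (s := range (d + 1))
      (fun i _ => mul_nonneg (mul_nonneg (hDj i) (pow_nonneg (div_nonneg zero_le_one (hθ0 i).le) _))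
        (by have := hθ0 i; positivity))
      (mem_range.2 (by omega))
  have hT₁0 : 0 ≤ T₁ := le_trans (by have := hKj 0; have := hθ0 0; positivity) (hT₁' 0 (by omega))
  have hT₂0 : 0 ≤ T₂ := le_trans
    (mul_nonneg (mul_nonneg (hDj 0) (by positivity)) (by have := hθ0 0; positivity))
    (hT₂' 0 (by omega))
  refine ⟨128 * c₀ + 4 * c₀ * T₁ + T₂ * B + 32, by nlinarith, ?_⟩
  set K := 128 * c₀ + 4 * c₀ * T₁ + T₂ * B + 32 with hKdef
  intro P t ht r s hr hs hsize hsK hcond₁ hcond₂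
  set n := (Finset.card P) with hn
  set ℓ := Real.log ((n : ℝ) + 2) with hℓ
  set u := (r : ℝ) ^ (1 - (d : ℝ)⁻¹) with hu
  have hr0 : (0 : ℝ) < r := by exact_mod_cast hr
  have hs0 : (0 : ℝ) < s := by exact_mod_cast hs
  have hKc : 128 * c₀ ≤ K := by rw [hKdef]; nlinarith
  have hs32 : 32 ≤ s := by
    have : (32 : ℝ) ≤ s := by linarith
    exact_mod_cast this
  have hn2 : 2 ≤ n := by nlinarith
  have hℓ1 : 1 ≤ ℓ := by
    rw [hℓ, Real.le_log_iff_exp_le (by positivity)]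
    have := Real.exp_one_lt_d9
    have : (2 : ℝ) ≤ n := by exact_mod_cast hn2
    linarith
  have hu1 : 1 ≤ u := Real.one_le_rpow (by exact_mod_cast hr)
    (sub_nonneg.2 (inv_le_one_of_one_le₀ (by exact_mod_cast (by omega : 1 ≤ d))))
  obtain ⟨E, hEne, hEcard, hEcap, hEeq⟩ := exists_pairs (by omega) (C₀ := C₀)
    (cells_nonneg hC₀) P ht hr hs32 hsize (le_trans (by gcongr) hcond₁)
  let h : {x : Sp d × Sp d // x ∈ E} → Sp d × ℝ := fun x => bis x.1.1 x.1.2
  have h0 : ∀ x, h x ≠ 0 := fun x => bis_ne_zero (hEne _ x.2)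
  have hwtE : ∀ U : Submodule ℝ (Sp d × ℝ),
      wt h U = (Finset.card (E.filter fun x => bis x.1 x.2 ∈ U)) := by
    intro U
    rw [wt, ← Set.ncard_coe_finset]
    refine Set.ncard_congr (fun x _ => x.1) (fun x hx => mem_filter.2 ⟨x.2, hx⟩)
      (fun x y _ _ hxy => Subtype.ext hxy) fun x hx => ?_
    obtain ⟨h1, h2⟩ := mem_filter.1 hx
    exact ⟨⟨x, h1⟩, h2, rfl⟩
  set M : ℝ := 4 * (s : ℝ) * (c₀ * ℓ * u) with hM
  have hcap : ∀ v, (wt h (ℝ ∙ v) : ℝ) ≤ M := fun v => by rw [hwtE]; exact hEcap v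
  have hM1 : 1 ≤ M := by
    have : 1 ≤ c₀ * ℓ * u := one_le_mul_of_one_le_of_one_le
      (one_le_mul_of_one_le_of_one_le hc₀1 hℓ1) hu1
    have : (1 : ℝ) ≤ s := by exact_mod_cast hs
    nlinarith
  set a : ℕ → ℝ := fun j => θ j * ((r : ℝ) * s) with ha
  have ha0 : ∀ j, 0 < a j := fun j => mul_pos (hθ0 j) (mul_pos hr0 hs0)
  have hMa : ∀ j ≤ d, (Kj j + 1) * M ≤ a j := by
    intro j hj
    have h1 : 4 * c₀ * ((Kj j + 1) / θ j) * (ℓ * u) ≤ r := by
      refine le_trans ?_ (le_trans (le_of_eq (mul_assoc K ℓ u).symm) hcond₂)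
      refine mul_le_mul_of_nonneg_right ?_ (by positivity)
      have := mul_le_mul_of_nonneg_left (hT₁' j hj) (show 0 ≤ 4 * c₀ by linarith)
      have := mul_nonneg hT₂0 (show 0 ≤ B by linarith)
      rw [hKdef]
      linarith
    have h2 := mul_le_mul_of_nonneg_left h1 (mul_nonneg (hθ0 j).le hs0.le)
    have h3 : θ j * (s : ℝ) * (4 * c₀ * ((Kj j + 1) / θ j) * (ℓ * u)) = (Kj j + 1) * M := by
      rw [hM]; field_simp [(hθ0 j).ne']
    rw [h3] at h2
    rw [ha]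
    linarith
  -- the least rank of a rich space of bisectors through a point
  let RichAt : Sp d → ℕ → Prop := fun z j => ∃ U : Submodule ℝ (Sp d × ℝ),
    U ≤ LinearMap.ker (evalAt z) ∧ Module.finrank ℝ U = j ∧ a j ≤ (wt h U : ℝ)
  have hsel : ∀ z ∈ P, ∃ j U, j ∈ Icc 2 d ∧ U ≤ LinearMap.ker (evalAt z) ∧
      Module.finrank ℝ U = j ∧ a j ≤ (wt h U : ℝ) ∧
      ∀ U' ≤ U, Module.finrank ℝ U' + 1 = j → (wt h U' : ℝ) ≤ η j * a j := by
    intro z hz
    have htop : RichAt z d := by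
      refine ⟨_, le_rfl, finrank_ker_evalAt z, ?_⟩
      have h1 : wt h (LinearMap.ker (evalAt z)) =
          (Finset.card (E.filter fun x => dist z x.1 = dist z x.2)) := by
        rw [hwtE]
        exact congrArg card (filter_congr fun x _ => by rw [LinearMap.mem_ker, evalAt_bis_eq_zero])
      rw [h1]
      refine le_trans ?_ (hEeq z hz)
      exact mul_le_of_le_one_left (by positivity) (hθ1 d)
    have hfin : ∃ j, RichAt z j := ⟨d, htop⟩
    set j := Nat.find hfin with hjdef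
    obtain ⟨U, hU1, hU2, hU3⟩ := Nat.find_spec hfin
    have hjd : j ≤ d := Nat.find_min' hfin htop
    have hj2 : 2 ≤ j := by
      by_contra hcon
      have hlow : (wt h U : ℝ) ≤ M := by
        rcases Nat.le_one_iff_eq_zero_or_eq_one.1 (by omega : j ≤ 1) with h' | h'
        · have hU0 : U = ⊥ := Submodule.finrank_eq_zero.1 (by rw [hU2]; exact h')
          have : wt h U = 0 := by
            rw [wt, Set.ncard_eq_zero]
            ext x
            simp [hU0, h0 x]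
          rw [this]; push_cast; linarith
        · have hr1 : Module.finrank ℝ U = 1 := by rw [hU2]; exact h'
          obtain ⟨v, hv, hspan⟩ := finrank_eq_one_iff'.1 hr1
          have hUv : U ≤ ℝ ∙ (v : Sp d × ℝ) := fun x hx => by
            obtain ⟨c, hc⟩ := hspan ⟨x, hx⟩
            exact mem_span_singleton.2 ⟨c, congrArg Subtype.val hc⟩
          refine le_trans ?_ (hcap v)
          exact_mod_cast wt_mono h hUv
      have h1 := hMa j hjd
      have h2 : M < (Kj j + 1) * M := by nlinarith [hKj j]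
      linarith
    refine ⟨j, U, mem_Icc.2 ⟨hj2, hjd⟩, hU1, hU2, hU3, fun U' hU' hrk => ?_⟩
    have hnot := Nat.find_min hfin (show j - 1 < j by omega)
    have h1 : (wt h U' : ℝ) < a (j - 1) :=
      not_le.1 fun hle => hnot ⟨U', hU'.trans hU1, by omega, hle⟩
    have h2 : a (j - 1) = η j * a j := by
      simp only [ha]
      rw [hθsucc (j - 1) (by omega), show j - 1 + 1 = j by omega, mul_assoc]
    linarith
  choose! J Uz hJ hUker hUrank hUwt hUsub using hsel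
  have hEN : ((Finset.card E) : ℝ) ≤ (r : ℝ) * ((s : ℝ) * s) := by exact_mod_cast hEcard
  have hcountU : ∀ j ∈ Icc 2 d, ((Finset.card ((P.filter fun z => J z = j).image Uz)) : ℝ) ≤
      T₂ * ((s : ℝ) ^ j * ℓ / (r : ℝ) ^ ((d : ℝ)⁻¹) + (s : ℝ) ^ (j - 1)) := by
    intro j hj
    obtain ⟨hj2, hjd⟩ := mem_Icc.1 hj
    have hb := hflats j hj2 (Sp d × ℝ) {x : Sp d × Sp d // x ∈ E} h h0 M (a j) hM1
      (le_trans (by gcongr; linarith) (hMa j hjd)) hcap ((P.filter fun z => J z = j).image Uz) ?_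
    · refine hb.trans ?_
      rw [Fintype.card_coe]
      refine count_alg hr0 hs0 (hθ0 j) (hθ1 j) (hDj j) (by linarith) (by linarith) (Nat.cast_nonneg _)
        hEN ?_ (hT₂' j hjd)
      simp only [hM, hu]
    · intro U hU
      obtain ⟨z, hz, rfl⟩ := mem_image.1 hU
      obtain ⟨hzP, rfl⟩ := mem_filter.1 hz
      exact ⟨hUrank z hzP, hUwt z hzP, hUsub z hzP⟩
  have hfiber : ∀ j ∈ Icc 2 d, ((Finset.card (P.filter fun z => J z = j)) : ℝ) ≤
      ((Finset.card ((P.filter fun z => J z = j).image Uz)) : ℝ) *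
        (B * ((t : ℝ) + 2) ^ expo (d - j) * ℓ ^ A) := by
    intro j hj
    rw [card_eq_sum_card_image Uz]
    push_cast
    rw [← nsmul_eq_mul]
    refine sum_le_card_nsmul _ _ _ fun U hU => ?_
    obtain ⟨z, hz, rfl⟩ := mem_image.1 hU
    obtain ⟨hzP, rfl⟩ := mem_filter.1 hz
    obtain ⟨W, hW, hWS⟩ := exists_direction (Uz z) (hUker z hzP)
    obtain ⟨hj2, hjd⟩ := mem_Icc.1 hj
    have hfr : Module.finrank ℝ W = d - J z := by have := hUrank z hzP; omega
    set S := (P.filter fun y => J y = J z).filter fun y => Uz y = Uz z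
    have hS : S ⊆ P := (filter_subset _ _).trans (filter_subset _ _)
    have hSker : ∀ x ∈ S, Uz z ≤ LinearMap.ker (evalAt x) := by
      intro x hx
      rw [← (mem_filter.1 hx).2]
      exact hUker x (hS hx)
    refine (card_flat_le (hsmall _ (by omega)) W hfr hS
      (fun x hx y hy => hWS x y (hSker x hx) (hSker y hy)) ht).trans ?_
    refine mul_le_mul_of_nonneg_left (pow_le_pow_left₀ (Real.log_nonneg ?_) ?_ _) (by positivity)
    · have : (0 : ℝ) ≤ (Finset.card S) := Nat.cast_nonneg _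
      linarith
    · refine Real.log_le_log (by positivity) ?_
      have : ((Finset.card S) : ℝ) ≤ n := by exact_mod_cast card_le_card hS
      linarith
  have hsum : (n : ℝ) = ∑ j ∈ Icc 2 d, ((Finset.card (P.filter fun z => J z = j)) : ℝ) := by
    exact_mod_cast card_eq_sum_card_fiberwise (fun z hz => hJ z hz)
  rw [hsum, mul_sum]
  refine sum_le_sum fun j hj => ?_
  refine (hfiber j hj).trans ?_
  refine (mul_le_mul_of_nonneg_right (hcountU j hj) (by positivity)).trans ?_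
  have hKB : T₂ * B ≤ K := by rw [hKdef]; nlinarith
  have h1 : 0 ≤ ((s : ℝ) ^ j * ℓ / (r : ℝ) ^ ((d : ℝ)⁻¹) + (s : ℝ) ^ (j - 1)) *
      (((t : ℝ) + 2) ^ expo (d - j) * ℓ ^ A) := by positivity
  refine le_trans (le_of_eq ?_) (mul_le_mul_of_nonneg_right hKB h1)
  ring

end

end Vale.Agent.P054
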